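import Vale.Agent.P148.H70.Disc

/-!
# P148: `2n` boundary arcs of the disc and two closed sets covering the disc
-/

open Set Metric Topology Filter

namespace P148.H70

/-- a continuum in `P` joins `S` to `T` -/
def Conn (P S T : Set ℂ) : Prop :=
  ∃ W ⊆ P, IsCompact W ∧ IsPreconnected W ∧ (W ∩ S).Nonempty ∧ (W ∩ T).Nonempty

theorem Conn.symm {P S T : Set ℂ} (h : Conn P S T) : Conn P T S := by
  obtain ⟨W, a, b, c, d, e⟩ := h
  exact ⟨W, a, b, c, e, d⟩

/-- the arc of the unit circle between the arguments `θ i` and `θ (i+1)` -/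
noncomputable def uarc (θ : ℤ → ℝ) (i : ℤ) : Set ℂ := cis '' Icc (θ i) (θ (i + 1))

/-- `P` for even `i`, `Q` for odd `i` -/
noncomputable def col (P Q : Set ℂ) (i : ℤ) : Set ℂ := if Even i then P else Q

theorem col_add_two (P Q : Set ℂ) (i : ℤ) (k : ℤ) : col P Q (i + 2 * k) = col P Q i := by
  unfold col
  have : Even (i + 2 * k) ↔ Even i := by
    rw [Int.even_add]; simp
  simp only [this]

theorem isCompact_uarc (θ : ℤ → ℝ) (i : ℤ) : IsCompact (uarc θ i) :=
  isCompact_Icc.image continuous_cis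

theorem uarc_subset (θ : ℤ → ℝ) (i : ℤ) : uarc θ i ⊆ closedBall 0 1 := by
  rintro _ ⟨u, _, rfl⟩
  exact cis_mem' u

theorem uarc_per {n : ℕ} {θ : ℤ → ℝ} (hθ : Marks n θ) (i : ℤ) : uarc θ (i + 2 * n) = uarc θ i := by
  unfold uarc
  rw [show i + 2 * (n : ℤ) + 1 = (i + 1) + 2 * n by ring, hθ.per, hθ.per]
  ext x
  constructor
  · rintro ⟨u, hu, rfl⟩
    refine ⟨u - 2 * Real.pi, ⟨by linarith [hu.1], by linarith [hu.2]⟩, ?_⟩
    have := cis_add_two_pi (u - 2 * Real.pi)
    rw [← this]; congr 1; ring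
  · rintro ⟨u, hu, rfl⟩
    exact ⟨u + 2 * Real.pi, ⟨by linarith [hu.1], by linarith [hu.2]⟩, cis_add_two_pi u⟩

/-- an argument in a given fundamental interval belonging to an arc -/
theorem mem_uarc_iff {n : ℕ} {θ : ℤ → ℝ} (hθ : Marks n θ) {i j : ℤ} (hij : i ≤ j)
    (hji : j < i + 2 * n) {v : ℝ} (hv : v ∈ Ico (θ i) (θ i + 2 * Real.pi)) (h : cis v ∈ uarc θ j) :
    v ∈ Icc (θ j) (θ (j + 1)) ∨ (v = θ i ∧ j + 1 = i + 2 * n) := by
  obtain ⟨u, hu, he⟩ := h
  have h1 : θ i ≤ u := (hθ.mono.monotone hij).trans hu.1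
  have h2 : u ≤ θ i + 2 * Real.pi := by
    rw [← hθ.per]; exact hu.2.trans (hθ.mono.monotone (by omega))
  rcases h2.lt_or_eq with h3 | h3
  · have := cis_injOn (θ i) ⟨h1, h3⟩ hv he
    left; rw [← this]; exact hu
  · have h4 : cis u = cis (θ i) := by rw [h3, cis_add_two_pi]
    have h5 := cis_injOn (θ i) ⟨le_rfl, by linarith [Real.pi_pos]⟩ hv (h4.symm.trans he)
    right
    refine ⟨h5.symm, ?_⟩
    by_contra hne
    have h6 : θ (j + 1) < θ (i + 2 * n) := hθ.mono (by omega)
    rw [hθ.per] at h6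
    linarith [hu.2]

/-- different arcs of the same parity are disjoint -/
theorem uarc_disjoint {n : ℕ} {θ : ℤ → ℝ} (hθ : Marks n θ) {i j : ℤ} (hij : i + 1 < j)
    (hji : j + 1 < i + 2 * n) : Disjoint (uarc θ i) (uarc θ j) := by
  rw [Set.disjoint_left]
  rintro _ ⟨u, hu, rfl⟩ hx
  have h0 : u ∈ Ico (θ i) (θ i + 2 * Real.pi) := by
    refine ⟨hu.1, hu.2.trans_lt ?_⟩
    rw [← hθ.per]; exact hθ.mono (by omega)
  rcases mem_uarc_iff hθ (by omega) (by omega) h0 hx with h | h
  · have := hθ.mono hij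
    linarith [hu.2, h.1]
  · omega

theorem exists_index {θ : ℤ → ℝ} (a : ℤ) (k : ℕ) {v : ℝ} (h1 : θ a ≤ v) (h2 : v < θ (a + k)) :
    ∃ r, a ≤ r ∧ r < a + k ∧ v ∈ Ico (θ r) (θ (r + 1)) := by
  induction k with
  | zero => simp at h2; linarith
  | succ k ih =>
    by_cases h3 : v < θ (a + k)
    · obtain ⟨r, r1, r2, r3⟩ := ih h3
      exact ⟨r, r1, by push_cast; omega, r3⟩
    · push Not at h3
      refine ⟨a + k, by omega, by push_cast; omega, h3, ?_⟩
      rw [show a + (k : ℤ) + 1 = a + ((k + 1 : ℕ) : ℤ) by push_cast; ring]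
      exact h2

/-- The basic step. `C` and `C'` are the two colours, `i` has colour `C`, and no continuum of `C`
joins the arc `j` (where `j = i + 2` or `i = j + 2 - 2n`) to the union `J` of some arcs. -/
theorem other_color {C C' : Set ℂ} (hC : IsCompact C) (hcov : closedBall (0 : ℂ) 1 ⊆ C ∪ C')
    (hCb : C ⊆ closedBall 0 1) {S J : Set ℂ} (hS : IsCompact S) (hJ : IsCompact J)
    (hSb : S ⊆ closedBall 0 1) (hJb : J ⊆ closedBall 0 1) (hSJ : Disjoint S J)
    (hno : ¬ Conn C S J) {α β : ℝ} (h1 : α < β) (h2 : β < α + 2 * Real.pi)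
    (hα : cis α ∈ S) (hβ : cis β ∈ J) :
    ∃ W P₁ P₂ : Set ℂ, IsCompact P₁ ∧ IsCompact P₂ ∧ Disjoint P₁ P₂ ∧ P₁ ∪ P₂ = C ∧
      C ∩ S ⊆ P₁ ∧ C ∩ J ⊆ P₂ ∧ W ⊆ C' ∧ W ⊆ closedBall 0 1 ∧
      IsCompact W ∧ IsPreconnected W ∧ Disjoint W C ∧ Disjoint W S ∧ Disjoint W J ∧
      (∃ u ∈ Ioo α β, cis u ∈ W) ∧ ∃ u ∈ Ioo β (α + 2 * Real.pi), cis u ∈ W := by
  rcases P073.PH.part hC hS.isClosed hJ.isClosed with h | ⟨P₁, P₂, p1, p2, p3, p4, p5, p6⟩
  · exact absurd h hno
  · have b1 : P₁ ∪ S ⊆ closedBall 0 1 :=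
      union_subset ((subset_union_left.trans p4.subset).trans hCb) hSb
    have b2 : P₂ ∪ J ⊆ closedBall 0 1 :=
      union_subset ((subset_union_right.trans p4.subset).trans hCb) hJb
    have hd : Disjoint (P₁ ∪ S) (P₂ ∪ J) := by
      rw [Set.disjoint_left]
      rintro x (hx | hx) (hx' | hx')
      · exact Set.disjoint_left.1 p3 hx hx'
      · exact Set.disjoint_left.1 p3 hx (p6 ⟨p4 ▸ Or.inl hx, hx'⟩)
      · exact Set.disjoint_left.1 p3 (p5 ⟨p4 ▸ Or.inr hx', hx⟩) hx'
      · exact Set.disjoint_left.1 hSJ hx hx'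
    obtain ⟨W, w1, w2, w3, w4, w5, w6⟩ := hex_disc h1 h2 (p1.union hS) (p2.union hJ) b1 b2 hd
      (Or.inr hα) (Or.inr hβ)
    have hWC : Disjoint W C := by
      rw [Set.disjoint_left]
      intro x hx hxC
      rw [← p4] at hxC
      rcases hxC with hxC | hxC
      · exact Set.disjoint_left.1 w4 hx (Or.inl (Or.inl hxC))
      · exact Set.disjoint_left.1 w4 hx (Or.inr (Or.inl hxC))
    refine ⟨W, P₁, P₂, p1, p2, p3, p4, p5, p6, ?_, w1, w2, w3, hWC,
      w4.mono_right (subset_union_of_subset_left subset_union_right _),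
      w4.mono_right (subset_union_of_subset_right subset_union_right _), w5, w6⟩
    intro x hx
    rcases hcov (w1 hx) with h | h
    · exact absurd h (Set.disjoint_left.1 hWC hx)
    · exact h

section
variable {P Q : Set ℂ} (hP : IsCompact P) (hQ : IsCompact Q) (hPb : P ⊆ closedBall 0 1)
  (hQb : Q ⊆ closedBall 0 1) (hcov : closedBall (0 : ℂ) 1 ⊆ P ∪ Q)
include hP hQ hPb hQb hcov

theorem isCompact_col (i : ℤ) : IsCompact (col P Q i) := by
  unfold col; split_ifs <;> assumption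

theorem col_subset (i : ℤ) : col P Q i ⊆ closedBall 0 1 := by
  unfold col; split_ifs <;> assumption

theorem col_cover (i : ℤ) : closedBall (0 : ℂ) 1 ⊆ col P Q i ∪ col P Q (i + 1) := by
  unfold col
  by_cases h : Even i
  · rw [if_pos h, if_neg (by rw [Int.even_add_one]; exact not_not.2 h)]; exact hcov
  · rw [if_neg h, if_pos (Int.even_add_one.2 h), union_comm]; exact hcov

/-- **Adjacent connections below a given connection.** -/
theorem exists_adjacent {n : ℕ} {θ : ℤ → ℝ} (hθ : Marks n θ) (k : ℕ) :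
    ∀ i : ℤ, 1 ≤ k → k < n → Conn (col P Q i) (uarc θ i) (uarc θ (i + 2 * k)) →
      ∃ l, i ≤ l ∧ l + 2 ≤ i + 2 * k ∧ Conn (col P Q l) (uarc θ l) (uarc θ (l + 2)) := by
  induction k using Nat.strong_induction_on with
  | _ k ih =>
    intro i hk1 hkn hconn
    rcases hk1.eq_or_lt with rfl | hk2
    · exact ⟨i, le_rfl, by norm_num, by simpa using hconn⟩
    · have hCi := isCompact_col hP hQ hPb hQb hcov i
      set J : Set ℂ := ⋃ j ∈ (Finset.range (k + 1)).erase 1, uarc θ (i + 2 * j) with hJ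
      have hJc : IsCompact J := Finset.isCompact_biUnion _ fun j _ => isCompact_uarc θ _
      by_cases hc : Conn (col P Q i) (uarc θ (i + 2)) J
      · obtain ⟨W, w1, w2, w3, w4, ⟨x, hxW, hxJ⟩⟩ := hc
        rw [hJ] at hxJ
        simp only [mem_iUnion] at hxJ
        obtain ⟨j, hj, hxj⟩ := hxJ
        rw [Finset.mem_erase, Finset.mem_range] at hj
        rcases Nat.eq_zero_or_pos j with rfl | hj0
        · refine ⟨i, le_rfl, by omega, ⟨W, w1, w2, w3, ⟨x, hxW, by simpa using hxj⟩, w4⟩⟩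
        · obtain ⟨l, l1, l2, l3⟩ := ih (j - 1) (by omega) (i + 2) (by omega) (by omega) (by
            rw [show i + 2 = i + 2 * 1 by ring, col_add_two]
            refine ⟨W, w1, w2, w3, by simpa using w4, ⟨x, hxW, ?_⟩⟩
            rw [show i + 2 * 1 + 2 * ((j - 1 : ℕ) : ℤ) = i + 2 * j by
              rw [Nat.cast_sub (by omega)]; push_cast; ring]
            exact hxj)
          refine ⟨l, by omega, ?_, l3⟩
          have : ((j - 1 : ℕ) : ℤ) = j - 1 := by rw [Nat.cast_sub (by omega)]; push_cast; ring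
          rw [this] at l2
          omega
      · have hcJ : ¬ Conn (col P Q i) J (uarc θ (i + 2)) := fun h => hc h.symm
        have hJb : J ⊆ closedBall 0 1 := by
          rw [hJ]; exact iUnion₂_subset fun j _ => uarc_subset θ _
        have hdis : Disjoint J (uarc θ (i + 2)) := by
          rw [hJ, Set.disjoint_iUnion₂_left]
          intro j hj
          rw [Finset.mem_erase, Finset.mem_range] at hj
          rcases Nat.eq_zero_or_pos j with rfl | hj0
          · have := uarc_disjoint hθ (i := i) (j := i + 2) (by omega) (by omega)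
            simpa using this
          · exact (uarc_disjoint hθ (i := i + 2) (j := i + 2 * j) (by omega) (by omega)).symm
        have m12 := hθ.mono (show i + 1 < i + 2 by omega)
        have hend : θ (i + 2) < θ (i + 1) + 2 * Real.pi := by
          rw [← hθ.per]; exact hθ.mono (by omega)
        obtain ⟨W, P₁, P₂, p1, p2, p3, p4, p5, p6, w1, w2, w3, w4, w5, w6, w7, ⟨u, hu, huW⟩,
          ⟨v, hv, hvW⟩⟩ := other_color hCi (col_cover hP hQ hPb hQb hcov i)
            (col_subset hP hQ hPb hQb hcov i) hJc (isCompact_uarc θ (i + 2)) hJb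
            (uarc_subset θ _) hdis hcJ m12 hend (by
              rw [hJ]
              simp only [mem_iUnion]
              refine ⟨0, by simp, θ (i + 1), ?_, rfl⟩
              simp only [Nat.cast_zero, mul_zero, add_zero]
              exact ⟨hθ.mono.monotone (by omega), le_rfl⟩)
            ⟨θ (i + 2), ⟨le_rfl, hθ.mono.monotone (by omega)⟩, rfl⟩
        -- the given continuum
        obtain ⟨X, x1, x2, x3, ⟨_, hyX, ⟨y, hy, rfl⟩⟩, ⟨_, hzX, ⟨z, hz, rfl⟩⟩⟩ := hconn
        have hXP : X ⊆ P₁ := by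
          rcases isPreconnected_iff_subset_of_disjoint_closed.1 x3 P₁ P₂ p1.isClosed p2.isClosed
            (by rw [p4]; exact x1) (by rw [p3.inter_eq, inter_empty]) with h | h
          · exact h
          · exfalso
            refine Set.disjoint_left.1 p3 (p5 ⟨x1 hyX, ?_⟩) (h hyX)
            rw [hJ]
            simp only [mem_iUnion]
            exact ⟨0, by simp, y, by simpa using hy, rfl⟩
        have hXW : ¬ (X ∩ W).Nonempty := by
          rintro ⟨x, hx, hx'⟩
          exact Set.disjoint_left.1 w5 hx' (x1 hx)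
        -- `v` is not outside
        have hvk : v ≤ θ (i + 2 * k + 1) := by
          by_contra hcon
          push Not at hcon
          have hvi : v < θ i + 2 * Real.pi := by
            by_contra hcon2
            push Not at hcon2
            refine Set.disjoint_left.1 w6 hvW ?_
            rw [hJ]
            simp only [mem_iUnion]
            refine ⟨0, by simp, v - 2 * Real.pi, ?_, ?_⟩
            · simp only [Nat.cast_zero, mul_zero, add_zero]
              exact ⟨by linarith, by linarith [hv.2]⟩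
            · have := cis_add_two_pi (v - 2 * Real.pi)
              rw [← this]; congr 1; ring
          apply hXW
          have e1 : θ (i + 1) < θ (i + 2 * k) := hθ.mono (by omega)
          have e2 : θ (i + 2 * k + 1) < θ i + 2 * Real.pi := by
            rw [← hθ.per]; exact hθ.mono (by omega)
          have e3 : θ (i + 2) ≤ θ (i + 2 * k) := hθ.mono.monotone (by omega)
          exact cross_disc (α := y) (β := z) (by linarith [hy.2, hz.1]) (by linarith [hz.2, hy.1])
            x2 x3 (x1.trans (col_subset hP hQ hPb hQb hcov i)) w3 w4 w2 hyX hzX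
            (u := u) (v := v) ⟨by linarith [hy.2, hu.1], by linarith [hu.2, hz.1]⟩ huW
            ⟨by linarith [hz.2], by linarith [hy.1]⟩ hvW
        have hvk' : v < θ (i + 2 * k + 1) := by
          refine lt_of_le_of_ne hvk ?_
          rintro rfl
          refine Set.disjoint_left.1 w6 hvW ?_
          rw [hJ]
          simp only [mem_iUnion]
          refine ⟨k, ?_, θ (i + 2 * k + 1), ⟨hθ.mono.monotone (by omega), le_rfl⟩, rfl⟩
          rw [Finset.mem_erase, Finset.mem_range]; omega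
        obtain ⟨r, r1, r2, r3⟩ := exists_index (θ := θ) (i + 2) (2 * k - 1) hv.1.le (by
          rw [show i + 2 + ((2 * k - 1 : ℕ) : ℤ) = i + 2 * k + 1 by
            rw [Nat.cast_sub (by omega)]; push_cast; ring]
          exact hvk')
        have r2' : r < i + 2 * k + 1 := by
          rw [Nat.cast_sub (by omega)] at r2; push_cast at r2; omega
        have hvr : cis v ∈ uarc θ r := ⟨v, ⟨r3.1, r3.2.le⟩, rfl⟩
        -- `r - i` is odd
        obtain ⟨j, hj⟩ : ∃ j : ℕ, r = i + 2 * j + 1 := by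
          rcases Int.even_or_odd (r - i) with ⟨c, hc'⟩ | ⟨c, hc'⟩
          · exfalso
            obtain ⟨d, rfl⟩ : ∃ d : ℕ, c = d := ⟨c.toNat, by omega⟩
            have hr : r = i + 2 * d := by omega
            by_cases hd1 : d = 1
            · subst hd1
              rw [hr] at hvr
              exact Set.disjoint_left.1 w7 hvW (by simpa using hvr)
            · refine Set.disjoint_left.1 w6 hvW ?_
              rw [hJ]
              simp only [mem_iUnion]
              refine ⟨d, ?_, by rw [hr] at hvr; exact hvr⟩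
              rw [Finset.mem_erase, Finset.mem_range]; omega
          · exact ⟨c.toNat, by omega⟩
        have hj1 : 1 ≤ j := by omega
        have hjk : j < k := by omega
        obtain ⟨l, l1, l2, l3⟩ := ih j hjk (i + 1) hj1 (by omega) ⟨W, w1, w3, w4,
          ⟨cis u, huW, u, ⟨hu.1.le, by
            rw [show i + 1 + 1 = i + 2 by ring]; exact hu.2.le⟩, rfl⟩,
          ⟨cis v, hvW, by rw [hj] at hvr; rwa [show i + 1 + 2 * (j : ℤ) = i + 2 * j + 1 by ring]⟩⟩
        exact ⟨l, by omega, by omega, l3⟩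

/-- there is a connection between different arcs of the same parity -/
theorem exists_conn {n : ℕ} (hn : 2 ≤ n) {θ : ℤ → ℝ} (hθ : Marks n θ) :
    ∃ (i : ℤ) (k : ℕ), 1 ≤ k ∧ k < n ∧ Conn (col P Q i) (uarc θ i) (uarc θ (i + 2 * k)) := by
  by_contra hcon
  push Not at hcon
  set J : Set ℂ := ⋃ j ∈ (Finset.range n).erase 0, uarc θ (0 + 2 * j) with hJ
  have hJc : IsCompact J := Finset.isCompact_biUnion _ fun j _ => isCompact_uarc θ _
  have hJb : J ⊆ closedBall 0 1 := by
    rw [hJ]; exact iUnion₂_subset fun j _ => uarc_subset θ _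
  have hno : ¬ Conn (col P Q 0) (uarc θ 0) J := by
    rintro ⟨W, w1, w2, w3, w4, ⟨x, hxW, hxJ⟩⟩
    rw [hJ] at hxJ
    simp only [mem_iUnion] at hxJ
    obtain ⟨j, hj, hxj⟩ := hxJ
    rw [Finset.mem_erase, Finset.mem_range] at hj
    exact hcon 0 j (by omega) hj.2 ⟨W, w1, w2, w3, w4, ⟨x, hxW, hxj⟩⟩
  have hdis : Disjoint (uarc θ 0) J := by
    rw [hJ, Set.disjoint_iUnion₂_right]
    intro j hj
    rw [Finset.mem_erase, Finset.mem_range] at hj
    exact uarc_disjoint hθ (by omega) (by omega)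
  have m12 := hθ.mono (show (1 : ℤ) < 2 by omega)
  have hend : θ 2 < θ 1 + 2 * Real.pi := by
    rw [← hθ.per]; exact hθ.mono (by omega)
  obtain ⟨W, P₁, P₂, p1, p2, p3, p4, p5, p6, w1, w2, w3, w4, w5, w6, w7, ⟨u, hu, huW⟩,
    ⟨v, hv, hvW⟩⟩ := other_color (isCompact_col hP hQ hPb hQb hcov 0)
      (col_cover hP hQ hPb hQb hcov 0)
      (col_subset hP hQ hPb hQb hcov 0) (isCompact_uarc θ 0) hJc (uarc_subset θ _) hJb
      hdis hno m12 hend ⟨θ 1, ⟨hθ.mono.monotone (by omega), le_rfl⟩, rfl⟩ (by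
        rw [hJ]
        simp only [mem_iUnion]
        refine ⟨1, ?_, θ 2, ?_, rfl⟩
        · rw [Finset.mem_erase, Finset.mem_range]; omega
        · simp only [Nat.cast_one, mul_one, zero_add]
          exact ⟨le_rfl, hθ.mono.monotone (by omega)⟩)
  have hv2 : v < θ (2 * n) := by
    have h00 := hθ.per 0
    rw [zero_add] at h00
    by_contra hcon2
    push Not at hcon2
    refine Set.disjoint_left.1 w6 hvW ⟨v - 2 * Real.pi, ?_, ?_⟩
    · rw [zero_add]
      exact ⟨by linarith, by linarith [hv.2]⟩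
    · have := cis_add_two_pi (v - 2 * Real.pi)
      rw [← this]; congr 1; ring
  obtain ⟨r, r1, r2, r3⟩ := exists_index (θ := θ) 2 (2 * n - 2) hv.1.le (by
    rw [show (2 : ℤ) + ((2 * n - 2 : ℕ) : ℤ) = 2 * n by
      rw [Nat.cast_sub (by omega)]; push_cast; ring]
    exact hv2)
  have r2' : r < 2 * n := by
    rw [Nat.cast_sub (by omega)] at r2; push_cast at r2; omega
  have hvr : cis v ∈ uarc θ r := ⟨v, ⟨r3.1, r3.2.le⟩, rfl⟩
  rcases Int.even_or_odd r with ⟨c, hc'⟩ | ⟨c, hc'⟩
  · obtain ⟨d, rfl⟩ : ∃ d : ℕ, c = d := ⟨c.toNat, by omega⟩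
    refine Set.disjoint_left.1 w7 hvW ?_
    rw [hJ]
    simp only [mem_iUnion]
    refine ⟨d, ?_, ?_⟩
    · rw [Finset.mem_erase, Finset.mem_range]; omega
    · rwa [show (0 : ℤ) + 2 * d = r by omega]
  · obtain ⟨d, rfl⟩ : ∃ d : ℕ, c = d := ⟨c.toNat, by omega⟩
    refine hcon 1 d (by omega) (by omega) ⟨W, ?_, w3, w4, ⟨cis u, huW, u, ⟨hu.1.le, ?_⟩, rfl⟩,
      ⟨cis v, hvW, ?_⟩⟩
    · simpa using w1
    · rw [show (1 : ℤ) + 1 = 2 by ring]; exact hu.2.le
    · rwa [show (1 : ℤ) + 2 * d = r by omega]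

/-- **At least two adjacent connections.** -/
theorem two_le_card {n : ℕ} (hn : 2 ≤ n) {θ : ℤ → ℝ} (hθ : Marks n θ) :
    ∃ j₁ < 2 * n, ∃ j₂ < 2 * n, j₁ ≠ j₂ ∧
      Conn (col P Q (j₁ : ℕ)) (uarc θ (j₁ : ℕ)) (uarc θ ((j₁ : ℕ) + 2)) ∧
      Conn (col P Q (j₂ : ℕ)) (uarc θ (j₂ : ℕ)) (uarc θ ((j₂ : ℕ) + 2)) := by
  obtain ⟨i, k, hk1, hkn, hc⟩ := exists_conn hP hQ hPb hQb hcov hn hθ
  obtain ⟨l, l1, l2, l3⟩ := exists_adjacent hP hQ hPb hQb hcov hθ k i hk1 hkn hc
  obtain ⟨l', l1', l2', l3'⟩ := exists_adjacent hP hQ hPb hQb hcov hθ (n - k) (i + 2 * k)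
    (by omega) (by omega) (by
      rw [col_add_two, show i + 2 * (k : ℤ) + 2 * ((n - k : ℕ) : ℤ) = i + 2 * n by
        rw [Nat.cast_sub hkn.le]; ring, uarc_per hθ]
      exact hc.symm)
  have hn0 : (0 : ℤ) < 2 * n := by omega
  have shift : ∀ m : ℤ, Conn (col P Q m) (uarc θ m) (uarc θ (m + 2)) →
      ∃ j < 2 * n, (j : ℤ) = m % (2 * n) ∧
        Conn (col P Q (j : ℕ)) (uarc θ (j : ℕ)) (uarc θ ((j : ℕ) + 2)) := by
    intro m hm
    have e0 := Int.emod_nonneg m hn0.ne'
    have e1 := Int.emod_lt_of_pos m hn0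
    have e2 : ((m % (2 * n)).toNat : ℤ) = m % (2 * n) := Int.toNat_of_nonneg e0
    refine ⟨(m % (2 * n)).toNat, by omega, e2, ?_⟩
    rw [e2]
    have e3 : m = m % (2 * n) + 2 * (n * (m / (2 * n))) := by
      have := Int.emod_add_mul_ediv m (2 * n)
      linarith
    have e4 : ∀ (a c : ℤ), uarc θ (a + 2 * (n * c)) = uarc θ a := by
      intro a c
      have pos : ∀ (a : ℤ) (c : ℕ), uarc θ (a + 2 * (n * c)) = uarc θ a := by
        intro a c
        induction c with
        | zero => simp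
        | succ c ih =>
          rw [show a + 2 * ((n : ℤ) * ((c + 1 : ℕ) : ℤ)) = (a + 2 * (n * c)) + 2 * n by
            push_cast; ring, uarc_per hθ, ih]
      rcases Int.eq_nat_or_neg c with ⟨d, rfl | rfl⟩
      · exact pos a d
      · have := pos (a + 2 * (n * -(d : ℤ))) d
        rw [← this]; congr 1; ring
    have f1 : col P Q m = col P Q (m % (2 * n)) := by
      conv_lhs => rw [e3]
      exact col_add_two _ _ _ _
    have f2 : uarc θ m = uarc θ (m % (2 * n)) := by
      conv_lhs => rw [e3]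
      exact e4 _ _
    have f3 : uarc θ (m + 2) = uarc θ (m % (2 * n) + 2) := by
      conv_lhs => rw [e3]
      rw [show m % (2 * n) + 2 * (n * (m / (2 * n))) + 2 =
        (m % (2 * n) + 2) + 2 * (n * (m / (2 * n))) by ring]
      exact e4 _ _
    rw [← f1, ← f2, ← f3]
    exact hm
  obtain ⟨j, hj, hj', hjc⟩ := shift l l3
  obtain ⟨j', hj1, hj1', hjc'⟩ := shift l' l3'
  refine ⟨j, hj, j', hj1, ?_, hjc, hjc'⟩
  intro he
  have h1 : l % (2 * n) = l' % (2 * n) := by rw [← hj', ← hj1', he]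
  have h2 : (2 * (n : ℤ)) ∣ l' - l := Int.ModEq.dvd h1
  have h3 : 0 < l' - l := by omega
  have h4 := Int.le_of_dvd h3 h2
  rw [Nat.cast_sub hkn.le] at l2'
  omega

end

end P148.H70
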