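import Mathlib

/-!
# P148: definitions (annealed Voronoi percolation, quads)
-/

open Set MeasureTheory ProbabilityTheory
open scoped ENNReal

namespace P148.H70

/-- The point of the unit circle with argument `t`. -/
noncomputable def cis (t : ℝ) : ℂ := Complex.exp (t * Complex.I)

/-- The random set `X` is a Poisson point process with intensity measure `ν`: the numbers of points
of `X` in disjoint measurable sets are independent random variables, and the number of points in a
set `A` of finite measure has the Poisson law of parameter `ν A`. -/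
structure IsPoissonProcess {Ω E : Type*} [MeasurableSpace Ω] [MeasurableSpace E]
    (P : Measure Ω) (ν : Measure E) (X : Ω → Set E) : Prop where
  measurable : ∀ A, MeasurableSet A → Measurable fun ω => (X ω ∩ A).encard
  indep : ∀ (k : ℕ) (A : Fin k → Set E), (∀ i, MeasurableSet (A i)) →
    Pairwise (Function.onFun Disjoint A) → iIndepFun (fun i ω => (X ω ∩ A i).encard) P
  law : ∀ A, MeasurableSet A → ν A ≠ ∞ → ∀ j : ℕ, P {ω | (X ω ∩ A).encard = j} =
    ENNReal.ofReal (Real.exp (-(ν A).toReal) * (ν A).toReal ^ j / j.factorial)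

/-- The intensity measure of the coloured points: points of intensity `ε⁻²` in the plane, each
with a colour, `true` (black) or `false` (white) with probability `1/2`. -/
noncomputable def intensity (ε : ℝ) : Measure (ℂ × Bool) :=
  ENNReal.ofReal (ε⁻¹ ^ 2) • (volume : Measure ℂ).prod ((2⁻¹ : ℝ≥0∞) • Measure.count)

/-- The closed Voronoi cell of `v`, for the coloured point set `X`. -/
def cell (X : Set (ℂ × Bool)) (v : ℂ) : Set ℂ := {z | ∀ p ∈ X, dist z v ≤ dist z p.1}

/-- The union of the closed cells of colour `c`. -/
def region (X : Set (ℂ × Bool)) (c : Bool) : Set ℂ := {z | ∃ v, (v, c) ∈ X ∧ z ∈ cell X v}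

/-- The union of the cells of colour `c`, intersected with `D`, contains a connected set which
meets `A` and `B`. -/
def Crosses (c : Bool) (X : Set (ℂ × Bool)) (D A B : Set ℂ) : Prop :=
  ∃ C ⊆ region X c ∩ D, IsConnected C ∧ (C ∩ A).Nonempty ∧ (C ∩ B).Nonempty

/-- The probability of a black crossing, in the closed Jordan domain `Φ '' closedBall 0 1`, from
the boundary arc `Φ (e^{iu})`, `a ≤ u ≤ b`, to the boundary arc `Φ (e^{iu})`, `c ≤ u ≤ d`. -/
noncomputable def crossProb {Ω : Type*} [MeasurableSpace Ω] (P : Measure Ω)
    (X : Ω → Set (ℂ × Bool)) (Φ : ℂ → ℂ) (a b c d : ℝ) : ℝ≥0∞ :=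
  P {ω | Crosses true (X ω) (Φ '' Metric.closedBall 0 1) (Φ '' (cis '' Icc a b))
    (Φ '' (cis '' Icc c d))}

/-- marked arguments: `2n` points on the circle in cyclic order -/
structure Marks (n : ℕ) (θ : ℤ → ℝ) : Prop where
  mono : StrictMono θ
  per : ∀ i, θ (i + 2 * n) = θ i + 2 * Real.pi

end P148.H70
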