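import Vale.Agent.P073.H527.Hex
import Vale.Agent.P148.H70.Defs
import Mathlib.Analysis.Convex.GaugeRescale
import Mathlib.Analysis.SpecialFunctions.Complex.Circle

/-!
# P148: the Hex theorem and the crossing lemma in the Euclidean disc
-/

open Set Metric Topology Filter

namespace P148.H70

theorem continuous_cis : Continuous cis := by unfold cis; fun_prop

theorem norm_cis (t : ℝ) : ‖cis t‖ = 1 := Complex.norm_exp_ofReal_mul_I t

theorem cis_mem (t : ℝ) : cis t ∈ sphere (0 : ℂ) 1 := by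
  rw [mem_sphere_zero_iff_norm, norm_cis]

theorem cis_mem' (t : ℝ) : cis t ∈ closedBall (0 : ℂ) 1 := sphere_subset_closedBall (cis_mem t)

theorem cis_eq_iff {s t : ℝ} : cis s = cis t ↔ ∃ n : ℤ, s = t + n * (2 * Real.pi) := by
  unfold cis
  rw [Complex.exp_eq_exp_iff_exists_int]
  constructor
  · rintro ⟨n, hn⟩
    refine ⟨n, ?_⟩
    have h1 : ((s : ℂ) - t - n * (2 * Real.pi)) * Complex.I = 0 := by linear_combination hn
    rcases mul_eq_zero.1 h1 with h | h
    · have h2 : ((s - t - n * (2 * Real.pi) : ℝ) : ℂ) = 0 := by push_cast; exact h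
      have h3 := Complex.ofReal_eq_zero.1 h2
      linarith
    · exact absurd h Complex.I_ne_zero
  · rintro ⟨n, rfl⟩
    refine ⟨n, ?_⟩
    push_cast
    ring

theorem cis_add_two_pi (t : ℝ) : cis (t + 2 * Real.pi) = cis t :=
  cis_eq_iff.2 ⟨1, by push_cast; ring⟩

/-- injectivity on half open intervals of length `2π` -/
theorem cis_injOn (a : ℝ) : InjOn cis (Ico a (a + 2 * Real.pi)) := by
  intro s hs t ht h
  obtain ⟨n, hn⟩ := cis_eq_iff.1 h
  have hp := Real.pi_pos
  have h1 : (n : ℝ) < 1 := by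
    by_contra hc
    push Not at hc
    nlinarith [hs.1, hs.2, ht.1, ht.2]
  have h2 : (-1 : ℝ) < n := by
    by_contra hc
    push Not at hc
    nlinarith [hs.1, hs.2, ht.1, ht.2]
  have h3 : n = 0 := by
    have a1 : n < 1 := by exact_mod_cast h1
    have a2 : -1 < n := by exact_mod_cast h2
    omega
  rw [h3] at hn
  simpa using hn

theorem cis_surj (a : ℝ) {z : ℂ} (hz : z ∈ sphere (0 : ℂ) 1) :
    ∃ t ∈ Ico a (a + 2 * Real.pi), cis t = z := by
  have h1 : ‖z‖ = 1 := mem_sphere_zero_iff_norm.1 hz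
  have h2 : cis (Complex.arg z) = z := by
    have := Complex.norm_mul_exp_arg_mul_I z
    rw [h1] at this
    unfold cis
    simpa using this
  have hp := Real.two_pi_pos
  refine ⟨toIcoMod hp a (Complex.arg z), toIcoMod_mem_Ico hp a _, ?_⟩
  rw [← h2, cis_eq_iff]
  refine ⟨-toIcoDiv hp a (Complex.arg z), ?_⟩
  have := self_sub_toIcoDiv_zsmul hp a (Complex.arg z)
  rw [h2, ← this]
  simp only [zsmul_eq_mul]
  push_cast
  ring

/-- a homeomorphism of the disc onto the square -/
theorem exists_disc_square : ∃ e : ℂ ≃ₜ (Fin 2 → ℝ),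
    e '' closedBall 0 1 = closedBall 0 1 ∧ e '' sphere 0 1 = sphere 0 1 := by
  let L : ℂ ≃L[ℝ] (Fin 2 → ℝ) := Complex.basisOneI.equivFun.toContinuousLinearEquiv
  have hb : Bornology.IsBounded (L '' closedBall (0 : ℂ) 1) :=
    ((isCompact_closedBall (0 : ℂ) 1).image L.continuous).isBounded
  have hc : Convex ℝ (L '' closedBall (0 : ℂ) 1) :=
    (convex_closedBall (0 : ℂ) 1).linear_image L.toLinearEquiv.toLinearMap
  have hint : interior (L '' closedBall (0 : ℂ) 1) = L '' ball 0 1 := by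
    have := L.toHomeomorph.image_interior (closedBall (0 : ℂ) 1)
    rw [interior_closedBall _ one_ne_zero] at this
    exact this.symm
  have hfr : frontier (L '' closedBall (0 : ℂ) 1) = L '' sphere 0 1 := by
    have := L.toHomeomorph.image_frontier (closedBall (0 : ℂ) 1)
    rw [frontier_closedBall _ one_ne_zero] at this
    exact this.symm
  have hcl : closure (L '' closedBall (0 : ℂ) 1) = L '' closedBall 0 1 :=
    (((isCompact_closedBall (0 : ℂ) 1).image L.continuous).isClosed).closure_eq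
  obtain ⟨h, h1, h2, h3⟩ := exists_homeomorph_image_interior_closure_frontier_eq_unitBall hc
    (by rw [hint]; exact ⟨L 0, 0, mem_ball_self one_pos, rfl⟩) hb
  refine ⟨L.toHomeomorph.trans h, ?_, ?_⟩
  · rw [hcl] at h2
    rw [← h2, ← image_comp]
    rfl
  · rw [hfr] at h3
    rw [← h3, ← image_comp]
    rfl

open P073 P073.PH in
/-- comparison of the parametrisations of the circle and of the boundary of the square -/
theorem arcs_match {e : ℂ ≃ₜ (Fin 2 → ℝ)} (hs : e '' sphere 0 1 = sphere 0 1) {α β : ℝ}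
    (h1 : α < β) (h2 : β < α + 2 * Real.pi) :
    ∃ h s t : ℝ, |h| < 1 ∧ 0 < s ∧ s < t ∧ t < 8 ∧
      ((kap h s = e (cis α) ∧ kap h t = e (cis β)) ∨ (kap h s = e (cis β) ∧ kap h t = e (cis α))) ∧
      ((e '' (cis '' Ioo α β) = kap h '' Ioo s t ∧
        e '' (cis '' Ioo β (α + 2 * Real.pi)) = kap h '' (Ico 0 s ∪ Ioo t 8)) ∨
       (e '' (cis '' Ioo α β) = kap h '' (Ico 0 s ∪ Ioo t 8) ∧
        e '' (cis '' Ioo β (α + 2 * Real.pi)) = kap h '' Ioo s t)) := by
  have hp := Real.pi_pos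
  -- choice of `h`
  obtain ⟨h, hh, hα, hβ⟩ : ∃ h : ℝ, |h| < 1 ∧ e (cis α) ≠ kap h 0 ∧ e (cis β) ≠ kap h 0 := by
    by_contra hcon
    push Not at hcon
    have k0 := hcon 0 (by norm_num)
    have k1 := hcon (1 / 2) (by rw [abs_of_pos] <;> norm_num)
    have k2 := hcon (1 / 3) (by rw [abs_of_pos] <;> norm_num)
    simp only [kap_zero] at k0 k1 k2
    have aux : ∀ {x y : ℝ} {v : Fin 2 → ℝ}, v = ![1, x] → v = ![1, y] → x = y := by
      intro x y v e1 e2
      have := congrFun (e1.symm.trans e2) 1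
      simpa using this
    by_cases c0 : e (cis α) = ![1, 0]
    · by_cases c1 : e (cis α) = ![1, 1 / 2]
      · have := aux c0 c1; norm_num at this
      · by_cases c2 : e (cis α) = ![1, 1 / 3]
        · have := aux c0 c2; norm_num at this
        · have := aux (k1 c1) (k2 c2); norm_num at this
    · by_cases c1 : e (cis α) = ![1, 1 / 2]
      · by_cases c2 : e (cis α) = ![1, 1 / 3]
        · have := aux c1 c2; norm_num at this
        · have := aux (k0 c0) (k2 c2); norm_num at this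
      · have := aux (k0 c0) (k1 c1); norm_num at this
  have hmem : ∀ u, e (cis u) ∈ sphere (0 : Fin 2 → ℝ) 1 := fun u => hs ▸ mem_image_of_mem e (cis_mem u)
  obtain ⟨a, ha, hae⟩ : ∃ a ∈ Ico (0 : ℝ) 8, kap h a = e (cis α) := by
    have := hmem α; rw [← kap_image hh] at this; exact this
  obtain ⟨b, hb, hbe⟩ : ∃ b ∈ Ico (0 : ℝ) 8, kap h b = e (cis β) := by
    have := hmem β; rw [← kap_image hh] at this; exact this
  have ha0 : 0 < a := lt_of_le_of_ne ha.1 (by rintro rfl; exact hα hae.symm)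
  have hb0 : 0 < b := lt_of_le_of_ne hb.1 (by rintro rfl; exact hβ hbe.symm)
  have hab : a ≠ b := by
    rintro rfl
    have h3 : cis α = cis β := e.injective (hae.symm.trans hbe)
    have := cis_injOn α ⟨le_rfl, by linarith⟩ ⟨h1.le, h2⟩ h3
    linarith
  -- the circle without the two points
  have hU : e '' (cis '' Ioo α β) ∪ e '' (cis '' Ioo β (α + 2 * Real.pi)) =
      sphere 0 1 \ {e (cis α), e (cis β)} := by
    rw [← image_union, ← image_union, ← hs]
    ext x
    constructor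
    · rintro ⟨_, ⟨u, hu, rfl⟩, rfl⟩
      refine ⟨mem_image_of_mem e (cis_mem u), ?_⟩
      rw [mem_insert_iff, mem_singleton_iff]
      rintro (hx | hx)
      · have h3 := e.injective hx
        rcases hu with hu | hu
        · have := cis_injOn α ⟨hu.1.le, by linarith [hu.2]⟩ ⟨le_rfl, by linarith⟩ h3
          linarith [hu.1]
        · have := cis_injOn α ⟨by linarith [hu.1], hu.2⟩ ⟨le_rfl, by linarith⟩ h3
          linarith [hu.1]
      · have h3 := e.injective hx
        rcases hu with hu | hu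
        · have := cis_injOn α ⟨hu.1.le, by linarith [hu.2]⟩ ⟨h1.le, h2⟩ h3
          linarith [hu.2]
        · have := cis_injOn α ⟨by linarith [hu.1], hu.2⟩ ⟨h1.le, h2⟩ h3
          linarith [hu.1]
    · rintro ⟨⟨z, hz, rfl⟩, hx⟩
      obtain ⟨u, hu, rfl⟩ := cis_surj α hz
      rw [mem_insert_iff, mem_singleton_iff, not_or] at hx
      refine ⟨cis u, ⟨u, ?_, rfl⟩, rfl⟩
      have e1 : u ≠ α := by rintro rfl; exact hx.1 rfl
      have e2 : u ≠ β := by rintro rfl; exact hx.2 rfl
      rcases lt_or_gt_of_ne e2 with h3 | h3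
      · exact Or.inl ⟨lt_of_le_of_ne hu.1 e1.symm, h3⟩
      · exact Or.inr ⟨h3, hu.2⟩
  have hdU : Disjoint (e '' (cis '' Ioo α β)) (e '' (cis '' Ioo β (α + 2 * Real.pi))) := by
    rw [Set.disjoint_left]
    rintro _ ⟨_, ⟨u, hu, rfl⟩, rfl⟩ ⟨_, ⟨v, hv, rfl⟩, he⟩
    have := cis_injOn α ⟨by linarith [hv.1], hv.2⟩ ⟨hu.1.le, by linarith [hu.2]⟩ (e.injective he)
    linarith [hu.2, hv.1]
  have hcU1 : IsPreconnected (e '' (cis '' Ioo α β)) :=
    (isPreconnected_Ioo.image _ continuous_cis.continuousOn).image _ e.continuous.continuousOn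
  have hcU2 : IsPreconnected (e '' (cis '' Ioo β (α + 2 * Real.pi))) :=
    (isPreconnected_Ioo.image _ continuous_cis.continuousOn).image _ e.continuous.continuousOn
  have hkc : ∀ S : Set ℝ, IsCompact S → IsClosed (kap h '' S) := fun S hS =>
    (hS.image (continuous_kap h)).isClosed
  -- the boundary of the square without two points
  have key : ∀ s t : ℝ, 0 < s → s < t → t < 8 →
      ({kap h s, kap h t} : Set (Fin 2 → ℝ)) = {e (cis α), e (cis β)} →
      (e '' (cis '' Ioo α β) = kap h '' Ioo s t ∧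
        e '' (cis '' Ioo β (α + 2 * Real.pi)) = kap h '' (Ico 0 s ∪ Ioo t 8)) ∨
       (e '' (cis '' Ioo α β) = kap h '' (Ico 0 s ∪ Ioo t 8) ∧
        e '' (cis '' Ioo β (α + 2 * Real.pi)) = kap h '' Ioo s t) := by
    intro s t hs0 hst ht8 hst'
    have hV : kap h '' Ioo s t ∪ kap h '' (Ico 0 s ∪ Ioo t 8) =
        sphere 0 1 \ {e (cis α), e (cis β)} := by
      rw [← image_union, ← hst', ← kap_image hh]
      ext x
      constructor
      · rintro ⟨u, hu, rfl⟩
        have hu' : u ∈ Ico (0 : ℝ) 8 := by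
          rcases hu with hu | hu | hu
          · exact ⟨by linarith [hu.1], by linarith [hu.2]⟩
          · exact ⟨hu.1, by linarith [hu.2]⟩
          · exact ⟨by linarith [hu.1], hu.2⟩
        refine ⟨mem_image_of_mem _ hu', ?_⟩
        rw [mem_insert_iff, mem_singleton_iff]
        rintro (hx | hx)
        · have := kap_injOn hh hu' ⟨hs0.le, by linarith⟩ hx
          rcases hu with hu | hu | hu
          · linarith [hu.1]
          · linarith [hu.2]
          · linarith [hu.1]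
        · have := kap_injOn hh hu' ⟨by linarith, ht8⟩ hx
          rcases hu with hu | hu | hu
          · linarith [hu.2]
          · linarith [hu.2]
          · linarith [hu.1]
      · rintro ⟨⟨u, hu, rfl⟩, hx⟩
        rw [mem_insert_iff, mem_singleton_iff, not_or] at hx
        refine ⟨u, ?_, rfl⟩
        have e1 : u ≠ s := by rintro rfl; exact hx.1 rfl
        have e2 : u ≠ t := by rintro rfl; exact hx.2 rfl
        rcases lt_or_gt_of_ne e1 with h3 | h3
        · exact Or.inr (Or.inl ⟨hu.1, h3⟩)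
        · rcases lt_or_gt_of_ne e2 with h4 | h4
          · exact Or.inl ⟨h3, h4⟩
          · exact Or.inr (Or.inr ⟨h4, hu.2⟩)
    have hdV : Disjoint (kap h '' Ioo s t) (kap h '' (Ico 0 s ∪ Ioo t 8)) := by
      rw [Set.disjoint_left]
      rintro _ ⟨u, hu, rfl⟩ ⟨v, hv, he⟩
      have hv' : v ∈ Ico (0 : ℝ) 8 := by
        rcases hv with hv | hv
        · exact ⟨hv.1, by linarith [hv.2]⟩
        · exact ⟨by linarith [hv.1], hv.2⟩
      have := kap_injOn hh hv' ⟨by linarith [hu.1], by linarith [hu.2]⟩ he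
      rcases hv with hv | hv
      · linarith [hv.2, hu.1]
      · linarith [hv.1, hu.2]
    have hneV1 : (kap h '' Ioo s t).Nonempty := (nonempty_Ioo.2 hst).image _
    have hneV2 : (kap h '' (Ico 0 s ∪ Ioo t 8)).Nonempty :=
      ((nonempty_Ico.2 hs0).mono subset_union_left).image _
    -- separation
    have sep : ∀ U : Set (Fin 2 → ℝ), IsPreconnected U →
        U ⊆ kap h '' Ioo s t ∪ kap h '' (Ico 0 s ∪ Ioo t 8) →
        U ⊆ kap h '' Ioo s t ∨ U ⊆ kap h '' (Ico 0 s ∪ Ioo t 8) := by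
      intro U hU hUV
      have c1 : IsClosed (kap h '' Icc s t) := hkc _ isCompact_Icc
      have c2 : IsClosed (kap h '' (Icc 0 s ∪ Icc t 8)) := hkc _ (isCompact_Icc.union isCompact_Icc)
      have d1 : kap h '' Ioo s t ⊆ (kap h '' (Icc 0 s ∪ Icc t 8))ᶜ := by
        rintro _ ⟨u, hu, rfl⟩ ⟨v, hv, he⟩
        have huI : u ∈ Ico (0 : ℝ) 8 := ⟨by linarith [hu.1], by linarith [hu.2]⟩
        rcases hv with hv | hv
        · have := kap_injOn hh ⟨hv.1, by linarith [hv.2]⟩ huI he
          linarith [hv.2, hu.1]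
        · rcases hv.2.lt_or_eq with h8 | h8
          · have := kap_injOn hh ⟨by linarith [hv.1], h8⟩ huI he
            linarith [hv.1, hu.2]
          · rw [h8, kap_eight, ← kap_zero] at he
            have := kap_injOn hh ⟨le_rfl, by norm_num⟩ huI he
            linarith [hu.1]
      have d2 : kap h '' (Ico 0 s ∪ Ioo t 8) ⊆ (kap h '' Icc s t)ᶜ := by
        rintro _ ⟨u, hu, rfl⟩ ⟨v, hv, he⟩
        have huI : u ∈ Ico (0 : ℝ) 8 := by
          rcases hu with hu | hu
          · exact ⟨hu.1, by linarith [hu.2]⟩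
          · exact ⟨by linarith [hu.1], hu.2⟩
        have := kap_injOn hh ⟨by linarith [hv.1], by linarith [hv.2]⟩ huI he
        rcases hu with hu | hu
        · linarith [hu.2, hv.1]
        · linarith [hu.1, hv.2]
      rcases isPreconnected_iff_subset_of_disjoint.1 hU _ _ c2.isOpen_compl c1.isOpen_compl
        (hUV.trans (union_subset_union d1 d2)) (by
          rw [eq_empty_iff_forall_notMem]
          rintro x ⟨hxU, hx1, hx2⟩
          rcases hUV hxU with hx | hx
          · exact hx2 (image_mono Ioo_subset_Icc_self hx)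
          · exact hx1 (image_mono (union_subset_union Ico_subset_Icc_self Ioo_subset_Icc_self) hx))
        with h3 | h3
      · left
        intro x hx
        rcases hUV hx with h4 | h4
        · exact h4
        · exact absurd (image_mono (union_subset_union Ico_subset_Icc_self Ioo_subset_Icc_self) h4)
            (h3 hx)
      · right
        intro x hx
        rcases hUV hx with h4 | h4
        · exact absurd (image_mono Ioo_subset_Icc_self h4) (h3 hx)
        · exact h4
    have hUV : e '' (cis '' Ioo α β) ∪ e '' (cis '' Ioo β (α + 2 * Real.pi)) =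
        kap h '' Ioo s t ∪ kap h '' (Ico 0 s ∪ Ioo t 8) := hU.trans hV.symm
    rcases sep _ hcU1 (hUV ▸ subset_union_left) with m1 | m1 <;>
    rcases sep _ hcU2 (hUV ▸ subset_union_right) with m2 | m2
    · exfalso
      obtain ⟨x, hx⟩ := hneV2
      have : x ∈ e '' (cis '' Ioo α β) ∪ e '' (cis '' Ioo β (α + 2 * Real.pi)) :=
        hUV ▸ Or.inr hx
      rcases this with h3 | h3
      · exact Set.disjoint_left.1 hdV (m1 h3) hx
      · exact Set.disjoint_left.1 hdV (m2 h3) hx
    · left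
      constructor
      · refine Subset.antisymm m1 fun x hx => ?_
        have : x ∈ e '' (cis '' Ioo α β) ∪ e '' (cis '' Ioo β (α + 2 * Real.pi)) :=
          hUV ▸ Or.inl hx
        rcases this with h3 | h3
        · exact h3
        · exact absurd (m2 h3) (Set.disjoint_left.1 hdV hx)
      · refine Subset.antisymm m2 fun x hx => ?_
        have : x ∈ e '' (cis '' Ioo α β) ∪ e '' (cis '' Ioo β (α + 2 * Real.pi)) :=
          hUV ▸ Or.inr hx
        rcases this with h3 | h3
        · exact absurd hx (Set.disjoint_left.1 hdV (m1 h3))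
        · exact h3
    · right
      constructor
      · refine Subset.antisymm m1 fun x hx => ?_
        have : x ∈ e '' (cis '' Ioo α β) ∪ e '' (cis '' Ioo β (α + 2 * Real.pi)) :=
          hUV ▸ Or.inr hx
        rcases this with h3 | h3
        · exact h3
        · exact absurd hx (Set.disjoint_left.1 hdV (m2 h3))
      · refine Subset.antisymm m2 fun x hx => ?_
        have : x ∈ e '' (cis '' Ioo α β) ∪ e '' (cis '' Ioo β (α + 2 * Real.pi)) :=
          hUV ▸ Or.inl hx
        rcases this with h3 | h3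
        · exact absurd (m1 h3) (Set.disjoint_left.1 hdV hx)
        · exact h3
    · exfalso
      obtain ⟨x, hx⟩ := hneV1
      have : x ∈ e '' (cis '' Ioo α β) ∪ e '' (cis '' Ioo β (α + 2 * Real.pi)) :=
        hUV ▸ Or.inl hx
      rcases this with h3 | h3
      · exact Set.disjoint_left.1 hdV hx (m1 h3)
      · exact Set.disjoint_left.1 hdV hx (m2 h3)
  rcases lt_or_gt_of_ne hab with h3 | h3
  · refine ⟨h, a, b, hh, ha0, h3, hb.2, Or.inl ⟨hae, hbe⟩, key a b ha0 h3 hb.2 ?_⟩
    rw [hae, hbe]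
  · refine ⟨h, b, a, hh, hb0, h3, ha.2, Or.inr ⟨hbe, hae⟩, key b a hb0 h3 ha.2 ?_⟩
    rw [hae, hbe, pair_comm]

open P073 P073.PH in
/-- **Hex theorem in the disc.** If two disjoint compact subsets of the closed disc contain one
boundary point each, then a continuum of the complement joins the two open boundary arcs. -/
theorem hex_disc {α β : ℝ} (h1 : α < β) (h2 : β < α + 2 * Real.pi) {K₁ K₂ : Set ℂ}
    (c1 : IsCompact K₁) (c2 : IsCompact K₂) (b1 : K₁ ⊆ closedBall 0 1) (b2 : K₂ ⊆ closedBall 0 1)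
    (hd : Disjoint K₁ K₂) (hα : cis α ∈ K₁) (hβ : cis β ∈ K₂) :
    ∃ W ⊆ closedBall (0 : ℂ) 1, IsCompact W ∧ IsPreconnected W ∧ Disjoint W (K₁ ∪ K₂) ∧
      (∃ u ∈ Ioo α β, cis u ∈ W) ∧ ∃ u ∈ Ioo β (α + 2 * Real.pi), cis u ∈ W := by
  obtain ⟨e, he, hs⟩ := exists_disc_square
  obtain ⟨h, s, t, hh, hs0, hst, ht8, hends, harcs⟩ := arcs_match hs h1 h2
  -- the general statement for two sets `L₁`, `L₂`
  have main : ∀ L₁ L₂ : Set ℂ, IsCompact L₁ → IsCompact L₂ → L₁ ⊆ closedBall 0 1 →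
      L₂ ⊆ closedBall 0 1 → Disjoint L₁ L₂ → kap h s ∈ e '' L₁ → kap h t ∈ e '' L₂ →
      ∃ W ⊆ closedBall (0 : ℂ) 1, IsCompact W ∧ IsPreconnected W ∧ Disjoint W (L₁ ∪ L₂) ∧
      (∃ u ∈ Ioo α β, cis u ∈ W) ∧ ∃ u ∈ Ioo β (α + 2 * Real.pi), cis u ∈ W := by
    intro L₁ L₂ l1 l2 m1 m2 hL e1 e2
    obtain ⟨W, hW, hWc, hWp, hWd, ⟨w, hw, hwW⟩, ⟨w', hw', hwW'⟩⟩ := hex_std hh hs0 hst ht8
      (l1.image e.continuous) (l2.image e.continuous)
      (by rw [← he]; exact image_mono m1) (by rw [← he]; exact image_mono m2)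
      ((Set.disjoint_image_iff e.injective).2 hL) e1 e2
    refine ⟨e.symm '' W, ?_, hWc.image e.symm.continuous,
      hWp.image _ e.symm.continuous.continuousOn, ?_, ?_, ?_⟩
    · rintro _ ⟨x, hx, rfl⟩
      have := hW hx
      rw [← he] at this
      obtain ⟨y, hy, rfl⟩ := this
      simpa using hy
    · rw [Set.disjoint_left]
      rintro _ ⟨x, hx, rfl⟩ hx'
      refine Set.disjoint_left.1 hWd hx ?_
      rw [← image_union]
      exact ⟨_, hx', e.apply_symm_apply x⟩
    · rcases harcs with ⟨a1, a2⟩ | ⟨a1, a2⟩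
      · have : kap h w ∈ e '' (cis '' Ioo α β) := a1 ▸ mem_image_of_mem _ hw
        obtain ⟨_, ⟨u, hu, rfl⟩, hue⟩ := this
        exact ⟨u, hu, kap h w, hwW, by rw [← hue, e.symm_apply_apply]⟩
      · have : kap h w' ∈ e '' (cis '' Ioo α β) := a1 ▸ mem_image_of_mem _ hw'
        obtain ⟨_, ⟨u, hu, rfl⟩, hue⟩ := this
        exact ⟨u, hu, kap h w', hwW', by rw [← hue, e.symm_apply_apply]⟩
    · rcases harcs with ⟨a1, a2⟩ | ⟨a1, a2⟩
      · have : kap h w' ∈ e '' (cis '' Ioo β (α + 2 * Real.pi)) := a2 ▸ mem_image_of_mem _ hw'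
        obtain ⟨_, ⟨u, hu, rfl⟩, hue⟩ := this
        exact ⟨u, hu, kap h w', hwW', by rw [← hue, e.symm_apply_apply]⟩
      · have : kap h w ∈ e '' (cis '' Ioo β (α + 2 * Real.pi)) := a2 ▸ mem_image_of_mem _ hw
        obtain ⟨_, ⟨u, hu, rfl⟩, hue⟩ := this
        exact ⟨u, hu, kap h w, hwW, by rw [← hue, e.symm_apply_apply]⟩
  rcases hends with ⟨e1, e2⟩ | ⟨e1, e2⟩
  · exact main K₁ K₂ c1 c2 b1 b2 hd (e1 ▸ mem_image_of_mem _ hα) (e2 ▸ mem_image_of_mem _ hβ)
  · obtain ⟨W, r1, r2, r3, r4, r5, r6⟩ := main K₂ K₁ c2 c1 b2 b1 hd.symm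
      (e1 ▸ mem_image_of_mem _ hβ) (e2 ▸ mem_image_of_mem _ hα)
    exact ⟨W, r1, r2, r3, union_comm K₂ K₁ ▸ r4, r5, r6⟩

open P073 P073.PH in
/-- **Crossing lemma in the disc.** -/
theorem cross_disc {α β : ℝ} (h1 : α < β) (h2 : β < α + 2 * Real.pi) {A B : Set ℂ}
    (hA : IsCompact A) (hA' : IsPreconnected A) (hAQ : A ⊆ closedBall 0 1)
    (hB : IsCompact B) (hB' : IsPreconnected B) (hBQ : B ⊆ closedBall 0 1)
    (hα : cis α ∈ A) (hβ : cis β ∈ A) {u v : ℝ} (hu : u ∈ Ioo α β) (huB : cis u ∈ B)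
    (hv : v ∈ Ioo β (α + 2 * Real.pi)) (hvB : cis v ∈ B) : (A ∩ B).Nonempty := by
  obtain ⟨e, he, hs⟩ := exists_disc_square
  obtain ⟨h, s, t, hh, hs0, hst, ht8, hends, harcs⟩ := arcs_match hs h1 h2
  have hsA : kap h s ∈ e '' A := by
    rcases hends with ⟨e1, e2⟩ | ⟨e1, e2⟩
    · exact e1 ▸ mem_image_of_mem _ hα
    · exact e1 ▸ mem_image_of_mem _ hβ
  have htA : kap h t ∈ e '' A := by
    rcases hends with ⟨e1, e2⟩ | ⟨e1, e2⟩
    · exact e2 ▸ mem_image_of_mem _ hβ
    · exact e2 ▸ mem_image_of_mem _ hα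
  obtain ⟨⟨w, hw, hwB⟩, ⟨w', hw', hwB'⟩⟩ : (∃ w ∈ Ioo s t, kap h w ∈ e '' B) ∧
      ∃ w ∈ Ico 0 s ∪ Ioo t 8, kap h w ∈ e '' B := by
    have m1 : e (cis u) ∈ e '' (cis '' Ioo α β) := ⟨_, ⟨u, hu, rfl⟩, rfl⟩
    have m2 : e (cis v) ∈ e '' (cis '' Ioo β (α + 2 * Real.pi)) := ⟨_, ⟨v, hv, rfl⟩, rfl⟩
    rcases harcs with ⟨a1, a2⟩ | ⟨a1, a2⟩
    · rw [a1] at m1; rw [a2] at m2
      obtain ⟨w, hw, hwe⟩ := m1
      obtain ⟨w', hw', hwe'⟩ := m2
      exact ⟨⟨w, hw, hwe ▸ mem_image_of_mem _ huB⟩, ⟨w', hw', hwe' ▸ mem_image_of_mem _ hvB⟩⟩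
    · rw [a1] at m1; rw [a2] at m2
      obtain ⟨w, hw, hwe⟩ := m1
      obtain ⟨w', hw', hwe'⟩ := m2
      exact ⟨⟨w', hw', hwe' ▸ mem_image_of_mem _ hvB⟩, ⟨w, hw, hwe ▸ mem_image_of_mem _ huB⟩⟩
  have cA := hA.image e.continuous
  have cA' := hA'.image _ e.continuous.continuousOn
  have cB := hB.image e.continuous
  have cB' := hB'.image _ e.continuous.continuousOn
  have iA : e '' A ⊆ closedBall 0 1 := by rw [← he]; exact image_mono hAQ
  have iB : e '' B ⊆ closedBall 0 1 := by rw [← he]; exact image_mono hBQ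
  have fin : (e '' A ∩ e '' B).Nonempty := by
    rcases hw' with hw' | hw'
    · have := cross_continua hh hw'.1 hw'.2 hw.1 hw.2 ht8 cB cB' iB cA cA' iA hwB' hsA hwB htA
      rwa [inter_comm] at this
    · exact cross_continua hh hs0.le hw.1 hw.2 hw'.1 hw'.2 cA cA' iA cB cB' iB hsA hwB htA hwB'
  rw [← image_inter e.injective] at fin
  exact fin.of_image

end P148.H70
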