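import Vale.Agent.P148.H70.Rot

/-!
# P148: explicit lower bound for all quads of a disc
-/

open Set MeasureTheory ProbabilityTheory Filter Topology Metric
open scoped ENNReal

namespace P148.H70

/-- the deterministic part -/
theorem conn_of_net {R : Set ℂ} (hR : R ⊆ closedBall 0 1) {a b c d δ δ' τ τ' : ℝ}
    (hb : a + δ ≤ b) (hd : c + δ' ≤ d) (t0 : 0 ≤ τ) (t1 : τ + δ ≤ Real.pi / 3)
    (t0' : 0 ≤ τ') (t1' : τ' + δ' ≤ Real.pi / 3)
    (h1 : Conn R (cis '' Icc a (a + δ)) (cis '' Icc (a + Real.pi - τ) (a + 4 * Real.pi / 3 - τ)))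
    (h2 : Conn R (cis '' Icc c (c + δ')) (cis '' Icc (c + Real.pi - τ') (c + 4 * Real.pi / 3 - τ')))
    (h3 : ∀ j : ℕ, j ≤ 3 → Conn R (uarc hexm ((0 : ℤ) + j)) (uarc hexm ((0 : ℤ) + j + 2))) :
    Conn R (cis '' Icc a b) (cis '' Icc c d) := by
  obtain ⟨Z, z1, z2, z3, z4⟩ := net_chain (by norm_num) marks_hexm hR 0 3 h3
  obtain ⟨G, g1, g2, g3, ⟨_, gx, ⟨x, hx, rfl⟩⟩, ⟨_, gy, ⟨y, hy, rfl⟩⟩⟩ := h1
  obtain ⟨G', g1', g2', g3', ⟨_, gx', ⟨x', hx', rfl⟩⟩, ⟨_, gy', ⟨y', hy', rfl⟩⟩⟩ := h2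
  have n1 : (G ∩ Z).Nonempty := six_net z2 z3 (z1.trans hR) z4 g2 g3 (g1.trans hR)
    (by linarith [hx.2, hy.1]) (by linarith [hx.1, hy.2]) gx gy
  have n2 : (G' ∩ Z).Nonempty := six_net z2 z3 (z1.trans hR) z4 g2' g3' (g1'.trans hR)
    (by linarith [hx'.2, hy'.1]) (by linarith [hx'.1, hy'.2]) gx' gy'
  obtain ⟨p, p1, p2⟩ := n1
  obtain ⟨q, q1, q2⟩ := n2
  have u1 : IsPreconnected (G ∪ Z) := g3.union p p1 p2 z3
  have u2 : IsPreconnected ((G ∪ Z) ∪ G') := u1.union q (Or.inr q2) q1 g3'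
  refine ⟨(G ∪ Z) ∪ G', union_subset (union_subset g1 z1) g1', (g2.union z2).union g2', u2,
    ⟨cis x, Or.inl (Or.inl gx), ⟨x, ⟨hx.1, hx.2.trans hb⟩, rfl⟩⟩,
    ⟨cis x', Or.inr gx', ⟨x', ⟨hx'.1, hx'.2.trans hd⟩, rfl⟩⟩⟩

section
variable {Ω : Type*} [MeasurableSpace Ω] {P : Measure Ω} [IsProbabilityMeasure P]
  {ε : ℝ} {X : Ω → Set (ℂ × Bool)}

/-- lower bound, with integer parameters -/
theorem arcs_ge_nat (hε : 0 < ε) (hX : IsPoissonProcess P (intensity ε) X) (z₀ : ℂ) {r : ℝ}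
    (hr : r ≠ 0) {k m : ℕ} (hk : 1 ≤ k) (hm : 1 ≤ m) {a b c d : ℝ}
    (hab : a + Real.pi / (3 * k) ≤ b) (hcd : c + Real.pi / (3 * m) ≤ d) :
    (6561 * (k * m) : ℝ≥0∞)⁻¹ ≤ crossProb P X (aff z₀ r hr) a b c d := by
  have hp := Real.pi_pos
  obtain ⟨τ, t0, t1, t2⟩ := small_arc hε hX z₀ hr hk
  obtain ⟨τ', t0', t1', t2'⟩ := small_arc hε hX z₀ hr hm
  set δ : ℝ := Real.pi / (3 * k) with hδ
  set δ' : ℝ := Real.pi / (3 * m) with hδ'
  have hδ0 : 0 < δ := by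
    have : (0 : ℝ) < k := by exact_mod_cast hk
    positivity
  have hδ0' : 0 < δ' := by
    have : (0 : ℝ) < m := by exact_mod_cast hm
    positivity
  set Φ := aff z₀ r hr with hΦ
  have q1 : QD (Φ '' closedBall 0 1) (Φ '' (cis '' Icc a (a + δ)))
      (Φ '' (cis '' Icc (a + Real.pi - τ) (a + 4 * Real.pi / 3 - τ))) :=
    qd_arc Φ (by linarith) (by linarith)
  have q2 : QD (Φ '' closedBall 0 1) (Φ '' (cis '' Icc c (c + δ')))
      (Φ '' (cis '' Icc (c + Real.pi - τ') (c + 4 * Real.pi / 3 - τ'))) :=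
    qd_arc Φ (by linarith) (by linarith)
  have q3 : ∀ i : ℤ, QD (Φ '' closedBall 0 1) (barc Φ hexm i) (barc Φ hexm (i + 2)) := fun i =>
    qd_barc Φ marks_hexm (by omega) (by omega)
  obtain ⟨W₁, i1, w1⟩ := exists_incr true q1
  obtain ⟨W₂, i2, w2⟩ := exists_incr true q2
  choose V i3 w3 using fun i : ℤ => exists_incr true (q3 i)
  have b1 : (9 * k : ℝ≥0∞)⁻¹ ≤ P {ω | X ω ∈ W₁} := by
    rw [← prob_crosses_eq hε hX w1]; exact t2 a
  have b2 : (9 * m : ℝ≥0∞)⁻¹ ≤ P {ω | X ω ∈ W₂} := by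
    rw [← prob_crosses_eq hε hX w2]; exact t2' c
  have b3 : ∀ i : ℤ, (3 : ℝ≥0∞)⁻¹ ≤ P {ω | X ω ∈ V i} := by
    intro i
    rw [← prob_crosses_eq hε hX (w3 i)]
    simpa using hex_ge hε hX z₀ hr i 0
  have hν := intensity_bx_ne_top ε
  have f1 : (9 * k : ℝ≥0∞)⁻¹ * (9 * m : ℝ≥0∞)⁻¹ ≤ P {ω | X ω ∈ W₁ ∩ W₂} :=
    (mul_le_mul' b1 b2).trans (i1.fkg hX hν i2)
  have f2 := (mul_le_mul' f1 (b3 0)).trans ((i1.inter i2).fkg hX hν (i3 0))
  have f3 := (mul_le_mul' f2 (b3 1)).trans (((i1.inter i2).inter (i3 0)).fkg hX hν (i3 1))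
  have f4 := (mul_le_mul' f3 (b3 2)).trans
    ((((i1.inter i2).inter (i3 0)).inter (i3 1)).fkg hX hν (i3 2))
  have f5 := (mul_le_mul' f4 (b3 3)).trans
    (((((i1.inter i2).inter (i3 0)).inter (i3 1)).inter (i3 2)).fkg hX hν (i3 3))
  have e0 : (9 * k : ℝ≥0∞)⁻¹ * (9 * m : ℝ≥0∞)⁻¹ * 3⁻¹ * 3⁻¹ * 3⁻¹ * 3⁻¹ =
      (6561 * (k * m) : ℝ≥0∞)⁻¹ := by
    have hk0 : k ≠ 0 := by omega
    have hm0 : m ≠ 0 := by omega
    rw [← ENNReal.mul_inv (by simp [hk0]) (by simp [hm0]), ← ENNReal.mul_inv (by simp) (by simp),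
      ← ENNReal.mul_inv (by simp) (by simp), ← ENNReal.mul_inv (by simp) (by simp),
      ← ENNReal.mul_inv (by simp) (by simp)]
    congr 1
    ring
  rw [e0] at f5
  refine f5.trans (measure_mono_ae ?_)
  filter_upwards [ae_good hε hX] with ω hω hV
  have hD : IsCompact (Φ '' closedBall (0 : ℂ) 1) := (isCompact_closedBall _ _).image Φ.continuous
  obtain ⟨⟨⟨⟨⟨v1, v2⟩, v3⟩, v4⟩, v5⟩, v6⟩ := hV
  have c1 := (w1 _ hω).2 v1
  have c2 := (w2 _ hω).2 v2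
  rw [crosses_iff_conn hω true hD] at c1 c2
  show Crosses true (X ω) (Φ '' closedBall 0 1) (Φ '' (cis '' Icc a b)) (Φ '' (cis '' Icc c d))
  rw [crosses_iff_conn hω true hD]
  refine (conn_transport Φ).1 (conn_of_net inter_subset_right hab hcd t0 t1 t0' t1'
    ((conn_transport Φ).2 c1) ((conn_transport Φ).2 c2) ?_)
  intro j hj
  have c3 : X ω ∈ V j := by
    have : j = 0 ∨ j = 1 ∨ j = 2 ∨ j = 3 := by omega
    rcases this with rfl | rfl | rfl | rfl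
    · exact v3
    · exact v4
    · exact v5
    · exact v6
  have c4 := (w3 j _ hω).2 c3
  rw [crosses_iff_conn hω true hD] at c4
  rw [zero_add]
  exact (conn_transport Φ).2 c4

/-- an integer parameter for an arc -/
theorem exists_param {α : ℝ} (h0 : 0 < α) : ∃ k : ℕ, 1 ≤ k ∧ Real.pi / (3 * k) ≤ α ∧
    min 1 (3 * (α / (2 * Real.pi))) ≤ (k : ℝ)⁻¹ := by
  have hp := Real.pi_pos
  rcases le_total (Real.pi / 3) α with h | h
  · exact ⟨1, le_rfl, by simpa using h, by simp⟩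
  · refine ⟨⌈Real.pi / (3 * α)⌉₊, ?_, ?_, ?_⟩
    · rw [Nat.one_le_ceil_iff]; positivity
    · have h1 := Nat.le_ceil (Real.pi / (3 * α))
      have h2 : 0 < Real.pi / (3 * α) := by positivity
      have h3 : (0 : ℝ) < ⌈Real.pi / (3 * α)⌉₊ := h2.trans_le h1
      rw [div_le_iff₀ (by positivity)] at h1
      rw [div_le_iff₀ (by positivity)]
      linarith
    · refine (min_le_right _ _).trans ?_
      have h1 := (Nat.ceil_lt_add_one (show 0 ≤ Real.pi / (3 * α) by positivity)).le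
      have h2 : (1 : ℝ) ≤ Real.pi / (3 * α) := by
        rw [le_div_iff₀ (by positivity)]; linarith
      have h3 : (⌈Real.pi / (3 * α)⌉₊ : ℝ) ≤ 2 * (Real.pi / (3 * α)) := by linarith
      have h4 : (0 : ℝ) < ⌈Real.pi / (3 * α)⌉₊ := by
        have := Nat.le_ceil (Real.pi / (3 * α))
        linarith
      calc 3 * (α / (2 * Real.pi)) = (2 * (Real.pi / (3 * α)))⁻¹ := by field_simp
        _ ≤ _ := inv_anti₀ h4 h3

/-- **Explicit lower bound for all quads of a disc.** -/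
theorem arcs_ge (hε : 0 < ε) (hX : IsPoissonProcess P (intensity ε) X) (z₀ : ℂ) {r : ℝ}
    (hr : r ≠ 0) {a b c d : ℝ} (h1 : a < b) (h2 : b < c) (h3 : c < d) (h4 : d < a + 2 * Real.pi) :
    ENNReal.ofReal (((b - a) / (2 * Real.pi)) * ((d - c) / (2 * Real.pi)) / 2187) ≤
      crossProb P X (aff z₀ r hr) a b c d := by
  have hp := Real.pi_pos
  obtain ⟨k, k1, k2, k3⟩ := exists_param (show 0 < b - a by linarith)
  obtain ⟨m, m1, m2, m3⟩ := exists_param (show 0 < d - c by linarith)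
  refine le_trans ?_ (arcs_ge_nat hε hX z₀ hr k1 m1 (a := a) (b := b) (c := c) (d := d)
    (by linarith) (by linarith))
  have e : (6561 * (k * m) : ℝ≥0∞)⁻¹ = ENNReal.ofReal (6561 * ((k : ℝ) * m))⁻¹ := by
    have hk0 : (0 : ℝ) < k := by exact_mod_cast k1
    have hm0 : (0 : ℝ) < m := by exact_mod_cast m1
    rw [ENNReal.ofReal_inv_of_pos (by positivity), ENNReal.ofReal_mul (by norm_num),
      ENNReal.ofReal_mul (by positivity)]
    simp
  rw [e]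
  refine ENNReal.ofReal_le_ofReal ?_
  set s := (b - a) / (2 * Real.pi) with hs
  set t := (d - c) / (2 * Real.pi) with ht
  have hs0 : 0 < s := by rw [hs]; exact div_pos (by linarith) (by positivity)
  have ht0 : 0 < t := by rw [ht]; exact div_pos (by linarith) (by positivity)
  have hst : s + t ≤ 1 := by
    rw [hs, ht, ← add_div, div_le_one (by positivity)]
    linarith
  have key : 3 * (s * t) ≤ (k : ℝ)⁻¹ * (m : ℝ)⁻¹ := by
    refine le_trans ?_ (mul_le_mul k3 m3 (by positivity) (by positivity))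
    rcases le_total 1 (3 * s) with h5 | h5 <;> rcases le_total 1 (3 * t) with h6 | h6
    · rw [min_eq_left h5, min_eq_left h6]; nlinarith [sq_nonneg (s - t)]
    · rw [min_eq_left h5, min_eq_right h6]; nlinarith
    · rw [min_eq_right h5, min_eq_left h6]; nlinarith
    · rw [min_eq_right h5, min_eq_right h6]; nlinarith [mul_pos hs0 ht0]
  rw [mul_inv, mul_inv]
  linarith

end

end P148.H70
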