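import Vale.Agent.P148.H70.Strict3

/-!
# P148: exact duality for discs; two-sided bounds; kites
-/

open Set MeasureTheory ProbabilityTheory Filter Topology Metric
open scoped ENNReal

namespace P148.H70

theorem arc_add_two_pi (a b : ℝ) :
    cis '' Icc (a + 2 * Real.pi) (b + 2 * Real.pi) = cis '' Icc a b := by
  ext z
  constructor
  · rintro ⟨t, ht, rfl⟩
    refine ⟨t - 2 * Real.pi, ⟨by linarith [ht.1], by linarith [ht.2]⟩, ?_⟩
    rw [← cis_add_two_pi (t - 2 * Real.pi)]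
    congr 1
    ring
  · rintro ⟨t, ht, rfl⟩
    exact ⟨t + 2 * Real.pi, ⟨by linarith [ht.1], by linarith [ht.2]⟩, cis_add_two_pi t⟩

/-- four marks, extended periodically -/
noncomputable def m4 (a b c d : ℝ) (i : ℤ) : ℝ :=
  (if i % 4 = 0 then a else if i % 4 = 1 then b else if i % 4 = 2 then c else d) +
    2 * Real.pi * ((i / 4 : ℤ) : ℝ)

theorem marks_m4 {a b c d : ℝ} (h1 : a < b) (h2 : b < c) (h3 : c < d)
    (h4 : d < a + 2 * Real.pi) : Marks 2 (m4 a b c d) where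
  mono := by
    refine strictMono_int_of_lt_succ fun i => ?_
    unfold m4
    have h5 : i % 4 = 0 ∨ i % 4 = 1 ∨ i % 4 = 2 ∨ i % 4 = 3 := by omega
    rcases h5 with h5 | h5 | h5 | h5
    · have e1 : (i + 1) % 4 = 1 := by omega
      have e2 : (i + 1) / 4 = i / 4 := by omega
      rw [e1, e2, h5]
      norm_num
      exact h1
    · have e1 : (i + 1) % 4 = 2 := by omega
      have e2 : (i + 1) / 4 = i / 4 := by omega
      rw [e1, e2, h5]
      norm_num
      exact h2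
    · have e1 : (i + 1) % 4 = 3 := by omega
      have e2 : (i + 1) / 4 = i / 4 := by omega
      rw [e1, e2, h5]
      norm_num
      exact h3
    · have e1 : (i + 1) % 4 = 0 := by omega
      have e2 : (i + 1) / 4 = i / 4 + 1 := by omega
      rw [e1, e2, h5]
      norm_num
      linarith
  per := by
    intro i
    unfold m4
    have e1 : (i + 2 * ((2 : ℕ) : ℤ)) % 4 = i % 4 := by omega
    have e2 : (i + 2 * ((2 : ℕ) : ℤ)) / 4 = i / 4 + 1 := by omega
    rw [e1, e2]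
    push_cast
    ring

section
variable {Ω : Type*} [MeasurableSpace Ω] {P : Measure Ω} [IsProbabilityMeasure P]
  {ε : ℝ} {X : Ω → Set (ℂ × Bool)}

theorem crosses_symm {c : Bool} {X : Set (ℂ × Bool)} {D A B : Set ℂ} (h : Crosses c X D A B) :
    Crosses c X D B A := by
  obtain ⟨C, h1, h2, h3, h4⟩ := h
  exact ⟨C, h1, h2, h4, h3⟩

theorem crossProb_swap (P : Measure Ω) (X : Ω → Set (ℂ × Bool)) (Φ : ℂ → ℂ) (a b c d : ℝ) :
    crossProb P X Φ c d (a + 2 * Real.pi) (b + 2 * Real.pi) = crossProb P X Φ a b c d := by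
  unfold crossProb
  rw [arc_add_two_pi]
  congr 1
  ext ω
  exact ⟨crosses_symm, crosses_symm⟩

/-- one half of the duality, for all closed Jordan domains -/
theorem dual_ge (hε : 0 < ε) (hX : IsPoissonProcess P (intensity ε) X) (Φ : ℂ ≃ₜ ℂ)
    {a b c d : ℝ} (h1 : a < b) (h2 : b < c) (h3 : c < d) (h4 : d < a + 2 * Real.pi) :
    1 ≤ crossProb P X Φ a b c d + crossProb P X Φ b c d (a + 2 * Real.pi) := by
  have h := sum_ge_two hε hX Φ (n := 2) le_rfl (marks_m4 h1 h2 h3 h4)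
  rw [show 2 * 2 = 4 by norm_num, Finset.sum_range_succ, Finset.sum_range_succ,
    Finset.sum_range_succ, Finset.sum_range_one] at h
  have e0 : m4 a b c d 0 = a := by norm_num [m4]
  have e1 : m4 a b c d 1 = b := by norm_num [m4]
  have e2 : m4 a b c d 2 = c := by norm_num [m4]
  have e3 : m4 a b c d 3 = d := by norm_num [m4]
  have e4 : m4 a b c d 4 = a + 2 * Real.pi := by norm_num [m4]
  have e5 : m4 a b c d 5 = b + 2 * Real.pi := by norm_num [m4]
  have e6 : m4 a b c d 6 = c + 2 * Real.pi := by norm_num [m4]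
  norm_num only [Nat.cast_zero, Nat.cast_one, Nat.cast_ofNat] at h
  rw [e0, e1, e2, e3, e4, e5, e6, crossProb_swap P X Φ a b c d] at h
  have e7 : crossProb P X Φ d (a + 2 * Real.pi) (b + 2 * Real.pi) (c + 2 * Real.pi) =
      crossProb P X Φ b c d (a + 2 * Real.pi) := crossProb_swap P X Φ b c d (a + 2 * Real.pi)
  rw [e7] at h
  have h5 : (2 : ℝ≥0∞) * 1 ≤ 2 * (crossProb P X Φ a b c d +
      crossProb P X Φ b c d (a + 2 * Real.pi)) := by
    refine le_trans (by simpa using h) (le_of_eq ?_)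
    ring
  exact (ENNReal.mul_le_mul_iff_right (by norm_num) (by norm_num)).1 h5

theorem ae_gen (hX : IsPoissonProcess P (intensity ε) X) (z₀ : ℂ) (r a b c d : ℝ) :
    ∀ᵐ ω ∂P, Gen (X ω) (sphere z₀ r) (marks4 z₀ r a b c d) := by
  filter_upwards [ae_pos hX, ae_four hX, ae_three hX z₀ r, ae_two hX (z₀ + r * cis a),
    ae_two hX (z₀ + r * cis b), ae_two hX (z₀ + r * cis c), ae_two hX (z₀ + r * cis d)]
    with ω h1 h2 h3 h4 h5 h6 h7
  refine ⟨h1, h2, h3, ?_⟩
  rintro z (rfl | rfl | rfl | rfl)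
  · exact h4
  · exact h5
  · exact h6
  · exact h7

/-- **Exact duality for discs, at every scale.** -/
theorem disc_dual (hε : 0 < ε) (hX : IsPoissonProcess P (intensity ε) X) (z₀ : ℂ) {r : ℝ}
    (hr : 0 < r) {a b c d : ℝ} (h1 : a < b) (h2 : b < c) (h3 : c < d)
    (h4 : d < a + 2 * Real.pi) :
    crossProb P X (aff z₀ r hr.ne') a b c d +
      crossProb P X (aff z₀ r hr.ne') b c d (a + 2 * Real.pi) = 1 := by
  refine le_antisymm ?_ (dual_ge hε hX _ h1 h2 h3 h4)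
  set Φ := aff z₀ r hr.ne' with hΦ
  have q1 := qd_arc Φ (a := a) (b := b) (c := c) (d := d) h2 h4
  have q2 := qd_arc Φ (a := b) (b := c) (c := d) (d := a + 2 * Real.pi) h3 (by linarith)
  obtain ⟨W₁, i1, w1⟩ := exists_incr true q1
  obtain ⟨W₂, i2, w2⟩ := exists_incr false q2
  have e1 : crossProb P X Φ a b c d = P {ω | X ω ∈ W₁} := prob_crosses_eq hε hX w1
  have e2 : crossProb P X Φ b c d (a + 2 * Real.pi) = P {ω | X ω ∈ W₂} := by
    rw [← prob_crosses_eq hε hX w2]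
    exact prob_crosses_color hε hX true false q2
  have m2 : MeasurableSet {ω | X ω ∈ W₂} :=
    hX.measurable_conf (i2.measurableSet (intensity_bx_ne_top ε))
  have h0 : P ({ω | X ω ∈ W₁} ∩ {ω | X ω ∈ W₂}) = 0 := by
    have : ∀ᵐ ω ∂P, ¬ (ω ∈ {ω | X ω ∈ W₁} ∩ {ω | X ω ∈ W₂}) := by
      filter_upwards [ae_good hε hX, ae_gen hX z₀ r a b c d] with ω hω hg
      rintro ⟨g1, g2⟩
      exact not_both hω hr h2 h4 hg ((w1 _ hω).2 g1) ((w2 _ hω).2 g2)
    rw [ae_iff] at this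
    rw [← this]
    congr 1
    ext ω
    exact not_not.symm
  rw [e1, e2, ← measure_union_add_inter _ m2, h0, add_zero]
  exact prob_le_one

/-- **Two-sided explicit bounds for all quads of all discs, at every scale.** -/
theorem disc_upper (hε : 0 < ε) (hX : IsPoissonProcess P (intensity ε) X) (z₀ : ℂ) {r : ℝ}
    (hr : 0 < r) {a b c d : ℝ} (h1 : a < b) (h2 : b < c) (h3 : c < d)
    (h4 : d < a + 2 * Real.pi) :
    crossProb P X (aff z₀ r hr.ne') a b c d ≤
      1 - ENNReal.ofReal (((c - b) / (2 * Real.pi)) * ((a + 2 * Real.pi - d) / (2 * Real.pi)) /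
        2187) := by
  have h5 := disc_dual hε hX z₀ hr h1 h2 h3 h4
  have h6 := arcs_ge hε hX z₀ hr.ne' h2 h3 h4 (by linarith : a + 2 * Real.pi < b + 2 * Real.pi)
  have h7 : crossProb P X (aff z₀ r hr.ne') b c d (a + 2 * Real.pi) ≠ ∞ := measure_ne_top _ _
  rw [← ENNReal.eq_sub_of_add_eq h7 h5 |>.symm]
  exact tsub_le_tsub_left h6 1

/-- the reflection in the line through `z₀` of direction `φ` -/
noncomputable def refl (z₀ : ℂ) (φ : ℝ) : ℂ ≃ᵢ ℂ :=
  (((IsometryEquiv.subRight z₀).trans Complex.conjLIE.toIsometryEquiv).trans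
    (rotation (Circle.exp (2 * φ))).toIsometryEquiv).trans (IsometryEquiv.addRight z₀)

theorem refl_apply (z₀ : ℂ) (φ : ℝ) (z : ℂ) :
    refl z₀ φ z = cis (2 * φ) * (starRingEnd ℂ) (z - z₀) + z₀ := by
  unfold refl cis
  simp [rotation_apply, Circle.coe_exp]

theorem conj_cis (t : ℝ) : (starRingEnd ℂ) (cis t) = cis (-t) := by
  unfold cis
  rw [← Complex.exp_conj]
  congr 1
  simp

theorem refl_aff (z₀ : ℂ) (r : ℝ) (hr : r ≠ 0) (φ : ℝ) (w : ℂ) :
    refl z₀ φ (aff z₀ r hr w) = aff z₀ r hr (cis (2 * φ) * (starRingEnd ℂ) w) := by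
  rw [refl_apply, aff_apply, aff_apply, add_sub_cancel_left, map_mul, Complex.conj_ofReal]
  ring

theorem refl_disc (z₀ : ℂ) (r : ℝ) (hr : r ≠ 0) (φ : ℝ) :
    refl z₀ φ '' (aff z₀ r hr '' closedBall 0 1) = aff z₀ r hr '' closedBall 0 1 := by
  ext z
  constructor
  · rintro ⟨_, ⟨w, hw, rfl⟩, rfl⟩
    refine ⟨_, ?_, (refl_aff z₀ r hr φ w).symm⟩
    rw [mem_closedBall_zero_iff] at hw ⊢
    rw [norm_mul, norm_cis, one_mul, RCLike.norm_conj]
    exact hw
  · rintro ⟨w, hw, rfl⟩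
    refine ⟨_, ⟨cis (2 * φ) * (starRingEnd ℂ) w, ?_, rfl⟩, ?_⟩
    · rw [mem_closedBall_zero_iff] at hw ⊢
      rw [norm_mul, norm_cis, one_mul, RCLike.norm_conj]
      exact hw
    · have e : (starRingEnd ℂ) (cis (2 * φ) * (starRingEnd ℂ) w) = cis (-(2 * φ)) * w := by
        rw [map_mul, conj_cis, Complex.conj_conj]
      rw [refl_aff, e, ← mul_assoc, ← cis_add, add_neg_cancel]
      simp [cis]

theorem refl_arc (z₀ : ℂ) (r : ℝ) (hr : r ≠ 0) (φ a b : ℝ) :
    refl z₀ φ '' (aff z₀ r hr '' (cis '' Icc a b)) =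
      aff z₀ r hr '' (cis '' Icc (2 * φ - b) (2 * φ - a)) := by
  ext z
  constructor
  · rintro ⟨_, ⟨_, ⟨t, ht, rfl⟩, rfl⟩, rfl⟩
    refine ⟨_, ⟨2 * φ - t, ⟨by linarith [ht.2], by linarith [ht.1]⟩, rfl⟩, ?_⟩
    rw [refl_aff, conj_cis, ← cis_add, sub_eq_add_neg]
  · rintro ⟨_, ⟨t, ht, rfl⟩, rfl⟩
    refine ⟨_, ⟨_, ⟨2 * φ - t, ⟨by linarith [ht.2], by linarith [ht.1]⟩, rfl⟩, rfl⟩, ?_⟩
    rw [refl_aff, conj_cis, ← cis_add]
    congr 2
    ring

/-- **Kites**: quads of a disc with a reflection symmetry exchanging the quad and its dual. -/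
theorem kite (hε : 0 < ε) (hX : IsPoissonProcess P (intensity ε) X) (z₀ : ℂ) {r : ℝ}
    (hr : 0 < r) (φ : ℝ) {s : ℝ} (h0 : 0 < s) (h1 : s < Real.pi) :
    crossProb P X (aff z₀ r hr.ne') φ (φ + s) (φ + Real.pi) (φ + 2 * Real.pi - s) = 2⁻¹ := by
  have h2 := disc_dual hε hX z₀ hr (a := φ) (b := φ + s) (c := φ + Real.pi)
    (d := φ + 2 * Real.pi - s) (by linarith) (by linarith) (by linarith) (by linarith)
  have h3 := prob_crosses_iso hε hX true (qd_arc (aff z₀ r hr.ne') (a := φ) (b := φ + s)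
    (c := φ + Real.pi) (d := φ + 2 * Real.pi - s) (by linarith) (by linarith)) (refl z₀ φ)
  rw [refl_disc, refl_arc, refl_arc] at h3
  have e1 : crossProb P X (aff z₀ r hr.ne') (φ + s) (φ + Real.pi) (φ + 2 * Real.pi - s)
      (φ + 2 * Real.pi) =
      crossProb P X (aff z₀ r hr.ne') φ (φ + s) (φ + Real.pi) (φ + 2 * Real.pi - s) := by
    refine Eq.trans ?_ h3
    have a1 := arc_add_two_pi (2 * φ - (φ + 2 * Real.pi - s)) (2 * φ - (φ + Real.pi))
    have a2 := arc_add_two_pi (2 * φ - (φ + s)) (2 * φ - φ)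
    rw [← a1, ← a2]
    unfold crossProb
    congr 1
    ext ω
    rw [show 2 * φ - (φ + 2 * Real.pi - s) + 2 * Real.pi = φ + s by ring,
      show 2 * φ - (φ + Real.pi) + 2 * Real.pi = φ + Real.pi by ring,
      show 2 * φ - (φ + s) + 2 * Real.pi = φ + 2 * Real.pi - s by ring,
      show 2 * φ - φ + 2 * Real.pi = φ + 2 * Real.pi by ring]
    exact ⟨crosses_symm, crosses_symm⟩
  rw [e1, ← two_mul] at h2
  exact ENNReal.eq_inv_of_mul_eq_one_left (by rw [mul_comm]; exact h2)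

end

end P148.H70
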