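import Vale.Agent.P148.H70.Inc

/-!
# P148: the crossing event is an increasing event
-/

open Set MeasureTheory ProbabilityTheory Filter Topology Metric
open scoped ENNReal

namespace P148.H70

/-- countable dense subsets of `D`, `A`, `B` -/
theorem exists_dense_sub (A : Set ℂ) : ∃ t ⊆ A, t.Countable ∧ A ⊆ closure t := by
  obtain ⟨s, hs, hd⟩ := TopologicalSpace.exists_countable_dense A
  refine ⟨(↑) '' s, ?_, hs.image _, ?_⟩
  · rintro _ ⟨x, _, rfl⟩; exact x.2
  · intro a ha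
    rw [Metric.mem_closure_iff]
    intro ε hε
    obtain ⟨y, hy, hyd⟩ := Metric.mem_closure_iff.1 (hd (⟨a, ha⟩ : A)) ε hε
    exact ⟨y, ⟨y, hy, rfl⟩, hyd⟩

/-- domain data: compact `D` with two disjoint closed subsets -/
structure QD (D A B : Set ℂ) : Prop where
  hD : IsCompact D
  hA : IsClosed A
  hB : IsClosed B
  hAD : A ⊆ D
  hBD : B ⊆ D
  hAB : Disjoint A B

/-- the difference of the distances -/
noncomputable def fd (X : Set (ℂ × Bool)) (c : Bool) (z : ℂ) : ℝ :=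
  infDist z (pc X c) - infDist z (pc X (!c))

theorem fd_lip (X : Set (ℂ × Bool)) (c : Bool) (x y : ℂ) : |fd X c x - fd X c y| ≤ 2 * dist x y := by
  have h1 : ∀ s : Set ℂ, infDist x s ≤ infDist y s + dist x y := fun s =>
    infDist_le_infDist_add_dist
  have h2 : ∀ s : Set ℂ, infDist y s ≤ infDist x s + dist x y := fun s => by
    rw [dist_comm]; exact infDist_le_infDist_add_dist
  unfold fd
  rw [abs_le]
  constructor <;> linarith [h1 (pc X c), h1 (pc X (!c)), h2 (pc X c), h2 (pc X (!c))]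

theorem occ_bx_iff (X : Set (ℂ × Bool)) (x : ℂ) (r : ℝ) (d : Bool) :
    Occ X (bx x r d) ↔ ∃ y ∈ pc X d, dist x y < r := by
  constructor
  · rintro ⟨⟨y, e⟩, hy, hyb, he⟩
    have he' : e = d := he
    subst he'
    refine ⟨y, hy, ?_⟩
    have : dist y x < r := hyb
    rwa [dist_comm]
  · rintro ⟨y, hy, hyr⟩
    exact ⟨(y, d), hy, by rw [dist_comm] at hyr; exact hyr, rfl⟩

theorem Good.fd_lt_iff {X : Set (ℂ × Bool)} (h : Good X) (c : Bool) (x : ℂ) (δ : ℝ) :
    fd X c x < δ ↔ ∃ q : ℚ, Occ X (bx x q c) ∧ ¬ Occ X (bx x (q - δ) (!c)) := by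
  constructor
  · intro hx
    obtain ⟨q, hq1, hq2⟩ := exists_rat_btwn (show infDist x (pc X c) < infDist x (pc X (!c)) + δ by
      unfold fd at hx; linarith)
    refine ⟨q, ?_, ?_⟩
    · rw [occ_bx_iff]
      obtain ⟨y, hy, hyd⟩ := (infDist_lt_iff (h.ne c)).1 hq1
      exact ⟨y, hy, hyd⟩
    · rw [occ_bx_iff]
      rintro ⟨y, hy, hyd⟩
      have := infDist_le_dist_of_mem (x := x) hy
      linarith
  · rintro ⟨q, h1, h2⟩
    rw [occ_bx_iff] at h1 h2
    obtain ⟨y, hy, hyd⟩ := h1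
    have h3 := infDist_le_dist_of_mem (x := x) hy
    have h4 : (q : ℝ) - δ ≤ infDist x (pc X (!c)) := by
      refine (le_infDist (h.ne (!c))).2 fun {z} hz => ?_
      by_contra hcon
      push Not at hcon
      exact h2 ⟨z, hz, hcon⟩
    unfold fd
    linarith

/-- the formula for the crossing event -/
def crossSet (c : Bool) (S A B : Set ℂ) : Set (Set (ℂ × Bool)) :=
  ⋂ m : ℕ, ⋃ F : {F : Finset ℂ // (F : Set ℂ) ⊆ S ∧ Link A B (1 / (m + 1)) F},
    ⋂ x ∈ F.1, ⋃ q : ℚ, {Y | Occ Y (bx x q c) ∧ ¬ Occ Y (bx x (q - 1 / (m + 1)) (!c))}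

theorem Good.crosses_iff {X : Set (ℂ × Bool)} (h : Good X) (c : Bool) {D A B S : Set ℂ}
    (hq : QD D A B) (hSD : S ⊆ D) (hSd : D ⊆ closure S) (hSA : A ⊆ closure (S ∩ A))
    (hSB : B ⊆ closure (S ∩ B)) : Crosses c X D A B ↔ X ∈ crossSet c S A B := by
  rw [crosses_iff_conn h c hq.hD]
  have e : region X c ∩ D = {z | fd X c z ≤ 0} ∩ D := by
    rw [h.region_eq]
    congr 1
    ext z
    simp [fd]
  rw [e, conn_iff_link (fd_lip X c) hq.hD hq.hA hq.hB hq.hAD hq.hBD hq.hAB hSD hSd hSA hSB]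
  unfold crossSet
  simp only [mem_iInter, mem_iUnion, mem_ofPred_eq, Subtype.exists, h.fd_lt_iff]
  constructor
  · intro h1 m
    obtain ⟨F, f1, f2, f3⟩ := h1 m
    exact ⟨F, ⟨f1, f2⟩, f3⟩
  · intro h1 m
    obtain ⟨F, ⟨f1, f2⟩, f3⟩ := h1 m
    exact ⟨F, f1, f2, f3⟩

theorem incr_crossSet (c : Bool) {S : Set ℂ} (A B : Set ℂ) (hS : S.Countable) :
    Incr c (crossSet c S A B) := by
  refine ⟨_, fun m => ?_, rfl⟩
  have hc : Countable {F : Finset ℂ // (F : Set ℂ) ⊆ S ∧ Link A B (1 / ((m : ℝ) + 1)) F} := by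
    have h1 : {t : Set ℂ | t.Finite ∧ t ⊆ S}.Countable := Set.countable_ofPred_finite_subset hS
    have : Countable {t : Set ℂ | t.Finite ∧ t ⊆ S} := h1.to_subtype
    refine Function.Injective.countable (f := fun F : {F : Finset ℂ // (F : Set ℂ) ⊆ S ∧
      Link A B (1 / ((m : ℝ) + 1)) F} =>
      (⟨(F.1 : Set ℂ), F.1.finite_toSet, F.2.1⟩ : {t : Set ℂ | t.Finite ∧ t ⊆ S})) ?_
    intro F G hFG
    have : (F.1 : Set ℂ) = G.1 := congrArg Subtype.val hFG
    exact Subtype.ext (Finset.coe_injective this)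
  refine opn_iUnion fun F => opn_biInter_finset _ fun x _ => opn_iUnion fun q => Pos.opn ?_
  have e : {Y | Occ Y (bx x q c) ∧ ¬ Occ Y (bx x (q - 1 / ((m : ℝ) + 1)) (!c))} =
      {Y | gs c Y (x, (q : ℝ), c)} ∩ {Y | gs c Y (x, (q : ℝ) - 1 / ((m : ℝ) + 1), !c)} := by
    ext Y
    have hne : (!c) ≠ c := by cases c <;> simp
    simp [gs, hne]
  rw [e]
  exact (pos_basic c _).inter (pos_basic c _)

/-- The crossing event is an increasing event, up to bad configurations. -/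
theorem exists_incr (c : Bool) {D A B : Set ℂ} (hq : QD D A B) :
    ∃ W, Incr c W ∧ ∀ X, Good X → (Crosses c X D A B ↔ X ∈ W) := by
  obtain ⟨s, hs1, hs2, hs3⟩ := exists_dense_sub D
  obtain ⟨t, ht1, ht2, ht3⟩ := exists_dense_sub A
  obtain ⟨u, hu1, hu2, hu3⟩ := exists_dense_sub B
  refine ⟨crossSet c (s ∪ (t ∪ u)) A B, incr_crossSet c A B (hs2.union (ht2.union hu2)), ?_⟩
  intro X hX
  refine hX.crosses_iff c hq ?_ ?_ ?_ ?_
  · exact union_subset hs1 (union_subset (ht1.trans hq.hAD) (hu1.trans hq.hBD))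
  · exact hs3.trans (closure_mono subset_union_left)
  · exact ht3.trans (closure_mono fun x hx => ⟨Or.inr (Or.inl hx), ht1 hx⟩)
  · exact hu3.trans (closure_mono fun x hx => ⟨Or.inr (Or.inr hx), hu1 hx⟩)

/-! ### The intensity measure; good configurations -/

theorem intensity_prod (ε : ℝ) (U : Set ℂ) (d : Bool) :
    intensity ε (U ×ˢ {d}) = ENNReal.ofReal (ε⁻¹ ^ 2) * (volume U * 2⁻¹) := by
  unfold intensity
  rw [Measure.smul_apply, Measure.prod_prod, Measure.smul_apply, Measure.count_singleton]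
  simp

theorem intensity_bx_ne_top (ε : ℝ) (x : ℂ) (r : ℝ) (d : Bool) : intensity ε (bx x r d) ≠ ∞ := by
  rw [bx, intensity_prod]
  refine ENNReal.mul_ne_top ENNReal.ofReal_ne_top (ENNReal.mul_ne_top ?_ (by simp))
  exact measure_ball_lt_top.ne

section
variable {Ω : Type*} [MeasurableSpace Ω] {P : Measure Ω} [IsProbabilityMeasure P]

theorem IsPoissonProcess.ae_finite {E : Type*} [MeasurableSpace E] {ν : Measure E} {X : Ω → Set E}
    (hX : IsPoissonProcess P ν X) {A : Set E} (hA : MeasurableSet A) (hν : ν A ≠ ∞) :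
    ∀ᵐ ω ∂P, (X ω ∩ A).Finite := by
  set r := (ν A).toReal with hr
  have hm : ∀ j : ℕ, MeasurableSet {ω | (X ω ∩ A).encard = j} := fun j =>
    hX.measurable A hA (measurableSet_singleton (j : ℕ∞))
  have h1 : P (⋃ j : ℕ, {ω | (X ω ∩ A).encard = j}) = 1 := by
    rw [measure_iUnion (fun i j hij => by
      rw [Function.onFun, Set.disjoint_left]
      intro ω h2 h3
      have h4 : (X ω ∩ A).encard = i := h2
      have h5 : (X ω ∩ A).encard = j := h3
      rw [h4] at h5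
      exact hij (by exact_mod_cast h5)) hm]
    simp only [hX.law A hA hν]
    have h2 : HasSum (fun n : ℕ => Real.exp (-r) * r ^ n / n.factorial) 1 :=
      hasSum_one_poissonMeasure ⟨r, ENNReal.toReal_nonneg⟩
    rw [← ENNReal.ofReal_tsum_of_nonneg (fun j => by positivity) h2.summable, h2.tsum_eq,
      ENNReal.ofReal_one]
  have h2 : ∀ᵐ ω ∂P, ω ∈ ⋃ j : ℕ, {ω | (X ω ∩ A).encard = j} := by
    rw [← prob_compl_eq_zero_iff (MeasurableSet.iUnion hm)] at h1
    exact h1
  filter_upwards [h2] with ω hω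
  obtain ⟨j, hj⟩ := mem_iUnion.1 hω
  have hj' : (X ω ∩ A).encard = j := hj
  rw [← Set.encard_ne_top_iff, hj']
  exact ENat.natCast_ne_top j

theorem ae_good {ε : ℝ} (hε : 0 < ε) {X : Ω → Set (ℂ × Bool)}
    (hX : IsPoissonProcess P (intensity ε) X) : ∀ᵐ ω ∂P, Good (X ω) := by
  have h1 : ∀ᵐ ω ∂P, ∀ (R : ℕ) (c : Bool), (pc (X ω) c ∩ closedBall 0 R).Finite := by
    rw [ae_all_iff]
    intro R
    rw [ae_all_iff]
    intro c
    have h2 : intensity ε (closedBall (0 : ℂ) R ×ˢ {c}) ≠ ∞ := by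
      rw [intensity_prod]
      exact ENNReal.mul_ne_top ENNReal.ofReal_ne_top
        (ENNReal.mul_ne_top measure_closedBall_lt_top.ne (by simp))
    filter_upwards [hX.ae_finite (isClosed_closedBall.measurableSet.prod
      (measurableSet_singleton c)) h2] with ω hω
    refine (hω.image Prod.fst).subset ?_
    rintro v ⟨hv, hvR⟩
    exact ⟨(v, c), ⟨hv, hvR, rfl⟩, rfl⟩
  have h2 : ∀ c : Bool, ∀ᵐ ω ∂P, (pc (X ω) c).Nonempty := by
    intro c
    rw [ae_iff]
    have h3 : ∀ R : ℕ, P {ω | ¬ (pc (X ω) c).Nonempty} ≤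
        ENNReal.ofReal (Real.exp (-((R : ℝ) ^ 2 * (ε⁻¹ ^ 2 * Real.pi / 2)))) := by
      intro R
      have h4 : intensity ε (ball (0 : ℂ) R ×ˢ {c}) ≠ ∞ := intensity_bx_ne_top ε 0 R c
      have h5 := hX.void (isOpen_ball.measurableSet.prod (measurableSet_singleton c)) h4
      have h6 : (intensity ε (ball (0 : ℂ) R ×ˢ {c})).toReal =
          (R : ℝ) ^ 2 * (ε⁻¹ ^ 2 * Real.pi / 2) := by
        rw [intensity_prod, Complex.volume_ball]
        simp only [ENNReal.toReal_mul, ENNReal.toReal_inv, ENNReal.toReal_pow]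
        rw [ENNReal.toReal_ofReal (by positivity), ENNReal.toReal_ofReal (by positivity)]
        simp [NNReal.coe_real_pi]
        ring
      rw [← h6, ← h5]
      refine measure_mono fun ω hω => ?_
      rintro ⟨⟨v, d⟩, hv, hvb, hd⟩
      have hd' : d = c := hd
      subst hd'
      exact hω ⟨v, hv⟩
    have h4 : Tendsto (fun R : ℕ => ENNReal.ofReal
        (Real.exp (-((R : ℝ) ^ 2 * (ε⁻¹ ^ 2 * Real.pi / 2))))) atTop (𝓝 0) := by
      rw [← ENNReal.ofReal_zero]
      refine ENNReal.tendsto_ofReal (Real.tendsto_exp_atBot.comp (tendsto_neg_atTop_atBot.comp ?_))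
      refine Tendsto.atTop_mul_const (by positivity) ?_
      exact (tendsto_pow_atTop two_ne_zero).comp tendsto_natCast_atTop_atTop
    exact le_antisymm (ge_of_tendsto' h4 h3) zero_le
  filter_upwards [h1, h2 true, h2 false] with ω a b c
  exact ⟨a, fun d => by cases d <;> assumption⟩

theorem prob_crosses_eq {ε : ℝ} (hε : 0 < ε) {X : Ω → Set (ℂ × Bool)}
    (hX : IsPoissonProcess P (intensity ε) X) {c : Bool} {D A B : Set ℂ}
    {W : Set (Set (ℂ × Bool))} (hW : ∀ X, Good X → (Crosses c X D A B ↔ X ∈ W)) :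
    P {ω | Crosses c (X ω) D A B} = P {ω | X ω ∈ W} := by
  apply measure_congr
  filter_upwards [ae_good hε hX] with ω hω
  exact propext (hW (X ω) hω)

/-- uniqueness in law of the crossing probability -/
theorem prob_crosses_unique {Ω' : Type*} [MeasurableSpace Ω'] {P' : Measure Ω'}
    [IsProbabilityMeasure P'] {ε : ℝ} (hε : 0 < ε) {X : Ω → Set (ℂ × Bool)}
    (hX : IsPoissonProcess P (intensity ε) X) {X' : Ω' → Set (ℂ × Bool)}
    (hX' : IsPoissonProcess P' (intensity ε) X') (c : Bool) {D A B : Set ℂ} (hq : QD D A B) :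
    P {ω | Crosses c (X ω) D A B} = P' {ω | Crosses c (X' ω) D A B} := by
  obtain ⟨W, hW, hW'⟩ := exists_incr c hq
  rw [prob_crosses_eq hε hX hW', prob_crosses_eq hε hX' hW']
  exact law_unique hX hX' (hW.measurableSet (intensity_bx_ne_top ε))

end

end P148.H70
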