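import Vale.Agent.P148.H70.Null

/-!
# P148: general position
-/

open Set MeasureTheory ProbabilityTheory Filter Topology Metric
open scoped ENNReal

namespace P148.H70

/-- `z` is equidistant from `k + 1` points of the configuration -/
def Equi (X : Set (ℂ × Bool)) (k : ℕ) (z : ℂ) : Prop :=
  ∃ x : Fin (k + 1) → ℂ, Function.Injective x ∧ (∀ i, ∃ c, (x i, c) ∈ X) ∧
    ∀ j, dist z (x j) = dist z (x 0)

theorem null_equi {k : ℕ} {K : Set ℂ} (hK : IsCompact K)
    (hfin : ∀ y : Fin (k + 1) → ℂ, Function.Injective y →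
      {z ∈ K | ∀ j, dist z (y j) = dist z (y 0)}.Countable) (ε : ℝ) :
    Measure.pi (fun _ : Fin (k + 2) => intensity ε)
      {x | (Function.Injective fun i : Fin (k + 1) => (x i.succ).1) ∧
        ∃ z ∈ K, ∀ j, dist z (x j).1 = dist z (x 0).1} = 0 := by
  have m1 : MeasurableSet {x : Fin (k + 2) → ℂ × Bool |
      Function.Injective fun i : Fin (k + 1) => (x i.succ).1} := by
    have : {x : Fin (k + 2) → ℂ × Bool | Function.Injective fun i : Fin (k + 1) => (x i.succ).1} =
        ⋂ (i : Fin (k + 1)) (j : Fin (k + 1)) (_ : i ≠ j), {x | (x i.succ).1 = (x j.succ).1}ᶜ := by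
      ext x
      simp only [mem_iInter]
      constructor
      · intro h i j hij he
        exact hij (h he)
      · intro h i j he
        by_contra hij
        exact h i j hij he
    rw [this]
    refine MeasurableSet.iInter fun i => MeasurableSet.iInter fun j => MeasurableSet.iInter
      fun _ => (IsClosed.measurableSet ?_).compl
    exact isClosed_eq (by fun_prop) (by fun_prop)
  have m2 : MeasurableSet {x : Fin (k + 2) → ℂ × Bool |
      ∃ z ∈ K, ∀ j, dist z (x j).1 = dist z (x 0).1} := by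
    have hKc : CompactSpace K := isCompact_iff_compactSpace.1 hK
    have h1 : {x : Fin (k + 2) → ℂ × Bool | ∃ z ∈ K, ∀ j, dist z (x j).1 = dist z (x 0).1} =
        Prod.fst '' {p : (Fin (k + 2) → ℂ × Bool) × K | ∀ j,
          dist (p.2 : ℂ) (p.1 j).1 = dist (p.2 : ℂ) (p.1 0).1} := by
      ext x
      constructor
      · rintro ⟨z, hz, h⟩
        exact ⟨(x, ⟨z, hz⟩), h, rfl⟩
      · rintro ⟨⟨_, ⟨z, hz⟩⟩, h, rfl⟩
        exact ⟨z, hz, h⟩
    rw [h1]
    refine (isClosedMap_fst_of_compactSpace _ ?_).measurableSet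
    rw [ofPred_forall]
    exact isClosed_iInter fun j => isClosed_eq (by fun_prop) (by fun_prop)
  refine pi_null_of_slices (m1.inter m2) fun y => ?_
  by_cases hy : Function.Injective fun i => (y i).1
  · refine measure_mono_null (t := ⋃ z ∈ {z ∈ K | ∀ j, dist z (y j).1 = dist z (y 0).1},
      {p : ℂ × Bool | dist z p.1 = dist z (y 0).1}) ?_ ?_
    · rintro v ⟨-, z, hz, h⟩
      rw [mem_iUnion₂]
      have h0 : dist z (y 0).1 = dist z v.1 := by simpa using h (Fin.succ 0)
      refine ⟨z, ⟨hz, fun j => ?_⟩, h0.symm⟩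
      have hj : dist z (y j).1 = dist z v.1 := by simpa using h (Fin.succ j)
      rw [hj, h0]
    · rw [measure_biUnion_null_iff (hfin _ hy)]
      intro z _
      exact intensity_sphere ε z _
  · refine measure_mono_null (t := ∅) ?_ (by simp)
    rintro v ⟨h, -⟩
    exact hy (by simpa using h)

section
variable {Ω : Type*} [MeasurableSpace Ω] {P : Measure Ω} [IsProbabilityMeasure P]
  {ε : ℝ} {X : Ω → Set (ℂ × Bool)}

theorem ae_not_equi (hX : IsPoissonProcess P (intensity ε) X) {k : ℕ} {K : Set ℂ}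
    (hK : IsCompact K) (hfin : ∀ y : Fin (k + 1) → ℂ, Function.Injective y →
      {z ∈ K | ∀ j, dist z (y j) = dist z (y 0)}.Countable) :
    ∀ᵐ ω ∂P, ∀ z ∈ K, ¬ Equi (X ω) (k + 1) z := by
  obtain ⟨𝒰, h1, h2, h3⟩ := exists_countable_bx
  filter_upwards [hX.tuple_null h1 (h2 ε) h3 (null_equi hK hfin ε)] with ω hω z hz
  rintro ⟨x, x1, x2, x3⟩
  choose c hc using x2
  refine hω (fun i => (x i, c i)) ?_ hc ⟨?_, z, hz, x3⟩
  · intro i j hij
    exact x1 (congrArg Prod.fst hij)
  · intro i j hij
    exact Fin.succ_injective _ (x1 hij)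

/-- no point is equidistant from four points -/
theorem ae_four (hX : IsPoissonProcess P (intensity ε) X) : ∀ᵐ ω ∂P, ∀ z, ¬ Equi (X ω) 3 z := by
  have h1 : ∀ᵐ ω ∂P, ∀ m : ℕ, ∀ z ∈ closedBall (0 : ℂ) m, ¬ Equi (X ω) 3 z := by
    rw [ae_all_iff]
    intro m
    refine ae_not_equi hX (isCompact_closedBall _ _) fun y hy => ?_
    refine Set.Subsingleton.countable ?_
    rintro z ⟨-, hz⟩ z' ⟨-, hz'⟩
    by_contra hne
    have := EuclideanGeometry.eq_of_dist_eq_of_dist_eq_of_finrank_eq_two
      (V := ℂ) (P := ℂ) (by exact Complex.finrank_real_complex) hne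
      (p₁ := y 0) (p₂ := y 1) (p := y 2) (r₁ := dist z (y 0)) (r₂ := dist z' (y 0))
      (hy.ne (by decide)) (by rw [dist_comm]) (by rw [dist_comm, hz]) (by rw [dist_comm, hz])
      (by rw [dist_comm]) (by rw [dist_comm, hz']) (by rw [dist_comm, hz'])
    rcases this with h | h
    · exact hy.ne (by decide) h
    · exact hy.ne (by decide) h
  filter_upwards [h1] with ω hω z
  obtain ⟨m, hm⟩ := exists_nat_gt ‖z‖
  exact hω m z (by rw [mem_closedBall_zero_iff]; exact hm.le)

/-- the points of a circle which are equidistant from two points -/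
theorem finite_line_circle (z₀ : ℂ) (r : ℝ) {u v : ℂ} (huv : u ≠ v) :
    {z ∈ sphere z₀ r | dist z v = dist z u}.Finite := by
  set w : ℂ := (starRingEnd ℂ) (v - u) with hw
  have hw0 : w ≠ 0 := by
    rw [hw, map_ne_zero]
    exact sub_ne_zero.2 huv.symm
  set κ : ℝ := (‖v‖ ^ 2 - ‖u‖ ^ 2) / 2 with hκ
  set q : ℂ := w * z₀ with hq
  set C : ℝ := r ^ 2 * ‖w‖ ^ 2 - (κ - q.re) ^ 2 with hC
  have h1 : (fun z => w * z) '' {z ∈ sphere z₀ r | dist z v = dist z u} ⊆
      {⟨κ, q.im + Real.sqrt C⟩, ⟨κ, q.im - Real.sqrt C⟩} := by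
    rintro _ ⟨z, ⟨hz, hd⟩, rfl⟩
    have e1 : (w * z).re = κ := by
      have h2 : ‖z - v‖ ^ 2 = ‖z - u‖ ^ 2 := by rw [← dist_eq_norm, ← dist_eq_norm, hd]
      rw [← Complex.normSq_eq_norm_sq, ← Complex.normSq_eq_norm_sq, Complex.normSq_apply,
        Complex.normSq_apply] at h2
      rw [hκ, ← Complex.normSq_eq_norm_sq, ← Complex.normSq_eq_norm_sq, Complex.normSq_apply,
        Complex.normSq_apply, hw]
      simp only [Complex.sub_re, Complex.sub_im, Complex.mul_re, Complex.conj_re,
        Complex.conj_im] at h2 ⊢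
      linarith
    have e2 : ((w * z).im - q.im) ^ 2 = C := by
      have h3 : ‖w * z - q‖ ^ 2 = r ^ 2 * ‖w‖ ^ 2 := by
        rw [hq, ← mul_sub, norm_mul, ← dist_eq_norm, mem_sphere.1 hz]
        ring
      rw [← Complex.normSq_eq_norm_sq, Complex.normSq_apply, Complex.sub_re, Complex.sub_im,
        e1] at h3
      rw [hC]
      linarith
    have e3 : Real.sqrt C = |(w * z).im - q.im| := by rw [← e2, Real.sqrt_sq_eq_abs]
    rw [mem_insert_iff, mem_singleton_iff]
    rcases abs_choice ((w * z).im - q.im) with h4 | h4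
    · left
      apply Complex.ext
      · exact e1
      · show (w * z).im = q.im + Real.sqrt C
        rw [e3, h4]; ring
    · right
      apply Complex.ext
      · exact e1
      · show (w * z).im = q.im - Real.sqrt C
        rw [e3, h4]; ring
  have h2 := (Set.toFinite _).subset h1
  exact h2.of_finite_image ((mul_right_injective₀ hw0).injOn)

/-- no point of a given circle is equidistant from three points -/
theorem ae_three (hX : IsPoissonProcess P (intensity ε) X) (z₀ : ℂ) (r : ℝ) :
    ∀ᵐ ω ∂P, ∀ z ∈ sphere z₀ r, ¬ Equi (X ω) 2 z := by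
  refine ae_not_equi hX (isCompact_sphere _ _) fun y hy => ?_
  refine ((finite_line_circle z₀ r (hy.ne (show (0 : Fin 2) ≠ 1 by decide))).subset ?_).countable
  rintro z ⟨hz, h⟩
  exact ⟨hz, h 1⟩

/-- a given point is not equidistant from two points -/
theorem ae_two (hX : IsPoissonProcess P (intensity ε) X) (m : ℂ) :
    ∀ᵐ ω ∂P, ¬ Equi (X ω) 1 m := by
  have := ae_not_equi hX (k := 0) (isCompact_singleton (x := m)) fun y _ =>
    ((finite_singleton m).subset fun z hz => hz.1).countable
  filter_upwards [this] with ω hω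
  exact hω m rfl

/-- no two points of different colours at the same place -/
theorem ae_pos (hX : IsPoissonProcess P (intensity ε) X) :
    ∀ᵐ ω ∂P, ∀ v c d, (v, c) ∈ X ω → (v, d) ∈ X ω → c = d := by
  obtain ⟨𝒰, h1, h2, h3⟩ := exists_countable_bx
  have h4 : Measure.pi (fun _ : Fin 2 => intensity ε) {x | (x 0).1 = (x 1).1} = 0 := by
    refine pi_null_of_slices ?_ fun y => ?_
    · exact (isClosed_eq (by fun_prop) (by fun_prop)).measurableSet
    · refine measure_mono_null ?_ (intensity_sphere ε (y 0).1 0)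
      intro v hv
      have hv' : v.1 = (y 0).1 := by simpa using hv
      show dist (y 0).1 v.1 = 0
      rw [hv', dist_self]
  filter_upwards [hX.tuple_null h1 (h2 ε) h3 h4] with ω hω v c d hc hd
  by_contra hne
  refine hω ![(v, c), (v, d)] ?_ ?_ rfl
  · intro i j hij
    fin_cases i <;> fin_cases j <;> simp_all
  · intro i
    fin_cases i <;> assumption

end

end P148.H70
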