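import Vale.Agent.P148.H70.Occ

/-!
# P148: increasing events and the FKG inequality
-/

open Set MeasureTheory ProbabilityTheory Filter Topology
open scoped ENNReal

namespace P148.H70

/-- coloured balls -/
def bx (x : ℂ) (r : ℝ) (d : Bool) : Set (ℂ × Bool) := Metric.ball x r ×ˢ {d}

theorem measurableSet_bx (x : ℂ) (r : ℝ) (d : Bool) : MeasurableSet (bx x r d) :=
  Metric.isOpen_ball.measurableSet.prod (measurableSet_singleton d)

/-- indices: centre, radius, colour -/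
abbrev Ind := ℂ × ℝ × Bool

open Classical in
/-- signed occupancy of coloured balls; the colour `c` counts as increasing -/
def gs (c : Bool) (Y : Set (ℂ × Bool)) (i : Ind) : Prop :=
  if i.2.2 = c then Occ Y (bx i.1 i.2.1 i.2.2) else ¬ Occ Y (bx i.1 i.2.1 i.2.2)

/-- increasing sets of configurations depending on finitely many coloured balls -/
def Pos (c : Bool) (W : Set (Set (ℂ × Bool))) : Prop :=
  ∃ (𝓤 : Finset Ind) (𝓐 : Set (Ind → Prop)), IsUpperSet 𝓐 ∧
    (∀ z z' : Ind → Prop, (∀ i ∈ 𝓤, (z i ↔ z' i)) → (z ∈ 𝓐 ↔ z' ∈ 𝓐)) ∧ W = {Y | gs c Y ∈ 𝓐}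

theorem pos_univ (c : Bool) : Pos c univ :=
  ⟨∅, univ, isUpperSet_univ, by simp, by simp⟩

theorem pos_empty (c : Bool) : Pos c ∅ :=
  ⟨∅, ∅, isUpperSet_empty, by simp, by simp⟩

theorem Pos.inter {c : Bool} {W W' : Set (Set (ℂ × Bool))} (h : Pos c W) (h' : Pos c W') :
    Pos c (W ∩ W') := by
  classical
  obtain ⟨U, A, a1, a2, rfl⟩ := h
  obtain ⟨U', A', b1, b2, rfl⟩ := h'
  refine ⟨U ∪ U', A ∩ A', a1.inter b1, ?_, by ext; simp⟩
  intro z z' hz
  rw [mem_inter_iff, mem_inter_iff, a2 z z' fun i hi => hz i (Finset.mem_union_left _ hi),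
    b2 z z' fun i hi => hz i (Finset.mem_union_right _ hi)]

theorem Pos.union {c : Bool} {W W' : Set (Set (ℂ × Bool))} (h : Pos c W) (h' : Pos c W') :
    Pos c (W ∪ W') := by
  classical
  obtain ⟨U, A, a1, a2, rfl⟩ := h
  obtain ⟨U', A', b1, b2, rfl⟩ := h'
  refine ⟨U ∪ U', A ∪ A', a1.union b1, ?_, by ext; simp⟩
  intro z z' hz
  rw [mem_union, mem_union, a2 z z' fun i hi => hz i (Finset.mem_union_left _ hi),
    b2 z z' fun i hi => hz i (Finset.mem_union_right _ hi)]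

theorem pos_basic (c : Bool) (i : Ind) : Pos c {Y | gs c Y i} :=
  ⟨{i}, {z | z i}, fun _ _ h h' => h i h', fun z z' h => h i (by simp), rfl⟩

theorem Pos.measurableSet {c : Bool} {W : Set (Set (ℂ × Bool))} (h : Pos c W)
    {ν : Measure (ℂ × Bool)} (hν : ∀ x r d, ν (bx x r d) ≠ ∞) :
    MeasurableSet[confSigma ν] W := by
  classical
  let _ := confSigma ν
  obtain ⟨U, A, a1, a2, rfl⟩ := h
  have hb : ∀ i, MeasurableSet {Y | gs c Y i} := by
    intro i
    unfold gs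
    by_cases hi : i.2.2 = c
    · simp only [hi, if_true]
      exact measurableSet_conf_occ (measurableSet_bx _ _ _) (hν _ _ _)
    · simp only [hi, if_false]
      exact measurableSet_conf_not_occ (measurableSet_bx _ _ _) (hν _ _ _)
  have e : {Y | gs c Y ∈ A} = ⋃ T ∈ (U.powerset.filter fun T => (fun i => i ∈ T) ∈ A),
      ⋂ i ∈ U, {Y | gs c Y i ↔ i ∈ T} := by
    ext Y
    simp only [mem_ofPred_eq, Finset.mem_filter, Finset.mem_powerset, mem_iUnion, mem_iInter,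
      exists_prop]
    constructor
    · intro hY
      refine ⟨U.filter fun i => gs c Y i, ⟨Finset.filter_subset _ _, ?_⟩, ?_⟩
      · refine (a2 _ _ ?_).1 hY
        intro i hi
        simp [hi]
      · intro i hi
        simp [hi]
    · rintro ⟨T, ⟨hT, hTA⟩, h⟩
      exact (a2 _ _ h).2 hTA
  rw [e]
  refine Finset.measurableSet_biUnion _ fun T _ => Finset.measurableSet_biInter _ fun i _ => ?_
  by_cases hi : i ∈ T
  · have : {Y | gs c Y i ↔ i ∈ T} = {Y | gs c Y i} := by ext; simp [hi]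
    rw [this]; exact hb i
  · have : {Y | gs c Y i ↔ i ∈ T} = {Y | gs c Y i}ᶜ := by ext; simp [hi]
    rw [this]; exact (hb i).compl

section
variable {Ω : Type*} [MeasurableSpace Ω] {P : Measure Ω} [IsProbabilityMeasure P]
  {ν : Measure (ℂ × Bool)} {X : Ω → Set (ℂ × Bool)}

theorem Pos.fkg (hX : IsPoissonProcess P ν X) {c : Bool} {W W' : Set (Set (ℂ × Bool))}
    (h : Pos c W) (h' : Pos c W') :
    P {ω | X ω ∈ W} * P {ω | X ω ∈ W'} ≤ P {ω | X ω ∈ W ∩ W'} := by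
  classical
  obtain ⟨U, A, a1, a2, rfl⟩ := h
  obtain ⟨U', A', b1, b2, rfl⟩ := h'
  set V := U ∪ U' with hV
  let cc : V → Bool := fun i => decide (i.1.2.2 = c)
  let UU : V → Set (ℂ × Bool) := fun i => bx i.1.1 i.1.2.1 i.1.2.2
  let ext : (V → Prop) → (Ind → Prop) := fun z i => ∃ h : i ∈ V, z ⟨i, h⟩
  have hext : Monotone ext := by
    rintro z z' hz i ⟨h, hi⟩
    exact ⟨h, hz _ hi⟩
  have hagree : ∀ Y, ∀ i ∈ V, (gs c Y i ↔ ext (sgn cc UU Y) i) := by
    intro Y i hi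
    have e1 : ext (sgn cc UU Y) i ↔ sgn cc UU Y ⟨i, hi⟩ := ⟨fun h => h.2, fun h => ⟨hi, h⟩⟩
    rw [e1]
    unfold gs sgn
    by_cases hc : i.2.2 = c
    · rw [if_pos hc, if_pos (by simp [cc, hc])]
    · rw [if_neg hc, if_neg (by simp [cc, hc])]
  have key := hX.fkg_fin cc UU (fun i => measurableSet_bx _ _ _) (by
    intro i j hij
    rw [Set.disjoint_left]
    rintro p ⟨_, h1⟩ ⟨_, h2⟩
    rw [mem_singleton_iff] at h1 h2
    apply hij
    show decide (i.1.2.2 = c) = decide (j.1.2.2 = c)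
    rw [← h1, ← h2]) (a1.preimage hext) (b1.preimage hext)
  have e1 : {ω | X ω ∈ {Y | gs c Y ∈ A}} = {ω | sgn cc UU (X ω) ∈ ext ⁻¹' A} := by
    apply Set.ext
    intro ω
    exact a2 _ _ fun i hi => hagree (X ω) i (Finset.mem_union_left _ hi)
  have e2 : {ω | X ω ∈ {Y | gs c Y ∈ A'}} = {ω | sgn cc UU (X ω) ∈ ext ⁻¹' A'} := by
    apply Set.ext
    intro ω
    exact b2 _ _ fun i hi => hagree (X ω) i (Finset.mem_union_right _ hi)
  have e3 : {ω | X ω ∈ {Y | gs c Y ∈ A} ∩ {Y | gs c Y ∈ A'}} =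
      {ω | sgn cc UU (X ω) ∈ ext ⁻¹' A ∩ ext ⁻¹' A'} := by
    apply Set.ext
    intro ω
    exact and_congr (a2 _ _ fun i hi => hagree (X ω) i (Finset.mem_union_left _ hi))
      (b2 _ _ fun i hi => hagree (X ω) i (Finset.mem_union_right _ hi))
  rw [e1, e2, e3]
  exact key

end

/-- countable unions of the sets `Pos` -/
def Opn (c : Bool) (W : Set (Set (ℂ × Bool))) : Prop :=
  ∃ V : ℕ → Set (Set (ℂ × Bool)), (∀ i, Pos c (V i)) ∧ W = ⋃ i, V i

theorem Pos.opn {c : Bool} {W : Set (Set (ℂ × Bool))} (h : Pos c W) : Opn c W :=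
  ⟨fun _ => W, fun _ => h, by rw [iUnion_const]⟩

theorem opn_iUnion {c : Bool} {ι : Type*} [Countable ι] {W : ι → Set (Set (ℂ × Bool))}
    (h : ∀ i, Opn c (W i)) : Opn c (⋃ i, W i) := by
  rcases isEmpty_or_nonempty ι with hι | hι
  · rw [iUnion_of_empty]; exact (pos_empty c).opn
  · choose V hV hW using h
    obtain ⟨f, hf⟩ := exists_surjective_nat (ι × ℕ)
    refine ⟨fun k => V (f k).1 (f k).2, fun k => hV _ _, ?_⟩
    ext Y
    simp only [mem_iUnion]
    constructor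
    · rintro ⟨i, hi⟩
      rw [hW i, mem_iUnion] at hi
      obtain ⟨j, hj⟩ := hi
      obtain ⟨k, hk⟩ := hf (i, j)
      exact ⟨k, by rw [hk]; exact hj⟩
    · rintro ⟨k, hk⟩
      refine ⟨(f k).1, ?_⟩
      rw [hW, mem_iUnion]
      exact ⟨_, hk⟩

theorem Opn.inter {c : Bool} {W W' : Set (Set (ℂ × Bool))} (h : Opn c W) (h' : Opn c W') :
    Opn c (W ∩ W') := by
  obtain ⟨V, hV, rfl⟩ := h
  obtain ⟨V', hV', rfl⟩ := h'
  have : (⋃ i, V i) ∩ (⋃ i, V' i) = ⋃ k : ℕ × ℕ, V k.1 ∩ V' k.2 := by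
    ext Y
    simp only [mem_inter_iff, mem_iUnion]
    constructor
    · rintro ⟨⟨i, hi⟩, ⟨j, hj⟩⟩; exact ⟨(i, j), hi, hj⟩
    · rintro ⟨k, h1, h2⟩; exact ⟨⟨_, h1⟩, ⟨_, h2⟩⟩
  rw [this]
  exact opn_iUnion fun k => ((hV k.1).inter (hV' k.2)).opn

theorem opn_biInter_finset {c : Bool} {ι : Type*} (F : Finset ι) {W : ι → Set (Set (ℂ × Bool))}
    (h : ∀ i ∈ F, Opn c (W i)) : Opn c (⋂ i ∈ F, W i) := by
  classical
  induction F using Finset.induction_on with
  | empty => simpa using (pos_univ c).opn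
  | insert a F ha ih =>
    rw [Finset.set_biInter_insert]
    exact (h a (Finset.mem_insert_self _ _)).inter
      (ih fun i hi => h i (Finset.mem_insert_of_mem hi))

theorem Opn.measurableSet {c : Bool} {W : Set (Set (ℂ × Bool))} (h : Opn c W)
    {ν : Measure (ℂ × Bool)} (hν : ∀ x r d, ν (bx x r d) ≠ ∞) :
    MeasurableSet[confSigma ν] W := by
  obtain ⟨V, hV, rfl⟩ := h
  exact MeasurableSet.iUnion fun i => (hV i).measurableSet hν

/-- a representation by an increasing sequence -/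
theorem Opn.exists_mono {c : Bool} {W : Set (Set (ℂ × Bool))} (h : Opn c W) :
    ∃ V : ℕ → Set (Set (ℂ × Bool)), (∀ i, Pos c (V i)) ∧ Monotone V ∧ W = ⋃ i, V i := by
  obtain ⟨V, hV, rfl⟩ := h
  refine ⟨fun n => ⋃ i ∈ Finset.range (n + 1), V i, fun n => ?_, ?_, ?_⟩
  · have : ∀ F : Finset ℕ, Pos c (⋃ i ∈ F, V i) := by
      classical
      intro F
      induction F using Finset.induction_on with
      | empty => simpa using pos_empty c
      | insert a F ha ih => rw [Finset.set_biUnion_insert]; exact (hV a).union ih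
    exact this _
  · intro a b hab
    refine biUnion_mono ?_ fun _ _ => le_rfl
    intro i hi
    simp only [Finset.coe_range, mem_Iio, Finset.mem_range] at hi ⊢
    omega
  · ext Y
    simp only [mem_iUnion, Finset.mem_range]
    constructor
    · rintro ⟨i, hi⟩; exact ⟨i, i, by omega, hi⟩
    · rintro ⟨n, i, _, hi⟩; exact ⟨i, hi⟩

/-- increasing sets of configurations: countable intersections of the sets `Opn` -/
def Incr (c : Bool) (W : Set (Set (ℂ × Bool))) : Prop :=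
  ∃ V : ℕ → Set (Set (ℂ × Bool)), (∀ i, Opn c (V i)) ∧ W = ⋂ i, V i

theorem Incr.inter {c : Bool} {W W' : Set (Set (ℂ × Bool))} (h : Incr c W) (h' : Incr c W') :
    Incr c (W ∩ W') := by
  obtain ⟨V, hV, rfl⟩ := h
  obtain ⟨V', hV', rfl⟩ := h'
  exact ⟨fun i => V i ∩ V' i, fun i => (hV i).inter (hV' i), by rw [iInter_inter_distrib]⟩

theorem Opn.incr {c : Bool} {W : Set (Set (ℂ × Bool))} (h : Opn c W) : Incr c W :=
  ⟨fun _ => W, fun _ => h, by rw [iInter_const]⟩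

theorem Incr.measurableSet {c : Bool} {W : Set (Set (ℂ × Bool))} (h : Incr c W)
    {ν : Measure (ℂ × Bool)} (hν : ∀ x r d, ν (bx x r d) ≠ ∞) :
    MeasurableSet[confSigma ν] W := by
  obtain ⟨V, hV, rfl⟩ := h
  exact MeasurableSet.iInter fun i => (hV i).measurableSet hν

theorem Incr.exists_anti {c : Bool} {W : Set (Set (ℂ × Bool))} (h : Incr c W) :
    ∃ V : ℕ → Set (Set (ℂ × Bool)), (∀ i, Opn c (V i)) ∧ Antitone V ∧ W = ⋂ i, V i := by
  obtain ⟨V, hV, rfl⟩ := h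
  refine ⟨fun n => ⋂ i ∈ Finset.range (n + 1), V i, fun n => opn_biInter_finset _ fun i _ => hV i,
    ?_, ?_⟩
  · intro a b hab
    refine biInter_mono ?_ fun _ _ => le_rfl
    intro i hi
    simp only [Finset.coe_range, mem_Iio, Finset.mem_range] at hi ⊢
    omega
  · ext Y
    simp only [mem_iInter, Finset.mem_range]
    constructor
    · intro h n i _; exact h i
    · intro h i; exact h i i (by omega)

section
variable {Ω : Type*} [MeasurableSpace Ω] {P : Measure Ω} [IsProbabilityMeasure P]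
  {ν : Measure (ℂ × Bool)} {X : Ω → Set (ℂ × Bool)}

theorem Opn.fkg (hX : IsPoissonProcess P ν X) {c : Bool} {W W' : Set (Set (ℂ × Bool))}
    (h : Opn c W) (h' : Opn c W') :
    P {ω | X ω ∈ W} * P {ω | X ω ∈ W'} ≤ P {ω | X ω ∈ W ∩ W'} := by
  obtain ⟨V, hV, hVm, rfl⟩ := h.exists_mono
  obtain ⟨V', hV', hVm', rfl⟩ := h'.exists_mono
  have e1 : {ω | X ω ∈ ⋃ i, V i} = ⋃ i, {ω | X ω ∈ V i} := by ext; simp
  have e2 : {ω | X ω ∈ ⋃ i, V' i} = ⋃ i, {ω | X ω ∈ V' i} := by ext; simp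
  have m1 : Monotone fun i => {ω | X ω ∈ V i} := fun i j hij ω hω => hVm hij hω
  have m2 : Monotone fun i => {ω | X ω ∈ V' i} := fun i j hij ω hω => hVm' hij hω
  rw [e1, e2, m1.measure_iUnion, m2.measure_iUnion, ENNReal.iSup_mul]
  refine iSup_le fun i => ?_
  rw [ENNReal.mul_iSup]
  refine iSup_le fun j => ((hV i).fkg hX (hV' j)).trans (measure_mono ?_)
  rintro ω ⟨h1, h2⟩
  exact ⟨mem_iUnion.2 ⟨i, h1⟩, mem_iUnion.2 ⟨j, h2⟩⟩

/-- **FKG inequality** for increasing events. -/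
theorem Incr.fkg (hX : IsPoissonProcess P ν X) (hν : ∀ x r d, ν (bx x r d) ≠ ∞) {c : Bool}
    {W W' : Set (Set (ℂ × Bool))} (h : Incr c W) (h' : Incr c W') :
    P {ω | X ω ∈ W} * P {ω | X ω ∈ W'} ≤ P {ω | X ω ∈ W ∩ W'} := by
  obtain ⟨V, hV, hVm, rfl⟩ := h.exists_anti
  obtain ⟨V', hV', hVm', rfl⟩ := h'.exists_anti
  have e : {ω | X ω ∈ (⋂ i, V i) ∩ ⋂ i, V' i} = ⋂ i, {ω | X ω ∈ V i ∩ V' i} := by
    ext ω
    simp only [mem_ofPred_eq, mem_inter_iff, mem_iInter]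
    exact forall_and.symm
  have hlim : Tendsto (P ∘ fun i => {ω | X ω ∈ V i ∩ V' i}) atTop
      (𝓝 (P (⋂ i, {ω | X ω ∈ V i ∩ V' i}))) := by
    refine tendsto_measure_iInter_atTop (fun i => ?_) ?_ ⟨0, measure_ne_top _ _⟩
    · exact (hX.measurable_conf (((hV i).inter (hV' i)).measurableSet hν)).nullMeasurableSet
    · intro i j hij ω hω
      exact ⟨hVm hij hω.1, hVm' hij hω.2⟩
  rw [e]
  refine ge_of_tendsto hlim (Eventually.of_forall fun i => ?_)
  refine le_trans (mul_le_mul' (measure_mono ?_) (measure_mono ?_)) ((hV i).fkg hX (hV' i))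
  · intro ω hω; exact mem_iInter.1 hω i
  · intro ω hω; exact mem_iInter.1 hω i

end

end P148.H70
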