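import Vale.Agent.P148.H70.Event

/-!
# P148: invariance under isometries and under the exchange of the colours
-/

open Set MeasureTheory ProbabilityTheory Filter Topology Metric
open scoped ENNReal

namespace P148.H70

/-! ### Exchange of the colours -/

/-- exchange of the colours -/
noncomputable def flipE : (ℂ × Bool) ≃ᵐ (ℂ × Bool) where
  toFun p := (p.1, !p.2)
  invFun p := (p.1, !p.2)
  left_inv p := by simp
  right_inv p := by simp
  measurable_toFun := measurable_fst.prodMk ((Measurable.of_discrete (f := Bool.not)).comp measurable_snd)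
  measurable_invFun := measurable_fst.prodMk ((Measurable.of_discrete (f := Bool.not)).comp measurable_snd)

theorem flipE_preserving (ε : ℝ) : MeasurePreserving flipE (intensity ε) (intensity ε) := by
  have h1 : MeasurePreserving Bool.not ((2⁻¹ : ℝ≥0∞) • (Measure.count : Measure Bool))
      ((2⁻¹ : ℝ≥0∞) • Measure.count) := by
    refine MeasurePreserving.smul_measure ⟨Measurable.of_discrete, ?_⟩ _
    ext s hs
    rw [Measure.map_apply Measurable.of_discrete hs, Measure.count_apply hs,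
      Measure.count_apply (Measurable.of_discrete hs)]
    have : (Bool.not ⁻¹' s).encard = s.encard := by
      have h : Bool.not '' (Bool.not ⁻¹' s) = s := image_preimage_eq s (fun b => ⟨!b, by simp⟩)
      conv_rhs => rw [← h]
      exact (Function.Injective.encard_image (fun a b h => by simpa using h) _).symm
    rw [this]
  have h2 := (MeasurePreserving.id (volume : Measure ℂ)).prod h1
  exact h2.smul_measure _

theorem mem_flip {X : Set (ℂ × Bool)} {v : ℂ} {c : Bool} : (v, c) ∈ flipE '' X ↔ (v, !c) ∈ X := by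
  constructor
  · rintro ⟨⟨w, d⟩, hw, he⟩
    have h1 : w = v := congrArg Prod.fst he
    have h2 : (!d) = c := congrArg Prod.snd he
    subst h1; subst h2
    simpa using hw
  · intro h
    exact ⟨(v, !c), h, by simp [flipE]⟩

theorem cell_flip (X : Set (ℂ × Bool)) (v : ℂ) : cell (flipE '' X) v = cell X v := by
  ext z
  constructor
  · rintro h ⟨w, d⟩ hw
    exact h (w, !d) (mem_flip.2 (by simpa using hw))
  · rintro h ⟨w, d⟩ hw
    exact h (w, !d) (mem_flip.1 hw)

theorem region_flip (X : Set (ℂ × Bool)) (c : Bool) : region (flipE '' X) c = region X (!c) := by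
  ext z
  unfold region
  simp only [mem_ofPred_eq, cell_flip, mem_flip]

theorem crosses_flip (X : Set (ℂ × Bool)) (c : Bool) (D A B : Set ℂ) :
    Crosses c (flipE '' X) D A B ↔ Crosses (!c) X D A B := by
  unfold Crosses
  rw [region_flip]

/-! ### Isometries -/

/-- an isometry of the plane acting on coloured points -/
noncomputable def isoE (T : ℂ ≃ᵢ ℂ) : (ℂ × Bool) ≃ᵐ (ℂ × Bool) :=
  T.toHomeomorph.toMeasurableEquiv.prodCongr (MeasurableEquiv.refl Bool)

theorem volume_isometry (T : ℂ ≃ᵢ ℂ) : MeasurePreserving T volume volume := by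
  have h1 : MeasurePreserving (T.toRealLinearIsometryEquiv) volume volume :=
    LinearIsometryEquiv.measurePreserving _
  have h2 := (measurePreserving_add_right (volume : Measure ℂ) (T 0)).comp h1
  convert h2 using 1
  funext z
  simp [IsometryEquiv.toRealLinearIsometryEquiv_apply]

theorem isoE_preserving (T : ℂ ≃ᵢ ℂ) (ε : ℝ) :
    MeasurePreserving (isoE T) (intensity ε) (intensity ε) := by
  have h2 := (volume_isometry T).prod
    (MeasurePreserving.id ((2⁻¹ : ℝ≥0∞) • (Measure.count : Measure Bool)))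
  exact h2.smul_measure _

theorem mem_iso {T : ℂ ≃ᵢ ℂ} {X : Set (ℂ × Bool)} {v : ℂ} {c : Bool} :
    (T v, c) ∈ isoE T '' X ↔ (v, c) ∈ X := by
  constructor
  · rintro ⟨⟨w, d⟩, hw, he⟩
    have h1 : T w = T v := congrArg Prod.fst he
    have h2 : d = c := congrArg Prod.snd he
    have h3 := T.injective h1
    subst h3; subst h2
    exact hw
  · intro h
    exact ⟨(v, c), h, rfl⟩

theorem mem_iso' {T : ℂ ≃ᵢ ℂ} {X : Set (ℂ × Bool)} {v : ℂ} {c : Bool} :
    (v, c) ∈ isoE T '' X ↔ (T.symm v, c) ∈ X := by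
  have h := mem_iso (T := T) (X := X) (v := T.symm v) (c := c)
  rwa [T.apply_symm_apply] at h

theorem cell_iso (T : ℂ ≃ᵢ ℂ) (X : Set (ℂ × Bool)) (v : ℂ) :
    cell (isoE T '' X) (T v) = T '' cell X v := by
  ext z
  constructor
  · intro h
    refine ⟨T.symm z, ?_, T.apply_symm_apply z⟩
    rintro ⟨w, d⟩ hw
    have := h (T w, d) (mem_iso.2 hw)
    rw [← T.apply_symm_apply z, T.dist_eq, T.dist_eq] at this
    exact this
  · rintro ⟨y, hy, rfl⟩ ⟨w, d⟩ hw
    have := hy (T.symm w, d) (mem_iso'.1 hw)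
    rw [T.dist_eq]
    refine this.trans_eq ?_
    show dist y (T.symm w) = dist (T y) w
    rw [← T.dist_eq, T.apply_symm_apply]

theorem region_iso (T : ℂ ≃ᵢ ℂ) (X : Set (ℂ × Bool)) (c : Bool) :
    region (isoE T '' X) c = T '' region X c := by
  ext z
  constructor
  · rintro ⟨v, hv, hz⟩
    rw [← T.apply_symm_apply v, cell_iso] at hz
    obtain ⟨y, hy, rfl⟩ := hz
    exact ⟨y, ⟨_, mem_iso'.1 hv, hy⟩, rfl⟩
  · rintro ⟨y, ⟨v, hv, hy⟩, rfl⟩
    exact ⟨T v, mem_iso.2 hv, by rw [cell_iso]; exact ⟨y, hy, rfl⟩⟩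

theorem crosses_iso (T : ℂ ≃ᵢ ℂ) (X : Set (ℂ × Bool)) (c : Bool) (D A B : Set ℂ) :
    Crosses c (isoE T '' X) (T '' D) (T '' A) (T '' B) ↔ Crosses c X D A B := by
  constructor
  · rintro ⟨C, h1, h2, ⟨_, ha, ⟨a, ha', rfl⟩⟩, ⟨_, hb, ⟨b, hb', rfl⟩⟩⟩
    refine ⟨T.symm '' C, ?_, h2.image _ T.symm.continuous.continuousOn,
      ⟨a, ⟨_, ha, by simp⟩, ha'⟩, ⟨b, ⟨_, hb, by simp⟩, hb'⟩⟩
    rintro _ ⟨x, hx, rfl⟩
    have := h1 hx
    rw [region_iso, ← image_inter T.injective] at this
    obtain ⟨y, hy, rfl⟩ := this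
    simpa using hy
  · rintro ⟨C, h1, h2, ⟨a, ha, ha'⟩, ⟨b, hb, hb'⟩⟩
    refine ⟨T '' C, ?_, h2.image _ T.continuous.continuousOn,
      ⟨T a, ⟨_, ha, rfl⟩, ⟨a, ha', rfl⟩⟩, ⟨T b, ⟨_, hb, rfl⟩, ⟨b, hb', rfl⟩⟩⟩
    rw [region_iso, ← image_inter T.injective]
    exact image_mono h1

theorem QD.image {D A B : Set ℂ} (h : QD D A B) (e : ℂ ≃ₜ ℂ) : QD (e '' D) (e '' A) (e '' B) where
  hD := h.hD.image e.continuous
  hA := e.isClosed_image.2 h.hA
  hB := e.isClosed_image.2 h.hB
  hAD := image_mono h.hAD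
  hBD := image_mono h.hBD
  hAB := (Set.disjoint_image_iff e.injective).2 h.hAB

section
variable {Ω : Type*} [MeasurableSpace Ω] {P : Measure Ω} [IsProbabilityMeasure P]
  {ε : ℝ} {X : Ω → Set (ℂ × Bool)}

/-- colour symmetry -/
theorem prob_crosses_flip (hε : 0 < ε) (hX : IsPoissonProcess P (intensity ε) X) (c : Bool)
    {D A B : Set ℂ} (hq : QD D A B) :
    P {ω | Crosses (!c) (X ω) D A B} = P {ω | Crosses c (X ω) D A B} := by
  have h := prob_crosses_unique hε hX (hX.image flipE (flipE_preserving ε)) c hq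
  rw [h]
  simp only [crosses_flip]

theorem prob_crosses_color (hε : 0 < ε) (hX : IsPoissonProcess P (intensity ε) X) (c d : Bool)
    {D A B : Set ℂ} (hq : QD D A B) :
    P {ω | Crosses c (X ω) D A B} = P {ω | Crosses d (X ω) D A B} := by
  by_cases h : c = d
  · rw [h]
  · have h2 : c = !d := by cases c <;> cases d <;> simp_all
    rw [h2, prob_crosses_flip hε hX d hq]

/-- invariance under isometries -/
theorem prob_crosses_iso (hε : 0 < ε) (hX : IsPoissonProcess P (intensity ε) X) (c : Bool)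
    {D A B : Set ℂ} (hq : QD D A B) (T : ℂ ≃ᵢ ℂ) :
    P {ω | Crosses c (X ω) (T '' D) (T '' A) (T '' B)} = P {ω | Crosses c (X ω) D A B} := by
  have h := prob_crosses_unique hε hX (hX.image (isoE T) (isoE_preserving T ε)) c
    (hq.image T.toHomeomorph)
  refine h.trans ?_
  congr 1
  ext ω
  exact crosses_iso T (X ω) c D A B

end

end P148.H70
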