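import Vale.Agent.P148.H70.Inv

/-!
# P148: the inequality for `2n` arcs; explicit lower bounds for symmetric domains
-/

open Set MeasureTheory ProbabilityTheory Filter Topology Metric
open scoped ENNReal

namespace P148.H70

/-- the boundary arc `i` -/
noncomputable def barc (Φ : ℂ ≃ₜ ℂ) (θ : ℤ → ℝ) (i : ℤ) : Set ℂ := Φ '' uarc θ i

theorem isClosed_barc (Φ : ℂ ≃ₜ ℂ) (θ : ℤ → ℝ) (i : ℤ) : IsClosed (barc Φ θ i) :=
  ((isCompact_uarc θ i).image Φ.continuous).isClosed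

theorem qd_barc (Φ : ℂ ≃ₜ ℂ) {n : ℕ} {θ : ℤ → ℝ} (hθ : Marks n θ) {i j : ℤ} (hij : i + 1 < j)
    (hji : j + 1 < i + 2 * n) : QD (Φ '' closedBall 0 1) (barc Φ θ i) (barc Φ θ j) where
  hD := (isCompact_closedBall _ _).image Φ.continuous
  hA := isClosed_barc Φ θ i
  hB := isClosed_barc Φ θ j
  hAD := image_mono (uarc_subset θ i)
  hBD := image_mono (uarc_subset θ j)
  hAB := (Set.disjoint_image_iff Φ.injective).2 (uarc_disjoint hθ hij hji)

/-- transport of connections by `Φ` -/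
theorem conn_transport (Φ : ℂ ≃ₜ ℂ) {R A B : Set ℂ} :
    Conn (Φ ⁻¹' R ∩ closedBall 0 1) A B ↔ Conn (R ∩ Φ '' closedBall 0 1) (Φ '' A) (Φ '' B) := by
  constructor
  · rintro ⟨W, w1, w2, w3, ⟨a, ha, ha'⟩, ⟨b, hb, hb'⟩⟩
    refine ⟨Φ '' W, ?_, w2.image Φ.continuous, w3.image _ Φ.continuous.continuousOn,
      ⟨Φ a, ⟨a, ha, rfl⟩, ⟨a, ha', rfl⟩⟩, ⟨Φ b, ⟨b, hb, rfl⟩, ⟨b, hb', rfl⟩⟩⟩
    rintro _ ⟨x, hx, rfl⟩
    exact ⟨(w1 hx).1, ⟨x, (w1 hx).2, rfl⟩⟩
  · rintro ⟨W, w1, w2, w3, ⟨_, ha, ⟨a, ha', rfl⟩⟩, ⟨_, hb, ⟨b, hb', rfl⟩⟩⟩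
    refine ⟨Φ.symm '' W, ?_, w2.image Φ.symm.continuous, w3.image _ Φ.symm.continuous.continuousOn,
      ⟨a, ⟨Φ a, ha, by simp⟩, ha'⟩, ⟨b, ⟨Φ b, hb, by simp⟩, hb'⟩⟩
    rintro _ ⟨x, hx, rfl⟩
    obtain ⟨h1, ⟨y, hy, rfl⟩⟩ := w1 hx
    exact ⟨by simpa using h1, by simpa using hy⟩

/-- the colour of the arc `i`: black for even `i` -/
def acol (i : ℤ) : Bool := decide (Even i)

section
variable {Ω : Type*} [MeasurableSpace Ω] {P : Measure Ω} [IsProbabilityMeasure P]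
  {ε : ℝ} {X : Ω → Set (ℂ × Bool)}

/-- **at least two adjacent crossings** in every good configuration -/
theorem Good.two_crosses {X : Set (ℂ × Bool)} (h : Good X) (Φ : ℂ ≃ₜ ℂ) {n : ℕ} (hn : 2 ≤ n)
    {θ : ℤ → ℝ} (hθ : Marks n θ) :
    ∃ j₁ < 2 * n, ∃ j₂ < 2 * n, j₁ ≠ j₂ ∧
      Crosses (acol (j₁ : ℕ)) X (Φ '' closedBall 0 1) (barc Φ θ (j₁ : ℕ)) (barc Φ θ ((j₁ : ℕ) + 2)) ∧
      Crosses (acol (j₂ : ℕ)) X (Φ '' closedBall 0 1) (barc Φ θ (j₂ : ℕ)) (barc Φ θ ((j₂ : ℕ) + 2)) := by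
  have hc : ∀ c, IsClosed (Φ ⁻¹' region X c) := fun c => (h.isClosed_region c).preimage Φ.continuous
  have hD : IsCompact (Φ '' closedBall (0 : ℂ) 1) := (isCompact_closedBall _ _).image Φ.continuous
  obtain ⟨j₁, h1, j₂, h2, hne, c1, c2⟩ := two_le_card
    (P := Φ ⁻¹' region X true ∩ closedBall 0 1) (Q := Φ ⁻¹' region X false ∩ closedBall 0 1)
    ((isCompact_closedBall _ _).inter_left (hc true))
    ((isCompact_closedBall _ _).inter_left (hc false))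
    inter_subset_right inter_subset_right (by
      intro z hz
      have : Φ z ∈ region X true ∪ region X false := by rw [h.region_cover]; trivial
      rcases this with h3 | h3
      · exact Or.inl ⟨h3, hz⟩
      · exact Or.inr ⟨h3, hz⟩) hn hθ
  have key : ∀ j : ℕ, Conn (col (Φ ⁻¹' region X true ∩ closedBall 0 1)
      (Φ ⁻¹' region X false ∩ closedBall 0 1) (j : ℕ)) (uarc θ (j : ℕ)) (uarc θ ((j : ℕ) + 2)) →
      Crosses (acol (j : ℕ)) X (Φ '' closedBall 0 1) (barc Φ θ (j : ℕ)) (barc Φ θ ((j : ℕ) + 2)) := by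
    intro j hj
    rw [crosses_iff_conn h _ hD]
    unfold col at hj
    unfold acol
    by_cases he : Even (j : ℤ)
    · rw [if_pos he] at hj
      rw [decide_eq_true he]
      exact (conn_transport Φ).1 hj
    · rw [if_neg he] at hj
      rw [decide_eq_false he]
      exact (conn_transport Φ).1 hj
  exact ⟨j₁, h1, j₂, h2, hne, key j₁ c1, key j₂ c2⟩

/-- **The inequality for `2n` marked points.** -/
theorem sum_ge_two (hε : 0 < ε) (hX : IsPoissonProcess P (intensity ε) X) (Φ : ℂ ≃ₜ ℂ) {n : ℕ}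
    (hn : 2 ≤ n) {θ : ℤ → ℝ} (hθ : Marks n θ) :
    2 ≤ ∑ i ∈ Finset.range (2 * n),
      crossProb P X Φ (θ i) (θ (i + 1)) (θ (i + 2)) (θ (i + 3)) := by
  classical
  have hq : ∀ i : ℤ, QD (Φ '' closedBall 0 1) (barc Φ θ i) (barc Φ θ (i + 2)) := fun i =>
    qd_barc Φ hθ (by omega) (by omega)
  choose W hW hW' using fun i : ℤ => exists_incr (acol i) (hq i)
  have e1 : ∀ i : ℤ, crossProb P X Φ (θ i) (θ (i + 1)) (θ (i + 2)) (θ (i + 3)) =
      P {ω | X ω ∈ W i} := by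
    intro i
    rw [← prob_crosses_eq hε hX (hW' i), prob_crosses_color hε hX (acol i) true (hq i)]
    unfold crossProb barc uarc
    rw [show i + 2 + 1 = i + 3 by ring]
  simp only [e1]
  have hm : ∀ i : ℤ, MeasurableSet {ω | X ω ∈ W i} := fun i =>
    hX.measurable_conf ((hW i).measurableSet (intensity_bx_ne_top ε))
  have e2 : ∑ i ∈ Finset.range (2 * n), P {ω | X ω ∈ W (i : ℕ)} =
      ∫⁻ ω, ∑ i ∈ Finset.range (2 * n), ({ω | X ω ∈ W (i : ℕ)} : Set Ω).indicator 1 ω ∂P := by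
    rw [lintegral_finsetSum _ fun i _ => (measurable_one.indicator (hm _))]
    refine Finset.sum_congr rfl fun i _ => ?_
    rw [lintegral_indicator_one (hm _)]
  rw [e2]
  have e3 : (2 : ℝ≥0∞) = ∫⁻ _, 2 ∂P := by simp
  rw [e3]
  refine lintegral_mono_ae ?_
  filter_upwards [ae_good hε hX] with ω hω
  obtain ⟨j₁, h1, j₂, h2, hne, c1, c2⟩ := hω.two_crosses Φ hn hθ
  rw [hW' _ _ hω] at c1 c2
  have h3 : ({j₁, j₂} : Finset ℕ) ⊆ Finset.range (2 * n) := by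
    intro j hj
    rw [Finset.mem_insert, Finset.mem_singleton] at hj
    rcases hj with rfl | rfl <;> simpa using by assumption
  refine le_trans ?_ (Finset.sum_le_sum_of_subset h3)
  rw [Finset.sum_pair hne, indicator_of_mem (show ω ∈ {ω | X ω ∈ W (j₁ : ℕ)} from c1),
    indicator_of_mem (show ω ∈ {ω | X ω ∈ W (j₂ : ℕ)} from c2)]
  simp only [Pi.one_apply]
  norm_num

/-- **Lower bound for domains with a symmetry** which permutes the `2n` arcs cyclically. -/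
theorem symm_ge (hε : 0 < ε) (hX : IsPoissonProcess P (intensity ε) X) (Φ : ℂ ≃ₜ ℂ) {n : ℕ}
    (hn : 2 ≤ n) {θ : ℤ → ℝ} (hθ : Marks n θ) (T : ℂ ≃ᵢ ℂ)
    (hTD : T '' (Φ '' closedBall 0 1) = Φ '' closedBall 0 1)
    (hT : ∀ i, T '' barc Φ θ i = barc Φ θ (i + 1)) (i : ℤ) :
    (n : ℝ≥0∞)⁻¹ ≤ P {ω | Crosses true (X ω) (Φ '' closedBall 0 1) (barc Φ θ i) (barc Φ θ (i + 2))} := by
  have hq : ∀ i : ℤ, QD (Φ '' closedBall 0 1) (barc Φ θ i) (barc Φ θ (i + 2)) := fun i =>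
    qd_barc Φ hθ (by omega) (by omega)
  set p : ℤ → ℝ≥0∞ := fun i =>
    P {ω | Crosses true (X ω) (Φ '' closedBall 0 1) (barc Φ θ i) (barc Φ θ (i + 2))} with hp
  have hstep : ∀ i, p (i + 1) = p i := by
    intro i
    have := prob_crosses_iso hε hX true (hq i) T
    rw [hTD, hT, hT] at this
    rw [hp]
    simp only
    rw [← this, show i + 1 + 2 = i + 2 + 1 by ring]
  have hnat : ∀ (i : ℤ) (k : ℕ), p (i + k) = p i := by
    intro i k
    induction k with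
    | zero => simp
    | succ k ih => rw [show i + ((k + 1 : ℕ) : ℤ) = i + k + 1 by push_cast; ring, hstep, ih]
  have hall : ∀ i j : ℤ, p i = p j := by
    intro i j
    rcases le_total i j with h | h
    · have := hnat i (j - i).toNat
      rw [← this]; congr 1; omega
    · have := hnat j (i - j).toNat
      rw [← this]; congr 1; omega
  have hs := sum_ge_two hε hX Φ hn hθ
  have e1 : ∀ j : ℤ, crossProb P X Φ (θ j) (θ (j + 1)) (θ (j + 2)) (θ (j + 3)) = p i := by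
    intro j
    rw [hall i j]
    unfold crossProb
    rw [hp]
    unfold barc uarc
    simp only
    rw [show j + 2 + 1 = j + 3 by ring]
  simp only [e1, Finset.sum_const, Finset.card_range, nsmul_eq_mul] at hs
  have hn0 : (n : ℝ≥0∞) ≠ 0 := by simp; omega
  have hnt : (n : ℝ≥0∞) ≠ ∞ := ENNReal.natCast_ne_top n
  push_cast at hs
  rw [mul_assoc] at hs
  have h2 : (1 : ℝ≥0∞) ≤ n * p i := by
    have h3 : (2 : ℝ≥0∞) * 1 ≤ 2 * (n * p i) := by simpa using hs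
    exact (ENNReal.mul_le_mul_iff_right (by norm_num) (by norm_num)).1 h3
  rw [ENNReal.inv_le_iff_le_mul (by simp) (by simp)]
  exact h2

/-! ### Chains of crossings -/

/-- two interlaced crossings meet -/
theorem interlaced {n : ℕ} (hn : 2 ≤ n) {θ : ℤ → ℝ} (hθ : Marks n θ) {i : ℤ} {A B : Set ℂ}
    (hA : IsCompact A) (hA' : IsPreconnected A) (hAb : A ⊆ closedBall 0 1)
    (hB : IsCompact B) (hB' : IsPreconnected B) (hBb : B ⊆ closedBall 0 1)
    (a1 : (A ∩ uarc θ i).Nonempty) (a2 : (A ∩ uarc θ (i + 2)).Nonempty)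
    (b1 : (B ∩ uarc θ (i + 1)).Nonempty) (b2 : (B ∩ uarc θ (i + 1 + 2)).Nonempty) :
    (A ∩ B).Nonempty := by
  obtain ⟨_, ha, ⟨α, hα, rfl⟩⟩ := a1
  obtain ⟨_, hb, ⟨β, hβ, rfl⟩⟩ := a2
  obtain ⟨_, hu, ⟨u, hu', rfl⟩⟩ := b1
  obtain ⟨_, hv, ⟨v, hv', rfl⟩⟩ := b2
  rw [show i + 2 + 1 = i + 3 by ring] at hβ
  rw [show i + 1 + 1 = i + 2 by ring] at hu'
  rw [show i + 1 + 2 = i + 3 by ring, show i + 3 + 1 = i + 4 by ring] at hv'
  have m4 : θ (i + 4) ≤ θ i + 2 * Real.pi := by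
    rw [← hθ.per]; exact hθ.mono.monotone (by omega)
  rcases (hα.2.trans hu'.1).eq_or_lt with h1 | h1
  · exact ⟨cis α, ha, h1 ▸ hu⟩
  rcases (hu'.2.trans hβ.1).eq_or_lt with h2 | h2
  · exact ⟨cis β, hb, h2 ▸ hu⟩
  rcases (hβ.2.trans hv'.1).eq_or_lt with h3 | h3
  · exact ⟨cis β, hb, h3 ▸ hv⟩
  rcases (hv'.2.trans (m4.trans (add_le_add_left hα.1 _))).eq_or_lt with h4 | h4
  · refine ⟨cis α, ha, ?_⟩
    rw [h4, cis_add_two_pi] at hv
    exact hv
  · exact cross_disc (α := α) (β := β) (h1.trans h2) (h3.trans h4) hA hA' hAb hB hB' hBb ha hb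
      ⟨h1, h2⟩ hu ⟨h3, h4⟩ hv

/-- a chain of adjacent connections gives a connection -/
theorem conn_chain {n : ℕ} (hn : 2 ≤ n) {θ : ℤ → ℝ} (hθ : Marks n θ) {R : Set ℂ}
    (hR : R ⊆ closedBall 0 1) (i : ℤ) (k : ℕ)
    (h : ∀ j : ℕ, j ≤ k → Conn R (uarc θ (i + j)) (uarc θ (i + j + 2))) :
    Conn R (uarc θ i) (uarc θ (i + k + 2)) := by
  have key : ∀ k : ℕ, (∀ j : ℕ, j ≤ k → Conn R (uarc θ (i + j)) (uarc θ (i + j + 2))) →
      ∃ Z C : Set ℂ, C ⊆ Z ∧ Z ⊆ R ∧ IsCompact Z ∧ IsPreconnected Z ∧ (Z ∩ uarc θ i).Nonempty ∧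
        IsCompact C ∧ IsPreconnected C ∧ (C ∩ uarc θ (i + k)).Nonempty ∧
        (C ∩ uarc θ (i + k + 2)).Nonempty := by
    intro k
    induction k with
    | zero =>
      intro h
      obtain ⟨W, w1, w2, w3, w4, w5⟩ := h 0 le_rfl
      exact ⟨W, W, Subset.rfl, w1, w2, w3, by simpa using w4, w2, w3, w4, w5⟩
    | succ k ih =>
      intro h
      obtain ⟨Z, C, hCZ, z1, z2, z3, z4, c1, c2, c3, c4⟩ := ih fun j hj => h j (by omega)
      obtain ⟨W, w1, w2, w3, w4, w5⟩ := h (k + 1) le_rfl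
      have e1 : i + ((k + 1 : ℕ) : ℤ) = i + k + 1 := by push_cast; ring
      rw [e1] at w4 w5
      have hne : (C ∩ W).Nonempty := interlaced hn hθ c1 c2 ((hCZ.trans z1).trans hR) w2 w3
        (w1.trans hR) c3 c4 w4 w5
      refine ⟨Z ∪ W, W, subset_union_right, union_subset z1 w1, z2.union w2, ?_, ?_, w2, w3, ?_, ?_⟩
      · obtain ⟨x, hx, hx'⟩ := hne
        exact z3.union x (hCZ hx) hx' w3
      · exact z4.mono (inter_subset_inter_left _ subset_union_left)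
      · rw [e1]; exact w4
      · rw [e1]; exact w5
  obtain ⟨Z, C, hCZ, z1, z2, z3, z4, c1, c2, c3, c4⟩ := key k h
  exact ⟨Z, z1, z2, z3, z4, c4.mono (inter_subset_inter_left _ hCZ)⟩

/-- **Explicit lower bounds for all pairs of arcs.** -/
theorem chain_ge (hε : 0 < ε) (hX : IsPoissonProcess P (intensity ε) X) (Φ : ℂ ≃ₜ ℂ) {n : ℕ}
    (hn : 2 ≤ n) {θ : ℤ → ℝ} (hθ : Marks n θ) (T : ℂ ≃ᵢ ℂ)
    (hTD : T '' (Φ '' closedBall 0 1) = Φ '' closedBall 0 1)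
    (hT : ∀ i, T '' barc Φ θ i = barc Φ θ (i + 1)) (i : ℤ) (k : ℕ) :
    (n : ℝ≥0∞)⁻¹ ^ (k + 1) ≤
      P {ω | Crosses true (X ω) (Φ '' closedBall 0 1) (barc Φ θ i) (barc Φ θ (i + k + 2))} := by
  have hq : ∀ i : ℤ, QD (Φ '' closedBall 0 1) (barc Φ θ i) (barc Φ θ (i + 2)) := fun i =>
    qd_barc Φ hθ (by omega) (by omega)
  have hD : IsCompact (Φ '' closedBall (0 : ℂ) 1) := (isCompact_closedBall _ _).image Φ.continuous
  choose W hW hW' using fun i : ℤ => exists_incr true (hq i)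
  have hp : ∀ j : ℤ, (n : ℝ≥0∞)⁻¹ ≤ P {ω | X ω ∈ W j} := by
    intro j
    rw [← prob_crosses_eq hε hX (hW' j)]
    exact symm_ge hε hX Φ hn hθ T hTD hT j
  -- the intersection of the events
  have hI : ∀ k : ℕ, ∃ V, Incr true V ∧ (n : ℝ≥0∞)⁻¹ ^ (k + 1) ≤ P {ω | X ω ∈ V} ∧
      ∀ Y ∈ V, ∀ j : ℕ, j ≤ k → Y ∈ W (i + j) := by
    intro k
    induction k with
    | zero =>
      refine ⟨W i, hW i, by simpa using hp i, ?_⟩
      intro Y hY j hj
      have : j = 0 := by omega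
      subst this
      simpa using hY
    | succ k ih =>
      obtain ⟨V, v1, v2, v3⟩ := ih
      refine ⟨V ∩ W (i + (k + 1 : ℕ)), v1.inter (hW _), ?_, ?_⟩
      · rw [pow_succ]
        exact (mul_le_mul' v2 (hp _)).trans (v1.fkg hX (intensity_bx_ne_top ε) (hW _))
      · rintro Y ⟨h1, h2⟩ j hj
        rcases Nat.lt_or_ge j (k + 1) with h3 | h3
        · exact v3 Y h1 j (by omega)
        · have : j = k + 1 := by omega
          subst this
          exact h2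
  obtain ⟨V, v1, v2, v3⟩ := hI k
  refine v2.trans (measure_mono_ae ?_)
  filter_upwards [ae_good hε hX] with ω hω hV
  show Crosses true (X ω) (Φ '' closedBall 0 1) (barc Φ θ i) (barc Φ θ (i + k + 2))
  rw [crosses_iff_conn hω true hD]
  refine (conn_transport Φ).1 (conn_chain hn hθ inter_subset_right i k fun j hj => ?_)
  have h1 := (hW' (i + j) _ hω).2 (v3 _ hV j hj)
  rw [crosses_iff_conn hω true hD] at h1
  exact (conn_transport Φ).2 h1

end

end P148.H70
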