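import Vale.Agent.P148.H70.DiscLow

/-!
# P148: tuples of points of a Poisson process avoid null sets
-/

open Set MeasureTheory ProbabilityTheory Filter Topology Metric
open scoped ENNReal

namespace P148.H70

section
variable {Ω : Type*} [MeasurableSpace Ω] {P : Measure Ω} [IsProbabilityMeasure P]
  {E : Type*} [MeasurableSpace E] {ν : Measure E} {X : Ω → Set E}

theorem IsPoissonProcess.occ_le (hX : IsPoissonProcess P ν X) {U : Set E}
    (hU : MeasurableSet U) (hν : ν U ≠ ∞) : P {ω | Occ (X ω) U} ≤ ν U := by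
  have h1 := hX.void hU hν
  have h2 : P {ω | Occ (X ω) U} = 1 - ENNReal.ofReal (Real.exp (-(ν U).toReal)) := by
    have h3 : {ω | Occ (X ω) U} = {ω | ¬ Occ (X ω) U}ᶜ := by ext ω; simp
    have h4 : MeasurableSet {ω | ¬ Occ (X ω) U} := (hX.measurableSet_occ hU).compl
    rw [← h1, h3, prob_compl_eq_one_sub h4]
  rw [h2, ← ENNReal.ofReal_one, ← ENNReal.ofReal_sub _ (Real.exp_nonneg _)]
  refine ENNReal.ofReal_le_of_le_toReal ?_
  have := Real.add_one_le_exp (-(ν U).toReal)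
  linarith

/-- all the disjoint sets are hit -/
theorem IsPoissonProcess.hit_le (hX : IsPoissonProcess P ν X) {k : ℕ} {U : Fin k → Set E}
    (hU : ∀ i, MeasurableSet (U i)) (hd : Pairwise (Function.onFun Disjoint U))
    (hν : ∀ i, ν (U i) ≠ ∞) : P {ω | ∀ i, Occ (X ω) (U i)} ≤ ∏ i, ν (U i) := by
  have h1 := hX.indep k U hU hd
  have h2 := h1.measure_inter_preimage_eq_mul Finset.univ (sets := fun _ => {0}ᶜ)
    (fun i _ => (measurableSet_singleton _).compl)
  have h3 : {ω | ∀ i, Occ (X ω) (U i)} =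
      ⋂ i ∈ Finset.univ, (fun ω => (X ω ∩ U i).encard) ⁻¹' {0}ᶜ := by
    ext ω
    simp only [Finset.mem_univ, iInter_true, mem_iInter, ← setOf_occ]
    rfl
  rw [h3, h2]
  refine Finset.prod_le_prod' fun i _ => ?_
  rw [← setOf_occ]
  exact hX.occ_le (hU i) (hν i)

theorem IsPoissonProcess.hit_le' (hX : IsPoissonProcess P ν X) {k : ℕ} {U : Fin k → Set E}
    (hU : ∀ i, MeasurableSet (U i)) (hd : Pairwise (Function.onFun Disjoint U))
    (hν : ∀ i, ν (U i) ≠ ∞) (A : Fin k → Set E) :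
    P {ω | ∀ i, Occ (X ω) (U i ∩ A i)} ≤ ∏ i, ν (A i) := by
  have h1 := hX.hit_le (U := fun i => U i ∩ toMeasurable ν (A i))
    (fun i => (hU i).inter (measurableSet_toMeasurable _ _))
    (fun i j hij => (hd hij).mono inter_subset_left inter_subset_left)
    (fun i => ((measure_mono inter_subset_left).trans_lt (lt_top_iff_ne_top.2 (hν i))).ne)
  refine (measure_mono ?_).trans (h1.trans (Finset.prod_le_prod' fun i _ => ?_))
  · intro ω hω i
    exact (hω i).mono (inter_subset_inter_right _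
      (inter_subset_inter_right _ (subset_toMeasurable _ _)))
  · exact (measure_mono inter_subset_right).trans_eq (measure_toMeasurable _)

/-- tuples of points in disjoint sets avoid a null set -/
theorem IsPoissonProcess.tuple_null_aux [SigmaFinite ν] (hX : IsPoissonProcess P ν X) {k : ℕ}
    {U : Fin k → Set E} (hU : ∀ i, MeasurableSet (U i))
    (hd : Pairwise (Function.onFun Disjoint U)) (hν : ∀ i, ν (U i) ≠ ∞) {N : Set (Fin k → E)}
    (hN : Measure.pi (fun _ : Fin k => ν) N = 0) :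
    P {ω | ∃ x : Fin k → E, (∀ i, x i ∈ X ω ∩ U i) ∧ x ∈ N} = 0 := by
  set T := toMeasurable (Measure.pi (fun _ : Fin k => ν)) N with hT
  have hTm : MeasurableSet T := measurableSet_toMeasurable _ _
  have hT0 : Measure.pi (fun _ : Fin k => ν) T = 0 := by rw [hT, measure_toMeasurable, hN]
  have hNT : N ⊆ T := subset_toMeasurable _ _
  rw [Measure.pi, toMeasure_apply _ _ hTm, OuterMeasure.pi, OuterMeasure.boundedBy_apply] at hT0
  refine le_antisymm (le_of_forall_gt fun η hη => ?_) zero_le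
  rw [← hT0, iInf_lt_iff] at hη
  obtain ⟨t, ht⟩ := hη
  rw [iInf_lt_iff] at ht
  obtain ⟨ht1, ht2⟩ := ht
  refine lt_of_le_of_lt ?_ ht2
  set S : ℕ → Set Ω := fun n => {ω | (t n).Nonempty ∧ ∀ i, Occ (X ω) (U i ∩ Function.eval i '' t n)}
    with hS
  refine (measure_mono (t := ⋃ n, S n) ?_).trans ((measure_iUnion_le _).trans
    (ENNReal.tsum_le_tsum fun n => ?_))
  · rintro ω ⟨x, hx, hxN⟩
    obtain ⟨n, hn⟩ := mem_iUnion.1 (ht1 (hNT hxN))
    exact mem_iUnion.2 ⟨n, ⟨x, hn⟩, fun i => ⟨x i, (hx i).1, (hx i).2, x, hn, rfl⟩⟩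
  · by_cases hne : (t n).Nonempty
    · rw [ciSup_pos hne]
      refine (measure_mono ?_).trans (hX.hit_le' hU hd hν fun i => Function.eval i '' t n)
      rintro ω ⟨_, hω⟩
      exact hω
    · have : S n = ∅ := by
        rw [hS]
        ext ω
        simp [hne]
      rw [this]
      simp

/-- injective tuples of points avoid a null set -/
theorem IsPoissonProcess.tuple_null [SigmaFinite ν] [TopologicalSpace E] [T2Space E]
    (hX : IsPoissonProcess P ν X) {𝒰 : Set (Set E)} (hc : 𝒰.Countable)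
    (hm : ∀ U ∈ 𝒰, MeasurableSet U ∧ ν U ≠ ∞)
    (hloc : ∀ (x : E) (V : Set E), IsOpen V → x ∈ V → ∃ U ∈ 𝒰, x ∈ U ∧ U ⊆ V) {k : ℕ}
    {N : Set (Fin k → E)} (hN : Measure.pi (fun _ : Fin k => ν) N = 0) :
    ∀ᵐ ω ∂P, ∀ x : Fin k → E, Function.Injective x → (∀ i, x i ∈ X ω) → x ∉ N := by
  have hcc : Countable 𝒰 := hc.to_subtype
  have h1 : ∀ᵐ ω ∂P, ∀ U : Fin k → 𝒰, Pairwise (Function.onFun Disjoint fun i => (U i : Set E)) →
      ¬ ∃ x : Fin k → E, (∀ i, x i ∈ X ω ∩ U i) ∧ x ∈ N := by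
    rw [ae_all_iff]
    intro U
    by_cases hd : Pairwise (Function.onFun Disjoint fun i => (U i : Set E))
    · have h2 := hX.tuple_null_aux (U := fun i => (U i : Set E)) (fun i => (hm _ (U i).2).1) hd
        (fun i => (hm _ (U i).2).2) hN
      have h3 : ∀ᵐ ω ∂P, ¬ ∃ x : Fin k → E, (∀ i, x i ∈ X ω ∩ U i) ∧ x ∈ N := by
        rw [ae_iff]
        simpa using h2
      filter_upwards [h3] with ω hω _
      exact hω
    · exact Eventually.of_forall fun ω h => absurd h hd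
  filter_upwards [h1] with ω hω x hx hxX hxN
  obtain ⟨V, hV1, hV2⟩ := (Set.finite_range x).t2_separation
  have h2 : ∀ i, ∃ U : 𝒰, x i ∈ (U : Set E) ∧ (U : Set E) ⊆ V (x i) := by
    intro i
    obtain ⟨U, hU, a, b⟩ := hloc (x i) (V (x i)) (hV1 _).2 (hV1 _).1
    exact ⟨⟨U, hU⟩, a, b⟩
  choose U hU1 hU2 using h2
  refine hω U ?_ ⟨x, fun i => ⟨hxX i, hU1 i⟩, hxN⟩
  intro i j hij
  exact (hV2 (mem_range_self i) (mem_range_self j) (fun h => hij (hx h))).mono (hU2 i) (hU2 j)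

end

/-! ### The intensity measure -/

theorem exists_countable_bx : ∃ 𝒰 : Set (Set (ℂ × Bool)), 𝒰.Countable ∧
    (∀ ε, ∀ U ∈ 𝒰, MeasurableSet U ∧ intensity ε U ≠ ∞) ∧
    ∀ (x : ℂ × Bool) (V : Set (ℂ × Bool)), IsOpen V → x ∈ V → ∃ U ∈ 𝒰, x ∈ U ∧ U ⊆ V := by
  obtain ⟨s, hs, hsd⟩ := TopologicalSpace.exists_countable_dense ℂ
  have hc : Countable s := hs.to_subtype
  refine ⟨range fun p : s × ℚ × Bool => bx p.1 p.2.1 p.2.2, countable_range _, ?_, ?_⟩
  · rintro ε _ ⟨p, rfl⟩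
    exact ⟨measurableSet_bx _ _ _, intensity_bx_ne_top _ _ _ _⟩
  · rintro ⟨v, c⟩ V hV hx
    obtain ⟨u, hu, w, hw, huw⟩ := mem_nhds_prod_iff.1 (hV.mem_nhds hx)
    obtain ⟨r, hr, hru⟩ := Metric.mem_nhds_iff.1 hu
    have hcw : c ∈ w := mem_of_mem_nhds hw
    obtain ⟨y, hy, hys⟩ := Metric.mem_closure_iff.1 (hsd v) (r / 2) (by positivity)
    obtain ⟨q, hq1, hq2⟩ := exists_rat_btwn hys
    refine ⟨_, ⟨(⟨y, hy⟩, q, c), rfl⟩, ⟨hq1, rfl⟩, ?_⟩
    rintro ⟨w', d⟩ ⟨hw', hd⟩
    have hd' : d = c := hd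
    subst hd'
    refine huw ⟨hru ?_, hcw⟩
    rw [mem_ball]
    have h1 : dist w' y < q := hw'
    calc dist w' v ≤ dist w' y + dist y v := dist_triangle _ _ _
      _ < q + r / 2 := by rw [dist_comm y v]; linarith
      _ < r := by linarith

instance sigmaFinite_intensity (ε : ℝ) : SigmaFinite (intensity ε) := by
  obtain ⟨𝒰, h1, h2, h3⟩ := exists_countable_bx
  refine Measure.sigmaFinite_of_countable h1 (fun U hU => lt_top_iff_ne_top.2 (h2 ε U hU).2) ?_
  rw [eq_univ_iff_forall]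
  intro x
  obtain ⟨U, hU, hx, -⟩ := h3 x univ isOpen_univ trivial
  exact ⟨U, hU, hx⟩

theorem intensity_sphere (ε : ℝ) (z : ℂ) (ρ : ℝ) :
    intensity ε {p : ℂ × Bool | dist z p.1 = ρ} = 0 := by
  have h1 : {p : ℂ × Bool | dist z p.1 = ρ} = sphere z ρ ×ˢ univ := by
    ext p
    simp only [mem_ofPred_eq, mem_prod, mem_sphere, mem_univ, and_true]
    rw [dist_comm]
  rw [h1, intensity, Measure.smul_apply, Measure.prod_prod, Measure.addHaar_sphere]
  simp

/-- a set with null slices is null -/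
theorem pi_null_of_slices {E : Type*} [MeasurableSpace E] {ν : Measure E} [SigmaFinite ν] {k : ℕ}
    {N : Set (Fin (k + 1) → E)} (hN : MeasurableSet N)
    (h : ∀ y : Fin k → E, ν {v | (Fin.cons v y : Fin (k + 1) → E) ∈ N} = 0) :
    Measure.pi (fun _ : Fin (k + 1) => ν) N = 0 := by
  have h1 := (measurePreserving_piFinSuccAbove (fun _ : Fin (k + 1) => ν) 0).symm
  rw [← h1.measure_preimage hN.nullMeasurableSet, Measure.prod_apply_symm
    ((MeasurableEquiv.measurable _) hN)]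
  rw [lintegral_eq_zero_iff' (Measurable.aemeasurable ?_)]
  · refine Eventually.of_forall fun y => ?_
    have e : (fun x => (x, y)) ⁻¹' ((MeasurableEquiv.piFinSuccAbove
        (fun _ : Fin (k + 1) => E) 0).symm ⁻¹' N) =
        {v | (Fin.cons v y : Fin (k + 1) → E) ∈ N} := by
      ext v
      have : (MeasurableEquiv.piFinSuccAbove (fun _ : Fin (k + 1) => E) 0).symm (v, y) =
        (Fin.cons v y : Fin (k + 1) → E) := by
        rw [← Fin.insertNth_zero']
        rfl
      rw [mem_preimage, mem_preimage, this]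
      rfl
    rw [Pi.zero_apply, ← h y, ← e]
  · exact measurable_measure_prodMk_right ((MeasurableEquiv.measurable _) hN)

end P148.H70
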