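import Vale.Agent.P148.H70.Region

/-!
# P148: occupancy events of a Poisson process: uniqueness of the law, FKG inequality
-/

open Set MeasureTheory ProbabilityTheory Filter Topology
open scoped ENNReal

namespace P148.H70

/-- `X` has a point in `U` -/
def Occ {E : Type*} (X U : Set E) : Prop := (X ∩ U).Nonempty

section
variable {Ω : Type*} [MeasurableSpace Ω] {P : Measure Ω} {E : Type*} [MeasurableSpace E]
  {ν : Measure E} {X : Ω → Set E}

theorem setOf_occ (U : Set E) :
    {ω | Occ (X ω) U} = (fun ω => (X ω ∩ U).encard) ⁻¹' {0}ᶜ := by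
  ext ω
  simp [Occ, Set.encard_eq_zero, Set.nonempty_iff_ne_empty]

theorem setOf_not_occ (U : Set E) :
    {ω | ¬ Occ (X ω) U} = (fun ω => (X ω ∩ U).encard) ⁻¹' {0} := by
  ext ω
  simp [Occ, Set.encard_eq_zero, Set.nonempty_iff_ne_empty]

theorem IsPoissonProcess.measurableSet_occ (hX : IsPoissonProcess P ν X) {U : Set E}
    (hU : MeasurableSet U) : MeasurableSet {ω | Occ (X ω) U} := by
  rw [setOf_occ]
  exact hX.measurable U hU (measurableSet_singleton _).compl

theorem IsPoissonProcess.void (hX : IsPoissonProcess P ν X) {U : Set E}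
    (hU : MeasurableSet U) (hν : ν U ≠ ∞) :
    P {ω | ¬ Occ (X ω) U} = ENNReal.ofReal (Real.exp (-(ν U).toReal)) := by
  have h := hX.law U hU hν 0
  simp only [pow_zero, Nat.factorial_zero, Nat.cast_one, div_one, mul_one, Nat.cast_zero] at h
  rw [← h]
  congr 1
  ext ω
  simp [Occ, Set.encard_eq_zero, Set.nonempty_iff_ne_empty]

theorem IsPoissonProcess.indep' (hX : IsPoissonProcess P ν X) {ι : Type*} [Fintype ι]
    (A : ι → Set E) (hA : ∀ i, MeasurableSet (A i)) (hd : Pairwise (Function.onFun Disjoint A)) :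
    iIndepFun (fun i ω => (X ω ∩ A i).encard) P := by
  have h := hX.indep (Fintype.card ι) (fun j => A ((Fintype.equivFin ι).symm j))
    (fun j => hA _) (fun i j hij => hd fun h => hij ((Fintype.equivFin ι).symm.injective h))
  have h2 := h.precomp (g := Fintype.equivFin ι) (Fintype.equivFin ι).injective
  simpa using h2

/-! ### Uniqueness of the law -/

/-- the sigma-algebra on configurations generated by the void events -/
def confSigma (ν : Measure E) : MeasurableSpace (Set E) :=
  MeasurableSpace.generateFrom {S | ∃ U, MeasurableSet U ∧ ν U ≠ ∞ ∧ S = {Y : Set E | ¬ Occ Y U}}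

theorem measurableSet_conf_not_occ {U : Set E} (hU : MeasurableSet U) (hν : ν U ≠ ∞) :
    MeasurableSet[confSigma ν] {Y : Set E | ¬ Occ Y U} :=
  MeasurableSpace.measurableSet_generateFrom ⟨U, hU, hν, rfl⟩

theorem measurableSet_conf_occ {U : Set E} (hU : MeasurableSet U) (hν : ν U ≠ ∞) :
    MeasurableSet[confSigma ν] {Y : Set E | Occ Y U} := by
  have h := (measurableSet_conf_not_occ hU hν).compl
  have : {Y : Set E | ¬ Occ Y U}ᶜ = {Y : Set E | Occ Y U} := by ext; simp
  rwa [this] at h

theorem IsPoissonProcess.measurable_conf (hX : IsPoissonProcess P ν X) :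
    @Measurable _ _ _ (confSigma ν) X := by
  let _ := confSigma ν
  refine measurable_generateFrom ?_
  rintro _ ⟨U, hU, -, rfl⟩
  have : X ⁻¹' {Y : Set E | ¬ Occ Y U} = {ω | Occ (X ω) U}ᶜ := by ext; simp
  rw [this]
  exact (hX.measurableSet_occ hU).compl

/-- **Uniqueness of the law** of a Poisson process. -/
theorem law_unique {Ω' : Type*} [MeasurableSpace Ω'] {P' : Measure Ω'} {X' : Ω' → Set E}
    [IsProbabilityMeasure P] [IsProbabilityMeasure P']
    (hX : IsPoissonProcess P ν X) (hX' : IsPoissonProcess P' ν X')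
    {𝓔 : Set (Set E)} (h𝓔 : MeasurableSet[confSigma ν] 𝓔) :
    P {ω | X ω ∈ 𝓔} = P' {ω | X' ω ∈ 𝓔} := by
  let _ := confSigma ν
  have h1 := hX.measurable_conf
  have h2 := hX'.measurable_conf
  have key : P.map X = P'.map X' := by
    have : IsProbabilityMeasure (P.map X) := Measure.isProbabilityMeasure_map h1.aemeasurable
    have : IsProbabilityMeasure (P'.map X') := Measure.isProbabilityMeasure_map h2.aemeasurable
    refine ext_of_generate_finite
      {S | ∃ U, MeasurableSet U ∧ ν U ≠ ∞ ∧ S = {Y : Set E | ¬ Occ Y U}} rfl ?_ ?_ (by simp)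
    · rintro _ ⟨U, hU, hνU, rfl⟩ _ ⟨V, hV, hνV, rfl⟩ -
      refine ⟨U ∪ V, hU.union hV, (measure_union_lt_top (lt_top_iff_ne_top.2 hνU)
        (lt_top_iff_ne_top.2 hνV)).ne, ?_⟩
      ext Y
      simp only [Occ, mem_inter_iff, mem_ofPred_eq, inter_union_distrib_left, union_nonempty,
        not_or]
    · rintro _ ⟨U, hU, hνU, rfl⟩
      rw [Measure.map_apply h1 (measurableSet_conf_not_occ hU hνU),
        Measure.map_apply h2 (measurableSet_conf_not_occ hU hνU)]
      exact (hX.void hU hνU).trans (hX'.void hU hνU).symm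
  have e1 : P {ω | X ω ∈ 𝓔} = P.map X 𝓔 := by rw [Measure.map_apply h1 h𝓔]; rfl
  have e2 : P' {ω | X' ω ∈ 𝓔} = P'.map X' 𝓔 := by rw [Measure.map_apply h2 h𝓔]; rfl
  rw [e1, e2, key]

/-- image of a Poisson process under a measure preserving map -/
theorem IsPoissonProcess.image (hX : IsPoissonProcess P ν X) (e : E ≃ᵐ E)
    (he : MeasurePreserving e ν ν) : IsPoissonProcess P ν fun ω => e '' X ω := by
  have key : ∀ (Y A : Set E), (e '' Y ∩ A).encard = (Y ∩ e ⁻¹' A).encard := by
    intro Y A
    have : e '' Y ∩ A = e '' (Y ∩ e ⁻¹' A) := by rw [image_inter_preimage]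
    rw [this, e.injective.encard_image]
  refine ⟨?_, ?_, ?_⟩
  · intro A hA
    simp only [key]
    exact hX.measurable _ (e.measurable hA)
  · intro k A hA hd
    simp only [key]
    exact hX.indep k _ (fun i => e.measurable (hA i)) fun i j hij => (hd hij).preimage _
  · intro A hA hν j
    simp only [key]
    rw [← he.measure_preimage hA.nullMeasurableSet] at hν ⊢
    exact hX.law _ (e.measurable hA) hν j

/-! ### The FKG inequality, finitely many sets -/

open Classical in
/-- the signed occupancy variables -/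
def sgn {ι : Type*} (c : ι → Bool) (U : ι → Set E) (Y : Set E) (i : ι) : Prop :=
  if c i = true then Occ Y (U i) else ¬ Occ Y (U i)

/-- the atoms -/
def atom {ι : Type*} (U : ι → Set E) (T : Finset ι) : Set E := {p | ∀ i, p ∈ U i ↔ i ∈ T}

open Classical in
/-- the signed occupancy of the atoms -/
def asgn {ι : Type*} (c : ι → Bool) (U : ι → Set E) (Y : Set E) (T : Finset ι) : Prop :=
  if ∃ i ∈ T, c i = true then Occ Y (atom U T) else ¬ Occ Y (atom U T)

open Classical in
/-- the increasing map from atoms to sets -/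
def glue {ι : Type*} (c : ι → Bool) (a : Finset ι → Prop) (i : ι) : Prop :=
  if c i = true then ∃ T, i ∈ T ∧ a T else ∀ T, i ∈ T → (∀ j ∈ T, c j = false) → a T

theorem glue_mono {ι : Type*} (c : ι → Bool) : Monotone (glue c) := by
  intro a b hab i
  unfold glue
  split_ifs
  · rintro ⟨T, hT, ha⟩; exact ⟨T, hT, hab T ha⟩
  · intro h T hT hT'; exact hab T (h T hT hT')

theorem sgn_eq_glue {ι : Type*} [Fintype ι] (c : ι → Bool) (U : ι → Set E)
    (hc : ∀ i j, c i ≠ c j → Disjoint (U i) (U j)) (Y : Set E) :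
    sgn c U Y = glue c (asgn c U Y) := by
  classical
  funext i
  unfold sgn glue
  by_cases hi : c i = true
  · rw [if_pos hi, if_pos hi]
    apply propext
    constructor
    · rintro ⟨p, hpY, hpU⟩
      refine ⟨Finset.univ.filter fun j => p ∈ U j, by simp [hpU], ?_⟩
      unfold asgn
      rw [if_pos ⟨i, by simp [hpU], hi⟩]
      exact ⟨p, hpY, fun j => by simp⟩
    · rintro ⟨T, hT, ha⟩
      unfold asgn at ha
      rw [if_pos ⟨i, hT, hi⟩] at ha
      obtain ⟨p, hpY, hp⟩ := ha
      exact ⟨p, hpY, (hp i).2 hT⟩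
  · rw [if_neg hi, if_neg hi]
    apply propext
    constructor
    · intro h T hT hT'
      unfold asgn
      rw [if_neg (by rintro ⟨j, hj, hj'⟩; rw [hT' j hj] at hj'; exact absurd hj' (by simp))]
      rintro ⟨p, hpY, hp⟩
      exact h ⟨p, hpY, (hp i).2 hT⟩
    · rintro h ⟨p, hpY, hpU⟩
      have h1 : ∀ j ∈ Finset.univ.filter (fun j => p ∈ U j), c j = false := by
        intro j hj
        rw [Finset.mem_filter] at hj
        by_contra hcj
        have : c i ≠ c j := by
          intro he; rw [he] at hi; exact hcj (by simpa using hi)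
        exact Set.disjoint_left.1 (hc i j this) hpU hj.2
      have h2 := h _ (by simp [hpU] : i ∈ Finset.univ.filter fun j => p ∈ U j) h1
      unfold asgn at h2
      rw [if_neg (by rintro ⟨j, hj, hj'⟩; rw [h1 j hj] at hj'; exact absurd hj' (by simp))] at h2
      exact h2 ⟨p, hpY, fun j => by simp⟩

/-- **Harris-FKG inequality** for finitely many occupancy variables. -/
theorem IsPoissonProcess.fkg_fin [IsProbabilityMeasure P] (hX : IsPoissonProcess P ν X)
    {ι : Type*} [Fintype ι] (c : ι → Bool) (U : ι → Set E) (hU : ∀ i, MeasurableSet (U i))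
    (hc : ∀ i j, c i ≠ c j → Disjoint (U i) (U j)) {𝓐 𝓑 : Set (ι → Prop)}
    (hA : IsUpperSet 𝓐) (hB : IsUpperSet 𝓑) :
    P {ω | sgn c U (X ω) ∈ 𝓐} * P {ω | sgn c U (X ω) ∈ 𝓑} ≤ P {ω | sgn c U (X ω) ∈ 𝓐 ∩ 𝓑} := by
  classical
  have hat : ∀ T, MeasurableSet (atom U T) := by
    intro T
    have : atom U T = ⋂ i, {p | p ∈ U i ↔ i ∈ T} := by ext; simp [atom]
    rw [this]
    refine MeasurableSet.iInter fun i => ?_
    by_cases hi : i ∈ T
    · simpa [hi] using hU i
    · have h1 : {p | p ∈ U i ↔ i ∈ T} = (U i)ᶜ := by ext; simp [hi]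
      rw [h1]; exact (hU i).compl
  have hdis : Pairwise (Function.onFun Disjoint (atom U)) := by
    intro T T' hT
    rw [Function.onFun, Set.disjoint_left]
    intro p hp hp'
    exact hT (Finset.ext fun i => (hp i).symm.trans (hp' i))
  have hind := hX.indep' (atom U) hat hdis
  -- the sets of values
  set V : Finset ι → Prop → Set ℕ∞ := fun T b =>
    {x | (if ∃ i ∈ T, c i = true then x ≠ 0 else x = 0) ↔ b} with hV
  have hmem : ∀ T b, {ω | asgn c U (X ω) T ↔ b} = (fun ω => (X ω ∩ atom U T).encard) ⁻¹' V T b := by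
    intro T b
    ext ω
    simp only [mem_ofPred_eq, mem_preimage, hV, asgn]
    by_cases h : ∃ i ∈ T, c i = true
    · rw [if_pos h, if_pos h]
      simp [Occ, Set.nonempty_iff_ne_empty]
    · rw [if_neg h, if_neg h]
      simp [Occ, Set.nonempty_iff_ne_empty]
  set p : Finset ι → Prop → ℝ := fun T b => (P {ω | asgn c U (X ω) T ↔ b}).toReal with hp
  set μ : (Finset ι → Prop) → ℝ := fun a => ∏ T, p T (a T) with hμ
  have hprod : ∀ a : Finset ι → Prop, (P {ω | asgn c U (X ω) = a}).toReal = μ a := by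
    intro a
    have h1 : {ω | asgn c U (X ω) = a} =
        ⋂ T ∈ (Finset.univ : Finset (Finset ι)), (fun ω => (X ω ∩ atom U T).encard) ⁻¹' V T (a T) := by
      ext ω
      simp only [Finset.mem_univ, iInter_true, mem_iInter, ← hmem, mem_ofPred_eq]
      constructor
      · intro h T; rw [h]
      · intro h; funext T; exact propext (h T)
    rw [h1, hind.measure_inter_preimage_eq_mul Finset.univ (fun T _ => MeasurableSet.of_discrete),
      ENNReal.toReal_prod]
    refine Finset.prod_congr rfl fun T _ => ?_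
    rw [hp, ← hmem]
  have hmeas : ∀ a : Finset ι → Prop, MeasurableSet {ω | asgn c U (X ω) = a} := by
    intro a
    have h1 : {ω | asgn c U (X ω) = a} =
        ⋂ T, (fun ω => (X ω ∩ atom U T).encard) ⁻¹' V T (a T) := by
      ext ω
      simp only [mem_iInter, ← hmem, mem_ofPred_eq]
      constructor
      · intro h T; rw [h]
      · intro h; funext T; exact propext (h T)
    rw [h1]
    exact MeasurableSet.iInter fun T => hX.measurable _ (hat T) MeasurableSet.of_discrete
  -- probabilities as sums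
  have hsum : ∀ 𝓒 : Set (ι → Prop), (P {ω | sgn c U (X ω) ∈ 𝓒}).toReal =
      ∑ a, μ a * (if glue c a ∈ 𝓒 then 1 else 0) := by
    intro 𝓒
    have h1 : {ω | sgn c U (X ω) ∈ 𝓒} =
        ⋃ a ∈ (Finset.univ.filter fun a : Finset ι → Prop => glue c a ∈ 𝓒),
          {ω | asgn c U (X ω) = a} := by
      ext ω
      simp only [mem_ofPred_eq, Finset.mem_filter, Finset.mem_univ, true_and, mem_iUnion,
        exists_prop, sgn_eq_glue c U hc]
      constructor
      · intro h; exact ⟨_, h, rfl⟩
      · rintro ⟨a, ha, rfl⟩; exact ha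
    rw [h1, measure_biUnion_finset (fun a _ b _ hab => by
      rw [Function.onFun, Set.disjoint_left]
      rintro ω (h2 : asgn c U (X ω) = a) (h3 : asgn c U (X ω) = b)
      exact hab (h2.symm.trans h3)) (fun a _ => hmeas a), ENNReal.toReal_sum (fun a _ => by
        exact measure_ne_top _ _), Finset.sum_filter]
    refine Finset.sum_congr rfl fun a _ => ?_
    split_ifs
    · rw [hprod, mul_one]
    · rw [mul_zero]
  have hμ0 : 0 ≤ μ := fun a => Finset.prod_nonneg fun T _ => ENNReal.toReal_nonneg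
  have hμ1 : ∑ a, μ a = 1 := by
    have := hsum univ
    simpa using this.symm
  have hF := fkg (μ := μ) (f := fun a => if glue c a ∈ 𝓐 then (1 : ℝ) else 0)
    (g := fun a => if glue c a ∈ 𝓑 then (1 : ℝ) else 0) hμ0
    (fun a => by positivity) (fun a => by positivity) (by
      intro a b hab
      show (if glue c a ∈ 𝓐 then (1 : ℝ) else 0) ≤ if glue c b ∈ 𝓐 then (1 : ℝ) else 0
      by_cases h : glue c a ∈ 𝓐
      · rw [if_pos h, if_pos (hA (glue_mono c hab) h)]
      · rw [if_neg h]; positivity) (by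
      intro a b hab
      show (if glue c a ∈ 𝓑 then (1 : ℝ) else 0) ≤ if glue c b ∈ 𝓑 then (1 : ℝ) else 0
      by_cases h : glue c a ∈ 𝓑
      · rw [if_pos h, if_pos (hB (glue_mono c hab) h)]
      · rw [if_neg h]; positivity) (by
      intro a b
      rw [hμ]
      simp only [← Finset.prod_mul_distrib]
      refine le_of_eq (Finset.prod_congr rfl fun T _ => ?_)
      show p T (a T) * p T (b T) = p T (a T ∧ b T) * p T (a T ∨ b T)
      by_cases h1 : a T <;> by_cases h2 : b T <;> simp [h1, h2, mul_comm])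
  rw [hμ1, one_mul] at hF
  have e3 : ∑ a, μ a * ((if glue c a ∈ 𝓐 then (1 : ℝ) else 0) * if glue c a ∈ 𝓑 then 1 else 0) =
      (P {ω | sgn c U (X ω) ∈ 𝓐 ∩ 𝓑}).toReal := by
    rw [hsum]
    refine Finset.sum_congr rfl fun a _ => ?_
    by_cases h1 : glue c a ∈ 𝓐 <;> by_cases h2 : glue c a ∈ 𝓑 <;> simp [h1, h2]
  rw [e3, ← hsum 𝓐, ← hsum 𝓑, ← ENNReal.toReal_mul] at hF
  exact (ENNReal.toReal_le_toReal (ENNReal.mul_ne_top (measure_ne_top _ _) (measure_ne_top _ _))
    (measure_ne_top _ _)).1 hF

end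

end P148.H70
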