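import Vale.Agent.P148.H70.Arcs

/-!
# P148: the coloured regions in terms of distances; crossings in terms of chains
-/

open Set Metric Topology Filter

namespace P148.H70

/-- the points of colour `c` -/
def pc (X : Set (ℂ × Bool)) (c : Bool) : Set ℂ := {v | (v, c) ∈ X}

/-- good configurations: locally finite, with points of both colours -/
structure Good (X : Set (ℂ × Bool)) : Prop where
  fin : ∀ (R : ℕ) (c : Bool), (pc X c ∩ closedBall 0 R).Finite
  ne : ∀ c, (pc X c).Nonempty

theorem Good.isClosed {X : Set (ℂ × Bool)} (h : Good X) (c : Bool) : IsClosed (pc X c) := by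
  rw [← isOpen_compl_iff, isOpen_iff_mem_nhds]
  intro z hz
  obtain ⟨R, hR⟩ := exists_nat_gt (‖z‖ + 1)
  have h1 : IsClosed (pc X c ∩ closedBall 0 R) := (h.fin R c).isClosed
  have h2 : z ∈ (pc X c ∩ closedBall 0 R)ᶜ := fun hz' => hz hz'.1
  filter_upwards [h1.isOpen_compl.mem_nhds h2, ball_mem_nhds z one_pos] with w hw hw'
  intro hwX
  refine hw ⟨hwX, ?_⟩
  rw [mem_closedBall_zero_iff]
  have h3 : ‖w‖ ≤ ‖z‖ + dist w z := by
    rw [dist_eq_norm]
    calc ‖w‖ = ‖z + (w - z)‖ := by congr 1; ring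
      _ ≤ _ := norm_add_le _ _
  rw [mem_ball] at hw'
  linarith

/-- the region of colour `c` in terms of distances -/
theorem Good.region_eq {X : Set (ℂ × Bool)} (h : Good X) (c : Bool) :
    region X c = {z | infDist z (pc X c) ≤ infDist z (pc X (!c))} := by
  ext z
  constructor
  · rintro ⟨v, hv, hz⟩
    refine (infDist_le_dist_of_mem (s := pc X c) hv).trans ?_
    refine (le_infDist (h.ne (!c))).2 fun {w} hw => hz (w, !c) hw
  · intro hz
    obtain ⟨v, hv, hvd⟩ := (h.isClosed c).exists_infDist_eq_dist (h.ne c) z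
    refine ⟨v, hv, ?_⟩
    rintro ⟨w, d⟩ hw
    rw [← hvd]
    by_cases hd : d = c
    · subst hd
      exact infDist_le_dist_of_mem hw
    · have hd' : d = !c := by cases c <;> cases d <;> simp_all
      subst hd'
      exact (show _ ≤ _ from hz).trans (infDist_le_dist_of_mem hw)

theorem Good.isClosed_region {X : Set (ℂ × Bool)} (h : Good X) (c : Bool) :
    IsClosed (region X c) := by
  rw [h.region_eq]
  exact isClosed_le (continuous_infDist_pt _) (continuous_infDist_pt _)

theorem Good.region_cover {X : Set (ℂ × Bool)} (h : Good X) :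
    region X true ∪ region X false = univ := by
  rw [eq_univ_iff_forall]
  intro z
  rw [h.region_eq, h.region_eq]
  rcases le_total (infDist z (pc X true)) (infDist z (pc X false)) with h1 | h1
  · exact Or.inl h1
  · exact Or.inr h1

/-- crossing by compact connected sets -/
theorem crosses_iff_conn {X : Set (ℂ × Bool)} (h : Good X) (c : Bool) {D A B : Set ℂ}
    (hD : IsCompact D) :
    Crosses c X D A B ↔ Conn (region X c ∩ D) A B := by
  constructor
  · rintro ⟨C, h1, h2, h3, h4⟩
    have hcl : IsClosed (region X c ∩ D) := (h.isClosed_region c).inter hD.isClosed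
    refine ⟨closure C, closure_minimal h1 hcl, ?_, h2.isPreconnected.closure,
      h3.mono (inter_subset_inter_left _ subset_closure),
      h4.mono (inter_subset_inter_left _ subset_closure)⟩
    exact hD.of_isClosed_subset isClosed_closure
      ((closure_minimal h1 hcl).trans inter_subset_right)
  · rintro ⟨W, w1, w2, w3, w4, w5⟩
    exact ⟨W, w1, ⟨w4.left, w3⟩, w4, w5⟩

/-! ### Chains -/

theorem rtg_mono {α : Type*} {r p : α → α → Prop} (h : ∀ x y, r x y → p x y) {a b : α}
    (hab : Relation.ReflTransGen r a b) : Relation.ReflTransGen p a b := by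
  induction hab with
  | refl => exact Relation.ReflTransGen.refl
  | tail _ hbc ih => exact ih.tail (h _ _ hbc)

theorem rtg_symm {α : Type*} {r : α → α → Prop} (h : ∀ x y, r x y → r y x) {a b : α}
    (hab : Relation.ReflTransGen r a b) : Relation.ReflTransGen r b a := by
  induction hab with
  | refl => exact Relation.ReflTransGen.refl
  | tail _ hbc ih => exact ih.head (h _ _ hbc)

/-- the finite set `F` contains a `δ`-chain from `A` to `B` -/
def Link (A B : Set ℂ) (δ : ℝ) (F : Finset ℂ) : Prop :=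
  ∃ a ∈ F, a ∈ A ∧ ∃ b ∈ F, b ∈ B ∧
    Relation.ReflTransGen (fun x y => x ∈ F ∧ y ∈ F ∧ dist x y < δ) a b

theorem Link.mono {A B : Set ℂ} {δ δ' : ℝ} (h : δ ≤ δ') {F : Finset ℂ} (hF : Link A B δ F) :
    Link A B δ' F := by
  obtain ⟨a, ha, ha', b, hb, hb', hab⟩ := hF
  exact ⟨a, ha, ha', b, hb, hb', rtg_mono (fun x y h1 => ⟨h1.1, h1.2.1, h1.2.2.trans_le h⟩) hab⟩

/-- chains in a connected set -/
theorem exists_chain {C : Set ℂ} (hC : IsPreconnected C) {S : Set ℂ} {δ : ℝ} (hδ : 0 < δ)
    (hS : ∀ x ∈ C, ∃ s ∈ S, dist s x < δ / 4) {a b : ℂ} (ha : a ∈ C) (hb : b ∈ C)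
    {a' b' : ℂ} (ha' : dist a' a < δ / 4) (hb' : dist b' b < δ / 4) :
    ∃ F : Finset ℂ, a' ∈ F ∧ b' ∈ F ∧ (∀ x ∈ F, x ∈ S ∪ {a', b'} ∧ ∃ y ∈ C, dist x y < δ / 4) ∧
      Relation.ReflTransGen (fun x y => x ∈ F ∧ y ∈ F ∧ dist x y < δ) a' b' := by
  classical
  -- chains between points of `C`
  have key : ∀ x ∈ C, ∀ y ∈ C, ∀ x' y' : ℂ, dist x' x < δ / 4 → dist y' y < δ / 4 →
      ∃ F : Finset ℂ, x' ∈ F ∧ y' ∈ F ∧ (∀ z ∈ F, z ∈ S ∪ {x', y'} ∧ ∃ w ∈ C, dist z w < δ / 4) ∧
      Relation.ReflTransGen (fun u v => u ∈ F ∧ v ∈ F ∧ dist u v < δ) x' y' := by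
    intro x hx y hy
    refine hC.induction₂ (fun x y => ∀ x' y' : ℂ, dist x' x < δ / 4 → dist y' y < δ / 4 →
      ∃ F : Finset ℂ, x' ∈ F ∧ y' ∈ F ∧ (∀ z ∈ F, z ∈ S ∪ {x', y'} ∧ ∃ w ∈ C, dist z w < δ / 4) ∧
      Relation.ReflTransGen (fun u v => u ∈ F ∧ v ∈ F ∧ dist u v < δ) x' y') ?_ ?_ ?_ hx hy
    · intro x hx
      have : ball x (δ / 4) ∩ C ∈ 𝓝[C] x := inter_mem (mem_nhdsWithin_of_mem_nhds
        (ball_mem_nhds x (by linarith))) self_mem_nhdsWithin
      filter_upwards [this] with y hy x' y' hx' hy'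
      refine ⟨{x', y'}, by simp, by simp, ?_, Relation.ReflTransGen.single ⟨by simp, by simp, ?_⟩⟩
      · intro z hz
        rw [Finset.mem_insert, Finset.mem_singleton] at hz
        rcases hz with rfl | rfl
        · exact ⟨by simp, x, hx, hx'⟩
        · exact ⟨by simp, y, hy.2, hy'⟩
      · have h1 := dist_triangle x' x y'
        have h2 := dist_triangle x y y'
        have h3 : dist y x < δ / 4 := mem_ball.1 hy.1
        rw [dist_comm] at h3
        rw [dist_comm y y'] at h2
        linarith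
    · intro x y z hx hy hz h1 h2 x' z' hx' hz'
      obtain ⟨s, hs, hsd⟩ := hS y hy
      obtain ⟨F, f1, f2, f3, f4⟩ := h1 x' s hx' hsd
      obtain ⟨G, g1, g2, g3, g4⟩ := h2 s z' hsd hz'
      refine ⟨F ∪ G, Finset.mem_union_left _ f1, Finset.mem_union_right _ g2, ?_, ?_⟩
      · intro w hw
        rcases Finset.mem_union.1 hw with hw | hw
        · obtain ⟨k1, k2⟩ := f3 w hw
          refine ⟨?_, k2⟩
          rcases k1 with k1 | k1 | k1
          · exact Or.inl k1
          · exact Or.inr (Or.inl k1)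
          · exact Or.inl (by rw [mem_singleton_iff] at k1; rw [k1]; exact hs)
        · obtain ⟨k1, k2⟩ := g3 w hw
          refine ⟨?_, k2⟩
          rcases k1 with k1 | k1 | k1
          · exact Or.inl k1
          · exact Or.inl (by rw [k1]; exact hs)
          · exact Or.inr (Or.inr k1)
      · exact (rtg_mono (fun u v h => ⟨Finset.mem_union_left _ h.1, Finset.mem_union_left _ h.2.1,
          h.2.2⟩) f4).trans (rtg_mono (fun u v h => ⟨Finset.mem_union_right _ h.1,
          Finset.mem_union_right _ h.2.1, h.2.2⟩) g4)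
    · intro x y hx hy h1 y' x' hy' hx'
      obtain ⟨F, f1, f2, f3, f4⟩ := h1 x' y' hx' hy'
      refine ⟨F, f2, f1, ?_, ?_⟩
      · intro z hz
        obtain ⟨k1, k2⟩ := f3 z hz
        rw [pair_comm] at k1
        exact ⟨k1, k2⟩
      · exact rtg_symm (fun u v h => ⟨h.2.1, h.1, by rw [dist_comm]; exact h.2.2⟩) f4
  exact key a ha b hb a' b' ha' hb'

/-- **Compactness**: crossings in terms of chains of points of a dense countable set where the
function `f` is small. -/
theorem conn_iff_link {f : ℂ → ℝ} (hf : ∀ x y, |f x - f y| ≤ 2 * dist x y) {D A B S : Set ℂ}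
    (hD : IsCompact D) (hA : IsClosed A) (hB : IsClosed B) (hAD : A ⊆ D) (hBD : B ⊆ D)
    (hAB : Disjoint A B) (hSD : S ⊆ D) (hSd : D ⊆ closure S) (hSA : A ⊆ closure (S ∩ A))
    (hSB : B ⊆ closure (S ∩ B)) :
    Conn ({z | f z ≤ 0} ∩ D) A B ↔
      ∀ m : ℕ, ∃ F : Finset ℂ, (F : Set ℂ) ⊆ S ∧ Link A B (1 / (m + 1)) F ∧
        ∀ x ∈ F, f x < 1 / (m + 1) := by
  have hfc : Continuous f := by
    have : LipschitzWith 2 f := LipschitzWith.of_dist_le_mul fun x y => by
      rw [Real.dist_eq]; exact hf x y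
    exact this.continuous
  constructor
  · rintro ⟨C, c1, c2, c3, ⟨a, haC, haA⟩, ⟨b, hbC, hbB⟩⟩ m
    set δ : ℝ := 1 / (m + 1) with hδ
    have hδ0 : 0 < δ := by rw [hδ]; positivity
    obtain ⟨a', ha', ha'd⟩ := Metric.mem_closure_iff.1 (hSA haA) (δ / 4) (by linarith)
    obtain ⟨b', hb', hb'd⟩ := Metric.mem_closure_iff.1 (hSB hbB) (δ / 4) (by linarith)
    rw [dist_comm] at ha'd hb'd
    obtain ⟨F, f1, f2, f3, f4⟩ := exists_chain c3 (S := S) hδ0 (fun x hx => by
      obtain ⟨s, hs, hsd⟩ := Metric.mem_closure_iff.1 (hSd (c1 hx).2) (δ / 4) (by linarith)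
      exact ⟨s, hs, by rwa [dist_comm]⟩) haC hbC ha'd hb'd
    refine ⟨F, ?_, ⟨a', f1, ha'.2, b', f2, hb'.2, f4⟩, ?_⟩
    · intro x hx
      rcases (f3 x hx).1 with h | h | h
      · exact h
      · rw [h]; exact ha'.1
      · rw [mem_singleton_iff] at h; rw [h]; exact hb'.1
    · intro x hx
      obtain ⟨y, hy, hxy⟩ := (f3 x hx).2
      have h1 := (abs_le.1 (hf x y)).2
      have h2 : f y ≤ 0 := (c1 hy).1
      linarith
  · intro h
    have hP : IsCompact ({z | f z ≤ 0} ∩ D) :=
      hD.inter_left (isClosed_le hfc continuous_const)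
    rcases P073.PH.part hP hA hB with h1 | ⟨P₁, P₂, p1, p2, p3, p4, p5, p6⟩
    · exact h1
    · exfalso
      have hAc : IsCompact A := hD.of_isClosed_subset hA hAD
      have hBc : IsCompact B := hD.of_isClosed_subset hB hBD
      have hd : Disjoint (P₁ ∪ A) (P₂ ∪ B) := by
        rw [Set.disjoint_left]
        rintro x (hx | hx) (hx' | hx')
        · exact Set.disjoint_left.1 p3 hx hx'
        · exact Set.disjoint_left.1 p3 hx (p6 ⟨p4 ▸ Or.inl hx, hx'⟩)
        · exact Set.disjoint_left.1 p3 (p5 ⟨p4 ▸ Or.inr hx', hx⟩) hx'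
        · exact Set.disjoint_left.1 hAB hx hx'
      obtain ⟨ρ, hρ, hρd⟩ := hd.exists_thickenings (p1.union hAc) (p2.union hBc).isClosed
      -- `f` is bounded below away from the zero set
      obtain ⟨η, hη, hηf⟩ : ∃ η : ℝ, 0 < η ∧ ∀ x ∈ D, f x < η →
          x ∈ thickening (ρ / 2) ({z | f z ≤ 0} ∩ D) := by
        set T := D \ thickening (ρ / 2) ({z | f z ≤ 0} ∩ D) with hT
        have hTc : IsCompact T := hD.diff isOpen_thickening
        rcases T.eq_empty_or_nonempty with hTe | hTn
        · refine ⟨1, one_pos, fun x hx _ => ?_⟩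
          by_contra hcon
          have : x ∈ T := ⟨hx, hcon⟩
          rw [hTe] at this
          exact this
        · obtain ⟨t, ht, htm⟩ := hTc.exists_isMinOn hTn hfc.continuousOn
          have ht0 : 0 < f t := by
            by_contra hcon
            push Not at hcon
            exact ht.2 (self_subset_thickening (by linarith) _ ⟨hcon, ht.1⟩)
          refine ⟨f t, ht0, fun x hx hxt => ?_⟩
          by_contra hcon
          have := htm ⟨hx, hcon⟩
          have h2 : f t ≤ f x := this
          linarith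
      obtain ⟨m, hm⟩ := exists_nat_one_div_lt (lt_min hη (show (0 : ℝ) < ρ / 2 by linarith))
      obtain ⟨F, hFS, ⟨a, haF, haA, b, hbF, hbB, hab⟩, hFf⟩ := h m
      have h2 : ∀ x ∈ F, x ∈ thickening (ρ / 2) P₁ ∨ x ∈ thickening (ρ / 2) P₂ := by
        intro x hx
        have h3 := hηf x (hSD (hFS hx)) ((hFf x hx).trans (hm.trans_le (min_le_left _ _)))
        rw [← p4, thickening_union] at h3
        exact h3
      have hsub1 : thickening (ρ / 2) P₁ ⊆ thickening ρ (P₁ ∪ A) :=
        (thickening_mono (by linarith) _).trans (thickening_subset_of_subset _ subset_union_left)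
      have hsub2 : thickening (ρ / 2) P₂ ⊆ thickening ρ (P₂ ∪ B) :=
        (thickening_mono (by linarith) _).trans (thickening_subset_of_subset _ subset_union_left)
      have h3 : ∀ x, Relation.ReflTransGen (fun x y => x ∈ F ∧ y ∈ F ∧ dist x y < 1 / ((m : ℝ) + 1))
          a x → x ∈ thickening (ρ / 2) (P₁ ∪ A) := by
        intro x hx
        induction hx with
        | refl => exact self_subset_thickening (by linarith) _ (Or.inr haA)
        | @tail y z _ hyz ih =>
          rcases h2 z hyz.2.1 with h4 | h4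
          · exact thickening_subset_of_subset _ subset_union_left h4
          · exfalso
            have h5 : z ∈ thickening ρ (P₁ ∪ A) := by
              rw [mem_thickening_iff] at ih ⊢
              obtain ⟨w, hw, hyw⟩ := ih
              refine ⟨w, hw, ?_⟩
              have := dist_triangle z y w
              have h6 : dist y z < ρ / 2 := hyz.2.2.trans (hm.trans_le (min_le_right _ _))
              rw [dist_comm] at h6
              linarith
            exact Set.disjoint_left.1 hρd h5 (hsub2 h4)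
      have h4 := h3 b hab
      exact Set.disjoint_left.1 hρd (thickening_mono (by linarith) _ h4)
        (self_subset_thickening hρ _ (Or.inr hbB))

end P148.H70
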