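import Vale.Agent.P148.H70.Main

/-!
# P148: discs; lower bounds for all pairs of arcs of a circle
-/

open Set MeasureTheory ProbabilityTheory Filter Topology Metric
open scoped ENNReal

namespace P148.H70

/-- the affine map `w ↦ z₀ + r w` -/
noncomputable def aff (z₀ : ℂ) (r : ℝ) (hr : r ≠ 0) : ℂ ≃ₜ ℂ :=
  (Homeomorph.mulLeft₀ (r : ℂ) (by exact_mod_cast hr)).trans (Homeomorph.addLeft z₀)

theorem aff_apply (z₀ : ℂ) (r : ℝ) (hr : r ≠ 0) (w : ℂ) : aff z₀ r hr w = z₀ + r * w := rfl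

/-- the rotation about `z₀` of angle `φ` -/
noncomputable def rot (z₀ : ℂ) (φ : ℝ) : ℂ ≃ᵢ ℂ :=
  ((IsometryEquiv.subRight z₀).trans (rotation (Circle.exp φ)).toIsometryEquiv).trans
    (IsometryEquiv.addRight z₀)

theorem rot_apply (z₀ : ℂ) (φ : ℝ) (z : ℂ) : rot z₀ φ z = cis φ * (z - z₀) + z₀ := by
  unfold rot cis
  simp [rotation_apply, Circle.coe_exp]

theorem cis_add (s t : ℝ) : cis (s + t) = cis s * cis t := by
  unfold cis
  rw [← Complex.exp_add]
  congr 1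
  push_cast
  ring

theorem rot_aff (z₀ : ℂ) (r : ℝ) (hr : r ≠ 0) (φ : ℝ) (w : ℂ) :
    rot z₀ φ (aff z₀ r hr w) = aff z₀ r hr (cis φ * w) := by
  rw [rot_apply, aff_apply, aff_apply]
  ring

theorem rot_disc (z₀ : ℂ) (r : ℝ) (hr : r ≠ 0) (φ : ℝ) :
    rot z₀ φ '' (aff z₀ r hr '' closedBall 0 1) = aff z₀ r hr '' closedBall 0 1 := by
  ext z
  constructor
  · rintro ⟨_, ⟨w, hw, rfl⟩, rfl⟩
    refine ⟨cis φ * w, ?_, (rot_aff z₀ r hr φ w).symm⟩
    rw [mem_closedBall_zero_iff] at hw ⊢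
    rw [norm_mul, norm_cis, one_mul]
    exact hw
  · rintro ⟨w, hw, rfl⟩
    refine ⟨_, ⟨cis (-φ) * w, ?_, rfl⟩, ?_⟩
    · rw [mem_closedBall_zero_iff] at hw ⊢
      rw [norm_mul, norm_cis, one_mul]
      exact hw
    · rw [rot_aff, ← mul_assoc, ← cis_add, add_neg_cancel]
      simp [cis]

theorem rot_arc (z₀ : ℂ) (r : ℝ) (hr : r ≠ 0) (φ a b : ℝ) :
    rot z₀ φ '' (aff z₀ r hr '' (cis '' Icc a b)) = aff z₀ r hr '' (cis '' Icc (a + φ) (b + φ)) := by
  ext z
  constructor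
  · rintro ⟨_, ⟨_, ⟨t, ht, rfl⟩, rfl⟩, rfl⟩
    refine ⟨_, ⟨t + φ, ⟨by linarith [ht.1], by linarith [ht.2]⟩, rfl⟩, ?_⟩
    rw [rot_aff, ← cis_add, add_comm]
  · rintro ⟨_, ⟨t, ht, rfl⟩, rfl⟩
    refine ⟨_, ⟨_, ⟨t - φ, ⟨by linarith [ht.1], by linarith [ht.2]⟩, rfl⟩, rfl⟩, ?_⟩
    rw [rot_aff, ← cis_add]
    congr 2
    ring

/-- two disjoint arcs -/
theorem qd_arc (Φ : ℂ ≃ₜ ℂ) {a b c d : ℝ} (h2 : b < c) (h4 : d < a + 2 * Real.pi) :
    QD (Φ '' closedBall 0 1) (Φ '' (cis '' Icc a b)) (Φ '' (cis '' Icc c d)) where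
  hD := (isCompact_closedBall _ _).image Φ.continuous
  hA := ((isCompact_Icc.image continuous_cis).image Φ.continuous).isClosed
  hB := ((isCompact_Icc.image continuous_cis).image Φ.continuous).isClosed
  hAD := image_mono (by rintro _ ⟨t, _, rfl⟩; exact cis_mem' t)
  hBD := image_mono (by rintro _ ⟨t, _, rfl⟩; exact cis_mem' t)
  hAB := by
    rw [Set.disjoint_image_iff Φ.injective, Set.disjoint_left]
    rintro _ ⟨u, hu, rfl⟩ ⟨v, hv, he⟩
    have := cis_injOn a ⟨by linarith [hu.1, hu.2, hv.1], by linarith [hv.2]⟩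
      ⟨hu.1, by linarith [hu.2, hv.1, hv.2]⟩ he
    linarith [hu.2, hv.1]

/-- weakly interlaced connected sets meet -/
theorem weak_cross {A B : Set ℂ} (hA : IsCompact A) (hA' : IsPreconnected A)
    (hAb : A ⊆ closedBall 0 1) (hB : IsCompact B) (hB' : IsPreconnected B)
    (hBb : B ⊆ closedBall 0 1) {x u y v : ℝ} (h1 : x ≤ u) (h2 : u ≤ y) (h3 : y ≤ v)
    (h4 : v ≤ x + 2 * Real.pi) (hx : cis x ∈ A) (hy : cis y ∈ A) (hu : cis u ∈ B)
    (hv : cis v ∈ B) : (A ∩ B).Nonempty := by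
  rcases h1.eq_or_lt with h1 | h1
  · exact ⟨cis x, hx, h1 ▸ hu⟩
  rcases h2.eq_or_lt with h2 | h2
  · exact ⟨cis y, hy, h2 ▸ hu⟩
  rcases h3.eq_or_lt with h3 | h3
  · exact ⟨cis y, hy, h3 ▸ hv⟩
  rcases h4.eq_or_lt with h4 | h4
  · refine ⟨cis x, hx, ?_⟩
    rw [h4, cis_add_two_pi] at hv
    exact hv
  · exact cross_disc (α := x) (β := y) (h1.trans h2) (h3.trans h4) hA hA' hAb hB hB' hBb hx hy
      ⟨h1, h2⟩ hu ⟨h3, h4⟩ hv

/-- a chain of adjacent connections gives a connected set which meets all the arcs -/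
theorem net_chain {n : ℕ} (hn : 2 ≤ n) {θ : ℤ → ℝ} (hθ : Marks n θ) {R : Set ℂ}
    (hR : R ⊆ closedBall 0 1) (i : ℤ) (k : ℕ)
    (h : ∀ j : ℕ, j ≤ k → Conn R (uarc θ (i + j)) (uarc θ (i + j + 2))) :
    ∃ Z ⊆ R, IsCompact Z ∧ IsPreconnected Z ∧ ∀ j : ℕ, j ≤ k →
      (Z ∩ uarc θ (i + j)).Nonempty ∧ (Z ∩ uarc θ (i + j + 2)).Nonempty := by
  have key : ∀ k : ℕ, (∀ j : ℕ, j ≤ k → Conn R (uarc θ (i + j)) (uarc θ (i + j + 2))) →
      ∃ Z C : Set ℂ, C ⊆ Z ∧ Z ⊆ R ∧ IsCompact Z ∧ IsPreconnected Z ∧ (∀ j : ℕ, j ≤ k →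
        (Z ∩ uarc θ (i + j)).Nonempty ∧ (Z ∩ uarc θ (i + j + 2)).Nonempty) ∧
        IsCompact C ∧ IsPreconnected C ∧ (C ∩ uarc θ (i + k)).Nonempty ∧
        (C ∩ uarc θ (i + k + 2)).Nonempty := by
    intro k
    induction k with
    | zero =>
      intro h
      obtain ⟨W, w1, w2, w3, w4, w5⟩ := h 0 le_rfl
      refine ⟨W, W, Subset.rfl, w1, w2, w3, ?_, w2, w3, w4, w5⟩
      intro j hj
      have : j = 0 := by omega
      subst this
      exact ⟨w4, w5⟩
    | succ k ih =>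
      intro h
      obtain ⟨Z, C, hCZ, z1, z2, z3, z4, c1, c2, c3, c4⟩ := ih fun j hj => h j (by omega)
      obtain ⟨W, w1, w2, w3, w4, w5⟩ := h (k + 1) le_rfl
      have hne : (C ∩ W).Nonempty := by
        have e1 : i + ((k + 1 : ℕ) : ℤ) = i + k + 1 := by push_cast; ring
        rw [e1] at w4 w5
        exact interlaced hn hθ c1 c2 ((hCZ.trans z1).trans hR) w2 w3 (w1.trans hR) c3 c4 w4 w5
      refine ⟨Z ∪ W, W, subset_union_right, union_subset z1 w1, z2.union w2, ?_, ?_, w2, w3, w4, w5⟩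
      · obtain ⟨x, hx, hx'⟩ := hne
        exact z3.union x (hCZ hx) hx' w3
      · intro j hj
        rcases Nat.lt_or_ge j (k + 1) with h3 | h3
        · obtain ⟨a, b⟩ := z4 j (by omega)
          exact ⟨a.mono (inter_subset_inter_left _ subset_union_left),
            b.mono (inter_subset_inter_left _ subset_union_left)⟩
        · have : j = k + 1 := by omega
          subst this
          exact ⟨w4.mono (inter_subset_inter_left _ subset_union_right),
            w5.mono (inter_subset_inter_left _ subset_union_right)⟩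
  obtain ⟨Z, C, hCZ, z1, z2, z3, z4, c1, c2, c3, c4⟩ := key k h
  exact ⟨Z, z1, z2, z3, z4⟩

/-- six equally spaced marks -/
noncomputable def hexm (i : ℤ) : ℝ := i * (Real.pi / 3)

theorem marks_hexm : Marks 3 hexm where
  mono := by
    intro i j hij
    unfold hexm
    have : (i : ℝ) < j := by exact_mod_cast hij
    have := Real.pi_pos
    nlinarith
  per := by
    intro i
    unfold hexm
    push_cast
    ring

/-- an interval of length `2π/3` contains one of the intervals between consecutive marks -/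
theorem exists_hexm {x y : ℝ} (h : x + 2 * Real.pi / 3 ≤ y) :
    ∃ j : ℤ, x ≤ hexm j ∧ hexm (j + 1) ≤ y := by
  have hp := Real.pi_pos
  refine ⟨⌈x / (Real.pi / 3)⌉, ?_, ?_⟩
  · unfold hexm
    have := Int.le_ceil (x / (Real.pi / 3))
    rwa [div_le_iff₀ (by positivity)] at this
  · unfold hexm
    have h1 := Int.ceil_lt_add_one (x / (Real.pi / 3))
    have h2 : (⌈x / (Real.pi / 3)⌉ : ℝ) * (Real.pi / 3) < x + Real.pi / 3 := by
      have h3 : (⌈x / (Real.pi / 3)⌉ : ℝ) * (Real.pi / 3) < (x / (Real.pi / 3) + 1) * (Real.pi / 3) :=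
        mul_lt_mul_of_pos_right h1 (by positivity)
      have h4 : (x / (Real.pi / 3) + 1) * (Real.pi / 3) = x + Real.pi / 3 := by field_simp
      linarith
    push_cast
    linarith

/-- a connected set which meets the six arcs meets every long path -/
theorem six_net {Z : Set ℂ} (hZ : IsCompact Z) (hZ' : IsPreconnected Z) (hZb : Z ⊆ closedBall 0 1)
    (h : ∀ j : ℕ, j ≤ 3 → (Z ∩ uarc hexm ((0 : ℤ) + j)).Nonempty ∧
      (Z ∩ uarc hexm ((0 : ℤ) + j + 2)).Nonempty)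
    {A : Set ℂ} (hA : IsCompact A) (hA' : IsPreconnected A) (hAb : A ⊆ closedBall 0 1) {x y : ℝ}
    (h1 : x + 2 * Real.pi / 3 ≤ y) (h2 : y + 2 * Real.pi / 3 ≤ x + 2 * Real.pi)
    (hx : cis x ∈ A) (hy : cis y ∈ A) : (A ∩ Z).Nonempty := by
  have hall : ∀ j : ℤ, (Z ∩ uarc hexm j).Nonempty := by
    have h0 : ∀ j : ℕ, j < 6 → (Z ∩ uarc hexm (j : ℕ)).Nonempty := by
      intro j hj
      rcases Nat.lt_or_ge j 4 with h3 | h3
      · have := (h j (by omega)).1
        simpa using this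
      · have := (h (j - 2) (by omega)).2
        have e : (0 : ℤ) + ((j - 2 : ℕ) : ℤ) + 2 = j := by omega
        rwa [e] at this
    have hper : ∀ (j : ℤ) (m : ℕ), uarc hexm (j + 6 * m) = uarc hexm j := by
      intro j m
      induction m with
      | zero => simp
      | succ m ih =>
        have := uarc_per marks_hexm (j + 6 * m)
        rw [← ih, ← this]
        congr 1
        push_cast
        ring
    have hper' : ∀ (j m : ℤ), uarc hexm (j + 6 * m) = uarc hexm j := by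
      intro j m
      rcases le_total 0 m with hm | hm
      · obtain ⟨k, rfl⟩ := Int.eq_ofNat_of_zero_le hm
        exact hper j k
      · obtain ⟨k, hk⟩ := Int.eq_ofNat_of_zero_le (show 0 ≤ -m by omega)
        rw [← hper (j + 6 * m) k]
        congr 1
        omega
    intro j
    have h1 : uarc hexm j = uarc hexm ((j % 6).toNat : ℕ) := by
      rw [← hper' ((j % 6).toNat : ℕ) (j / 6)]
      congr 1
      omega
    rw [h1]
    exact h0 _ (by omega)
  obtain ⟨i, i1, i2⟩ := exists_hexm h1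
  obtain ⟨j, j1, j2⟩ := exists_hexm h2
  obtain ⟨_, hu, ⟨u, hu', rfl⟩⟩ := hall i
  obtain ⟨_, hv, ⟨v, hv', rfl⟩⟩ := hall j
  exact weak_cross hA hA' hAb hZ hZ' hZb (i1.trans hu'.1) (hu'.2.trans i2) (j1.trans hv'.1)
    (hv'.2.trans j2) hx hy hu hv

section
variable {Ω : Type*} [MeasurableSpace Ω] {P : Measure Ω} [IsProbabilityMeasure P]
  {ε : ℝ} {X : Ω → Set (ℂ × Bool)}

theorem crossProb_mono (P : Measure Ω) (X : Ω → Set (ℂ × Bool)) (Φ : ℂ → ℂ)
    {a b c d a' b' c' d' : ℝ} (h1 : a' ≤ a) (h2 : b ≤ b') (h3 : c' ≤ c) (h4 : d ≤ d') :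
    crossProb P X Φ a b c d ≤ crossProb P X Φ a' b' c' d' := by
  refine measure_mono fun ω hω => ?_
  obtain ⟨C, c1, c2, c3, c4⟩ := hω
  exact ⟨C, c1, c2, c3.mono (inter_subset_inter_right _ (image_mono (image_mono
    (Icc_subset_Icc h1 h2)))), c4.mono (inter_subset_inter_right _ (image_mono (image_mono
    (Icc_subset_Icc h3 h4))))⟩

/-- rotation invariance -/
theorem crossProb_rot (hε : 0 < ε) (hX : IsPoissonProcess P (intensity ε) X) (z₀ : ℂ) {r : ℝ}
    (hr : r ≠ 0) {a b c d : ℝ} (h2 : b < c) (h4 : d < a + 2 * Real.pi) (φ : ℝ) :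
    crossProb P X (aff z₀ r hr) (a + φ) (b + φ) (c + φ) (d + φ) =
      crossProb P X (aff z₀ r hr) a b c d := by
  have := prob_crosses_iso hε hX true (qd_arc (aff z₀ r hr) h2 h4) (rot z₀ φ)
  rw [rot_disc, rot_arc, rot_arc] at this
  exact this

/-- adjacent and opposite arcs of the hexagonal partition -/
theorem hex_ge (hε : 0 < ε) (hX : IsPoissonProcess P (intensity ε) X) (z₀ : ℂ) {r : ℝ}
    (hr : r ≠ 0) (i : ℤ) (k : ℕ) :
    (3 : ℝ≥0∞)⁻¹ ^ (k + 1) ≤ P {ω | Crosses true (X ω) (aff z₀ r hr '' closedBall 0 1)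
      (barc (aff z₀ r hr) hexm i) (barc (aff z₀ r hr) hexm (i + k + 2))} := by
  have := chain_ge hε hX (aff z₀ r hr) (n := 3) (by norm_num) marks_hexm (rot z₀ (Real.pi / 3))
    (rot_disc z₀ r hr _) (fun i => by
      unfold barc uarc
      rw [rot_arc]
      unfold hexm
      congr 3
      · push_cast; ring
      · push_cast; ring) i k
  exact_mod_cast this

/-- small arcs are connected to opposite arcs -/
theorem small_arc (hε : 0 < ε) (hX : IsPoissonProcess P (intensity ε) X) (z₀ : ℂ) {r : ℝ}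
    (hr : r ≠ 0) {k : ℕ} (hk : 1 ≤ k) :
    ∃ τ : ℝ, 0 ≤ τ ∧ τ + Real.pi / (3 * k) ≤ Real.pi / 3 ∧ ∀ a : ℝ, (9 * k : ℝ≥0∞)⁻¹ ≤
      crossProb P X (aff z₀ r hr) a (a + Real.pi / (3 * k)) (a + Real.pi - τ)
        (a + 4 * Real.pi / 3 - τ) := by
  have hp := Real.pi_pos
  have hk' : (1 : ℝ) ≤ k := by exact_mod_cast hk
  set δ : ℝ := Real.pi / (3 * k) with hδ
  have hkδ : k * δ = Real.pi / 3 := by rw [hδ]; field_simp
  have hδ0 : 0 < δ := by positivity
  have h1 := hex_ge hε hX z₀ hr 0 1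
  set p : ℕ → ℝ≥0∞ := fun j => crossProb P X (aff z₀ r hr) (j * δ) ((j + 1) * δ) Real.pi
    (4 * Real.pi / 3) with hpd
  have h2 : (9 : ℝ≥0∞)⁻¹ ≤ ∑ j ∈ Finset.range k, p j := by
    have e9 : (3 : ℝ≥0∞)⁻¹ ^ (1 + 1) = 9⁻¹ := by
      rw [← ENNReal.inv_pow]; norm_num
    rw [e9] at h1
    let S : ℕ → Set Ω := fun j => {ω | Crosses true (X ω) (aff z₀ r hr '' closedBall 0 1)
        (aff z₀ r hr '' (cis '' Icc (j * δ) ((j + 1) * δ)))
        (aff z₀ r hr '' (cis '' Icc Real.pi (4 * Real.pi / 3)))}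
    refine h1.trans ((measure_mono ?_).trans (measure_biUnion_finset_le (Finset.range k) S))
    · rintro ω ⟨C, c1, c2, ⟨_, hx, ⟨_, ⟨t, ht, rfl⟩, rfl⟩⟩, c4⟩
      have ht0 : 0 ≤ t := by have := ht.1; unfold hexm at this; simpa using this
      have ht1 : t ≤ Real.pi / 3 := by have := ht.2; unfold hexm at this; simpa using this
      have c4' : (C ∩ aff z₀ r hr '' (cis '' Icc Real.pi (4 * Real.pi / 3))).Nonempty := by
        have e1 : hexm ((0 : ℤ) + ((1 : ℕ) : ℤ) + 2) = Real.pi := by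
          unfold hexm; push_cast; ring
        have e2 : hexm ((0 : ℤ) + ((1 : ℕ) : ℤ) + 2 + 1) = 4 * Real.pi / 3 := by
          unfold hexm; push_cast; ring
        unfold barc uarc at c4
        rwa [e1, e2] at c4
      rw [mem_iUnion₂]
      -- the index
      rcases ht1.eq_or_lt with h5 | h5
      · refine ⟨k - 1, Finset.mem_range.2 (by omega), C, c1, c2, ⟨_, hx, ⟨_, ⟨t, ?_, rfl⟩, rfl⟩⟩, c4'⟩
        have : ((k - 1 : ℕ) : ℝ) = k - 1 := by
          rw [Nat.cast_sub hk]; simp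
        rw [this]
        constructor
        · rw [h5, ← hkδ]; nlinarith
        · rw [h5, ← hkδ]; nlinarith
      · refine ⟨⌊t / δ⌋₊, ?_, C, c1, c2, ⟨_, hx, ⟨_, ⟨t, ?_, rfl⟩, rfl⟩⟩, c4'⟩
        · rw [Finset.mem_range, Nat.floor_lt (by positivity), div_lt_iff₀ hδ0, hkδ]
          exact h5
        · constructor
          · have := Nat.floor_le (show 0 ≤ t / δ by positivity)
            rwa [le_div_iff₀ hδ0] at this
          · have := (Nat.lt_floor_add_one (t / δ)).le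
            rwa [div_le_iff₀ hδ0] at this
  obtain ⟨j, hj, hjp⟩ : ∃ j < k, (9 * k : ℝ≥0∞)⁻¹ ≤ p j := by
    by_contra hcon
    push Not at hcon
    have h3 : ∑ j ∈ Finset.range k, p j < ∑ _j ∈ Finset.range k, (9 * k : ℝ≥0∞)⁻¹ := by
      refine ENNReal.sum_lt_sum_of_nonempty ⟨0, Finset.mem_range.2 (by omega)⟩ fun j hj => ?_
      exact hcon j (Finset.mem_range.1 hj)
    rw [Finset.sum_const, Finset.card_range, nsmul_eq_mul, ENNReal.mul_inv (by simp) (by simp)] at h3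
    have h4 : (k : ℝ≥0∞) * (9⁻¹ * (k : ℝ≥0∞)⁻¹) = 9⁻¹ := by
      rw [mul_comm (9⁻¹ : ℝ≥0∞), ← mul_assoc, ENNReal.mul_inv_cancel (by simp; omega) (by simp),
        one_mul]
    rw [h4] at h3
    exact absurd h2 (not_le.2 h3)
  refine ⟨j * δ, by positivity, ?_, fun a => ?_⟩
  · rw [← hkδ]
    have : (j : ℝ) + 1 ≤ k := by exact_mod_cast hj
    nlinarith
  · refine hjp.trans_eq ?_
    have hj' : (j : ℝ) + 1 ≤ k := by exact_mod_cast hj
    have hjδ : ((j : ℝ) + 1) * δ ≤ Real.pi / 3 := by rw [← hkδ]; nlinarith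
    rw [hpd]
    simp only
    rw [← crossProb_rot hε hX z₀ hr (a := j * δ) (b := (j + 1) * δ) (c := Real.pi)
      (d := 4 * Real.pi / 3) (by linarith) (by
        have : 0 ≤ (j : ℝ) * δ := by positivity
        linarith) (a - j * δ)]
    congr 1 <;> ring

end

end P148.H70
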