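import Vale.Agent.P148.H70.Gen

/-!
# P148: closed crossings and strict crossings in general position
-/

open Set MeasureTheory ProbabilityTheory Filter Topology Metric
open scoped ENNReal

namespace P148.H70

/-- the points of `D` whose nearest points have colour `c`, `v` being one of them -/
def scell (X : Set (ℂ × Bool)) (c : Bool) (D : Set ℂ) (v : ℂ) : Set ℂ :=
  {z | z ∈ D ∧ z ∈ cell X v ∧ ∀ w, (w, !c) ∈ X → dist z v < dist z w}

theorem convex_halfplane_le (v w : ℂ) : Convex ℝ {z : ℂ | dist z v ≤ dist z w} := by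
  have h : {z : ℂ | dist z v ≤ dist z w} =
      {z : ℂ | 2 * (z.re * (w.re - v.re) + z.im * (w.im - v.im)) ≤
        Complex.normSq w - Complex.normSq v} := by
    ext z
    simp only [mem_ofPred_eq]
    rw [dist_eq_norm, dist_eq_norm, ← sq_le_sq₀ (norm_nonneg _) (norm_nonneg _),
      ← Complex.normSq_eq_norm_sq, ← Complex.normSq_eq_norm_sq]
    simp only [Complex.normSq_apply, Complex.sub_re, Complex.sub_im]
    constructor <;> intro h <;> nlinarith
  rw [h]
  intro x hx y hy a b ha hb hab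
  simp only [mem_ofPred_eq, Complex.add_re, Complex.add_im, Complex.real_smul, Complex.mul_re,
    Complex.mul_im, Complex.ofReal_re, Complex.ofReal_im] at hx hy ⊢
  have e : Complex.normSq w - Complex.normSq v =
      a * (Complex.normSq w - Complex.normSq v) + b * (Complex.normSq w - Complex.normSq v) := by
    rw [← add_mul, hab, one_mul]
  rw [e]
  nlinarith [mul_le_mul_of_nonneg_left hx ha, mul_le_mul_of_nonneg_left hy hb]

theorem convex_halfplane_lt (v w : ℂ) : Convex ℝ {z : ℂ | dist z v < dist z w} := by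
  have h : {z : ℂ | dist z v < dist z w} =
      {z : ℂ | 2 * (z.re * (w.re - v.re) + z.im * (w.im - v.im)) <
        Complex.normSq w - Complex.normSq v} := by
    ext z
    simp only [mem_ofPred_eq]
    rw [dist_eq_norm, dist_eq_norm, ← sq_lt_sq₀ (norm_nonneg _) (norm_nonneg _),
      ← Complex.normSq_eq_norm_sq, ← Complex.normSq_eq_norm_sq]
    simp only [Complex.normSq_apply, Complex.sub_re, Complex.sub_im]
    constructor <;> intro h <;> nlinarith
  rw [h]
  intro x hx y hy a b ha hb hab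
  simp only [mem_ofPred_eq, Complex.add_re, Complex.add_im, Complex.real_smul, Complex.mul_re,
    Complex.mul_im, Complex.ofReal_re, Complex.ofReal_im] at hx hy ⊢
  have e : Complex.normSq w - Complex.normSq v =
      a * (Complex.normSq w - Complex.normSq v) + b * (Complex.normSq w - Complex.normSq v) := by
    rw [← add_mul, hab, one_mul]
  rw [e]
  rcases ha.eq_or_lt with h0 | h0
  · subst h0
    have : b = 1 := by linarith
    subst this
    simpa using hy
  · have h1 := mul_lt_mul_of_pos_left hx h0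
    have h2 := mul_le_mul_of_nonneg_left hy.le hb
    nlinarith

theorem convex_cell (X : Set (ℂ × Bool)) (v : ℂ) : Convex ℝ (cell X v) := by
  have : cell X v = ⋂ p ∈ X, {z : ℂ | dist z v ≤ dist z p.1} := by
    ext z
    simp [cell]
  rw [this]
  exact convex_iInter fun p => convex_iInter fun _ => convex_halfplane_le v p.1

theorem isClosed_cell (X : Set (ℂ × Bool)) (v : ℂ) : IsClosed (cell X v) := by
  have : cell X v = ⋂ p ∈ X, {z : ℂ | dist z v ≤ dist z p.1} := by
    ext z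
    simp [cell]
  rw [this]
  exact isClosed_biInter fun p _ => isClosed_le (by fun_prop) (by fun_prop)

theorem convex_scell (X : Set (ℂ × Bool)) (c : Bool) {D : Set ℂ} (hD : Convex ℝ D) (v : ℂ) :
    Convex ℝ (scell X c D v) := by
  have : scell X c D v = D ∩ (cell X v ∩ ⋂ w ∈ pc X (!c), {z : ℂ | dist z v < dist z w}) := by
    ext z
    simp only [scell, pc, mem_ofPred_eq, mem_inter_iff, mem_iInter]
  rw [this]
  exact hD.inter ((convex_cell X v).inter
    (convex_iInter fun w => convex_iInter fun _ => convex_halfplane_lt v w))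

theorem scell_subset {X : Set (ℂ × Bool)} {c : Bool} (D : Set ℂ) {v : ℂ} (hv : (v, c) ∈ X) :
    scell X c D v ⊆ (region X (!c))ᶜ ∩ D := by
  rintro z ⟨h1, h2, h3⟩
  refine ⟨?_, h1⟩
  rintro ⟨w, hw, hz⟩
  exact absurd (h3 w hw) (not_lt.2 (hz (v, c) hv))

/-- a gap between the nearest points and the others -/
theorem Good.gap {X : Set (ℂ × Bool)} (h : Good X) (z : ℂ) {F : Set ℂ} {ρ : ℝ}
    (hF : ∀ p ∈ X, p.1 ∉ F → ρ < dist z p.1) :
    ∃ δ > 0, ∀ p ∈ X, p.1 ∉ F → ρ + δ < dist z p.1 := by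
  obtain ⟨R, hR⟩ := exists_nat_gt (‖z‖ + (ρ + 1))
  set T : Set ℂ := ⋃ c : Bool, (pc X c ∩ closedBall 0 R) with hT
  have hTf : T.Finite := Set.finite_iUnion fun c => h.fin R c
  have h1 : ∀ᶠ δ in 𝓝[>] (0 : ℝ), ∀ x ∈ T, x ∉ F → ρ + δ < dist z x := by
    rw [eventually_all_finite hTf]
    intro x hx
    by_cases hxF : x ∈ F
    · exact Eventually.of_forall fun δ h' => absurd hxF h'
    · obtain ⟨c, hc⟩ := mem_iUnion.1 hx
      have h2 : 0 < dist z x - ρ := by
        have := hF (x, c) hc.1 hxF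
        simpa using this
      have h3 : ∀ᶠ δ in 𝓝[>] (0 : ℝ), δ < dist z x - ρ :=
        (Iio_mem_nhds h2) |> fun h => mem_nhdsWithin_of_mem_nhds h
      filter_upwards [h3] with δ hδ _
      linarith
  have h2 : ∀ᶠ δ in 𝓝[>] (0 : ℝ), δ < 1 := mem_nhdsWithin_of_mem_nhds (Iio_mem_nhds one_pos)
  have h3 : ∀ᶠ δ in 𝓝[>] (0 : ℝ), 0 < δ := self_mem_nhdsWithin
  obtain ⟨δ, d1, d2, d3⟩ := (h1.and (h2.and h3)).exists
  refine ⟨δ, d3, ?_⟩
  rintro ⟨x, c⟩ hp hpF
  by_cases hxT : x ∈ T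
  · exact d1 x hxT hpF
  · have h4 : ¬ ‖x‖ ≤ R := by
      intro hcon
      exact hxT (mem_iUnion.2 ⟨c, hp, by rwa [mem_closedBall_zero_iff]⟩)
    push Not at h4
    have h5 : ‖x‖ ≤ ‖z‖ + dist z x := by
      rw [dist_eq_norm]
      calc ‖x‖ = ‖z - (z - x)‖ := by congr 1; ring
        _ ≤ _ := norm_sub_le _ _
    show ρ + δ < dist z x
    linarith

theorem real_aux {x y p1 p2 s1 s2 : ℝ} (m1 : 2 * (x * p1 + y * p2) = p1 ^ 2 + p2 ^ 2)
    (m2 : 2 * (x * s1 + y * s2) = s1 ^ 2 + s2 ^ 2) (m3 : p1 * s2 = p2 * s1)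
    (hp : 0 < p1 ^ 2 + p2 ^ 2) (hs : 0 < s1 ^ 2 + s2 ^ 2) : p1 = s1 ∧ p2 = s2 := by
  have e1 : (s1 ^ 2 + s2 ^ 2) * p1 = (p1 ^ 2 + p2 ^ 2) * s1 := by
    rw [← m1, ← m2]
    linear_combination 2 * y * m3
  have e2 : (s1 ^ 2 + s2 ^ 2) * p2 = (p1 ^ 2 + p2 ^ 2) * s2 := by
    rw [← m1, ← m2]
    linear_combination (-2) * x * m3
  have e3 : (s1 ^ 2 + s2 ^ 2) * ((p1 ^ 2 + p2 ^ 2) * (s1 ^ 2 + s2 ^ 2)) =
      (p1 ^ 2 + p2 ^ 2) * ((p1 ^ 2 + p2 ^ 2) * (s1 ^ 2 + s2 ^ 2)) := by
    have a1 : ((s1 ^ 2 + s2 ^ 2) * p1) ^ 2 = ((p1 ^ 2 + p2 ^ 2) * s1) ^ 2 := by rw [e1]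
    have a2 : ((s1 ^ 2 + s2 ^ 2) * p2) ^ 2 = ((p1 ^ 2 + p2 ^ 2) * s2) ^ 2 := by rw [e2]
    linear_combination a1 + a2
  have e4 := mul_right_cancel₀ (mul_pos hp hs).ne' e3
  rw [e4] at e1 e2
  exact ⟨mul_left_cancel₀ hp.ne' e1, mul_left_cancel₀ hp.ne' e2⟩

theorem sq_add_sq_pos {v w : ℂ} (h : v ≠ w) : 0 < (w.re - v.re) ^ 2 + (w.im - v.im) ^ 2 := by
  rcases eq_or_ne (w.re - v.re) 0 with h1 | h1
  · rcases eq_or_ne (w.im - v.im) 0 with h2 | h2
    · exact absurd (Complex.ext (by linarith) (by linarith)) h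
    · positivity
  · positivity

/-- moving along the bisector of `v`, `w` away from `u` -/
theorem exists_dir {z v w u : ℂ} (hvw : v ≠ w) (hvu : v ≠ u) (hwu : w ≠ u)
    (h1 : dist z v = dist z w) (h2 : dist z v = dist z u) :
    ∃ η : ℂ, ∀ t : ℝ, 0 < t → dist (z + t * η) v = dist (z + t * η) w ∧
      dist (z + t * η) v < dist (z + t * η) u := by
  set K : ℝ := (w.re - v.re) * (u.im - v.im) - (w.im - v.im) * (u.re - v.re) with hK
  have n1 : Complex.normSq (z - v) = Complex.normSq (z - w) := by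
    rw [Complex.normSq_eq_norm_sq, Complex.normSq_eq_norm_sq, ← dist_eq_norm, ← dist_eq_norm, h1]
  have n2 : Complex.normSq (z - v) = Complex.normSq (z - u) := by
    rw [Complex.normSq_eq_norm_sq, Complex.normSq_eq_norm_sq, ← dist_eq_norm, ← dist_eq_norm, h2]
  simp only [Complex.normSq_apply, Complex.sub_re, Complex.sub_im] at n1 n2
  have hK0 : K ≠ 0 := by
    intro hK0
    obtain ⟨a1, a2⟩ := real_aux (x := z.re - v.re) (y := z.im - v.im)
      (p1 := w.re - v.re) (p2 := w.im - v.im) (s1 := u.re - v.re) (s2 := u.im - v.im)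
      (by linear_combination n1) (by linear_combination n2) (by linear_combination hK0 - hK)
      (sq_add_sq_pos hvw) (sq_add_sq_pos hvu)
    exact hwu (Complex.ext (by linarith) (by linarith))
  refine ⟨⟨K * (w.im - v.im), -(K * (w.re - v.re))⟩, fun t ht => ⟨?_, ?_⟩⟩
  · rw [dist_eq_norm, dist_eq_norm, ← sq_eq_sq₀ (norm_nonneg _) (norm_nonneg _),
      ← Complex.normSq_eq_norm_sq, ← Complex.normSq_eq_norm_sq]
    simp only [Complex.normSq_apply, Complex.sub_re, Complex.sub_im, Complex.add_re,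
      Complex.add_im, Complex.mul_re, Complex.mul_im, Complex.ofReal_re, Complex.ofReal_im]
    linear_combination n1
  · rw [dist_eq_norm, dist_eq_norm, ← sq_lt_sq₀ (norm_nonneg _) (norm_nonneg _),
      ← Complex.normSq_eq_norm_sq, ← Complex.normSq_eq_norm_sq]
    simp only [Complex.normSq_apply, Complex.sub_re, Complex.sub_im, Complex.add_re,
      Complex.add_im, Complex.mul_re, Complex.mul_im, Complex.ofReal_re, Complex.ofReal_im]
    have hK2 : 0 < 2 * t * K ^ 2 := by positivity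
    have e : (z.re + (t * (K * (w.im - v.im)) - 0 * -(K * (w.re - v.re))) - v.re) *
        (z.re + (t * (K * (w.im - v.im)) - 0 * -(K * (w.re - v.re))) - v.re) +
        (z.im + (t * -(K * (w.re - v.re)) + 0 * (K * (w.im - v.im))) - v.im) *
        (z.im + (t * -(K * (w.re - v.re)) + 0 * (K * (w.im - v.im))) - v.im) + 2 * t * K ^ 2 =
        (z.re + (t * (K * (w.im - v.im)) - 0 * -(K * (w.re - v.re))) - u.re) *
        (z.re + (t * (K * (w.im - v.im)) - 0 * -(K * (w.re - v.re))) - u.re) +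
        (z.im + (t * -(K * (w.re - v.re)) + 0 * (K * (w.im - v.im))) - u.im) *
        (z.im + (t * -(K * (w.re - v.re)) + 0 * (K * (w.im - v.im))) - u.im) := by
      linear_combination n2 + 2 * t * K * hK
    rw [← e]
    exact lt_add_of_pos_right _ hK2

end P148.H70
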