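import Vale.Agent.P148.H70.Strict

/-!
# P148: closed crossings and strict crossings in general position, continued
-/

open Set MeasureTheory ProbabilityTheory Filter Topology Metric
open scoped ENNReal

namespace P148.H70

theorem diff_formula {z₀ e v u : ℂ} {r : ℝ}
    (h1 : Complex.normSq (z₀ + r * e - v) = Complex.normSq (z₀ + r * e - u)) (ζ : ℂ) :
    Complex.normSq (z₀ + r * (ζ * e) - v) - Complex.normSq (z₀ + r * (ζ * e) - u) =
      2 * r * ((ζ.re - 1) * ((starRingEnd ℂ) e * (u - v)).re +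
        ζ.im * ((starRingEnd ℂ) e * (u - v)).im) := by
  simp only [Complex.normSq_apply, Complex.sub_re, Complex.sub_im, Complex.add_re,
      Complex.add_im, Complex.mul_re, Complex.mul_im, Complex.ofReal_re, Complex.ofReal_im,
      Complex.conj_re, Complex.conj_im] at h1 ⊢
  linear_combination h1

theorem cis_re (s : ℝ) : (cis s).re = Real.cos s := Complex.exp_ofReal_mul_I_re s

theorem cis_im (s : ℝ) : (cis s).im = Real.sin s := Complex.exp_ofReal_mul_I_im s

theorem normSq_cis (s : ℝ) : Complex.normSq (cis s) = 1 := by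
  rw [Complex.normSq_eq_norm_sq, norm_cis, one_pow]

theorem cis_mul_conj (s : ℝ) : cis s * (starRingEnd ℂ) (cis s) = 1 := by
  rw [Complex.mul_conj, normSq_cis]
  simp

/-- on the circle there are points near `z₀ + r e^{it}` which are nearer to `v` than to `u` -/
theorem freq_circle {z₀ v u : ℂ} {r t : ℝ} (hr : 0 < r) (hvu : v ≠ u)
    (h1 : dist (z₀ + r * cis t) v = dist (z₀ + r * cis t) u) {z2 : ℂ}
    (hz2 : z2 ∈ closedBall z₀ r) (hne : z2 ≠ z₀ + r * cis t) (h2 : dist z2 v ≤ dist z2 u) :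
    ∃ᶠ s in 𝓝 (0 : ℝ), dist (z₀ + r * cis (t + s)) v < dist (z₀ + r * cis (t + s)) u := by
  set e := cis t with he
  set p := ((starRingEnd ℂ) e * (u - v)).re with hp
  set q := ((starRingEnd ℂ) e * (u - v)).im with hq
  have h1' : Complex.normSq (z₀ + r * e - v) = Complex.normSq (z₀ + r * e - u) := by
    rw [Complex.normSq_eq_norm_sq, Complex.normSq_eq_norm_sq, ← dist_eq_norm, ← dist_eq_norm, h1]
  have hform := diff_formula h1'
  by_contra hcon
  rw [not_frequently] at hcon
  have hev : ∀ᶠ s in 𝓝 (0 : ℝ), 0 ≤ (Real.cos s - 1) * p + Real.sin s * q := by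
    filter_upwards [hcon] with s hs
    push Not at hs
    rw [dist_eq_norm, dist_eq_norm, ← sq_le_sq₀ (norm_nonneg _) (norm_nonneg _),
      ← Complex.normSq_eq_norm_sq, ← Complex.normSq_eq_norm_sq, cis_add,
      mul_comm (cis t) (cis s)] at hs
    have h3 := hform (cis s)
    rw [cis_re, cis_im] at h3
    have h4 : 0 ≤ 2 * r * ((Real.cos s - 1) * p + Real.sin s * q) := by
      rw [← h3]; linarith
    exact nonneg_of_mul_nonneg_right h4 (by positivity)
  have hq0 : q = 0 := by
    have hd : HasDerivAt (fun s => (Real.cos s - 1) * p + Real.sin s * q)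
        (-Real.sin 0 * p + Real.cos 0 * q) 0 :=
      (((Real.hasDerivAt_cos 0).sub_const 1).mul_const p).add ((Real.hasDerivAt_sin 0).mul_const q)
    have hmin : IsLocalMin (fun s => (Real.cos s - 1) * p + Real.sin s * q) 0 := by
      filter_upwards [hev] with s hs
      simpa using hs
    have := hmin.hasDerivAt_eq_zero hd
    simpa using this
  have hp0 : p ≤ 0 := by
    have e1 : ∀ᶠ s in 𝓝[>] (0 : ℝ), 0 ≤ (Real.cos s - 1) * p + Real.sin s * q :=
      hev.filter_mono nhdsWithin_le_nhds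
    have e2 : ∀ᶠ s in 𝓝[>] (0 : ℝ), s < Real.pi :=
      mem_nhdsWithin_of_mem_nhds (Iio_mem_nhds Real.pi_pos)
    have e3 : ∀ᶠ s in 𝓝[>] (0 : ℝ), 0 < s := self_mem_nhdsWithin
    obtain ⟨s, s1, s2, s3⟩ := (e1.and (e2.and e3)).exists
    have h5 : Real.cos s < 1 := by
      rw [← Real.cos_zero]
      exact Real.cos_lt_cos_of_nonneg_of_le_pi le_rfl s2.le s3
    rw [hq0, mul_zero, add_zero] at s1
    by_contra hcon
    push Not at hcon
    nlinarith
  -- the point `z2`
  set ζ : ℂ := (z2 - z₀) * (starRingEnd ℂ) e / r with hζ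
  have hr0 : (r : ℂ) ≠ 0 := by exact_mod_cast hr.ne'
  have hz : z₀ + r * (ζ * e) = z2 := by
    have : e * (starRingEnd ℂ) e = 1 := cis_mul_conj t
    rw [hζ]
    field_simp
    linear_combination (z2 - z₀) * this
  have hζ1 : Complex.normSq ζ ≤ 1 := by
    rw [hζ, map_div₀, map_mul, Complex.normSq_conj, he, normSq_cis, mul_one,
      Complex.normSq_ofReal, div_le_one (by positivity), Complex.normSq_eq_norm_sq]
    rw [mem_closedBall, dist_eq_norm] at hz2
    nlinarith [norm_nonneg (z2 - z₀)]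
  have hζr : ζ.re < 1 := by
    by_contra hcon
    push Not at hcon
    rw [Complex.normSq_apply] at hζ1
    have a1 : ζ.re = 1 := by nlinarith [mul_self_nonneg ζ.im]
    have a2 : ζ.im = 0 := by
      rw [a1] at hζ1
      nlinarith [mul_self_nonneg ζ.im]
    have a3 : ζ = 1 := Complex.ext a1 a2
    rw [a3, one_mul] at hz
    exact hne hz.symm
  have h6 := hform ζ
  rw [hz, ← hp, ← hq, hq0, mul_zero, add_zero] at h6
  have h7 : Complex.normSq (z2 - v) ≤ Complex.normSq (z2 - u) := by
    rw [Complex.normSq_eq_norm_sq, Complex.normSq_eq_norm_sq, ← dist_eq_norm, ← dist_eq_norm]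
    exact pow_le_pow_left₀ dist_nonneg h2 2
  have hp1 : p = 0 := by
    rcases hp0.eq_or_lt with h8 | h8
    · exact h8
    · have : 0 < 2 * r * ((ζ.re - 1) * p) := by
        have := mul_pos_of_neg_of_neg (show ζ.re - 1 < 0 by linarith) h8
        positivity
      linarith
  have h9 : (starRingEnd ℂ) e * (u - v) = 0 := Complex.ext hp1 hq0
  have h10 : (starRingEnd ℂ) e ≠ 0 := by
    rw [map_ne_zero]
    intro h0
    have := normSq_cis t
    rw [← he, h0, map_zero] at this
    exact zero_ne_one this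
  rcases mul_eq_zero.1 h9 with h11 | h11
  · exact h10 h11
  · exact hvu (sub_eq_zero.1 h11).symm

/-- general position with respect to a circle `S` and marked points `M` -/
structure Gen (X : Set (ℂ × Bool)) (S M : Set ℂ) : Prop where
  pos : ∀ v c d, (v, c) ∈ X → (v, d) ∈ X → c = d
  four : ∀ z, ¬ Equi X 3 z
  three : ∀ z ∈ S, ¬ Equi X 2 z
  two : ∀ z ∈ M, ¬ Equi X 1 z

theorem Gen.ne {X : Set (ℂ × Bool)} {S M : Set ℂ} (hg : Gen X S M) {c : Bool} {v u : ℂ}
    (hv : (v, c) ∈ X) (hu : (u, !c) ∈ X) : v ≠ u := by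
  rintro rfl
  have := hg.pos v c (!c) hv hu
  cases c <;> simp at this

theorem equi_one {X : Set (ℂ × Bool)} {z v u : ℂ} {c d : Bool} (hv : (v, c) ∈ X)
    (hu : (u, d) ∈ X) (h1 : v ≠ u) (e1 : dist z u = dist z v) : Equi X 1 z := by
  refine ⟨![v, u], ?_, ?_, ?_⟩
  · intro i j hij
    fin_cases i <;> fin_cases j <;> simp_all
  · intro i
    fin_cases i
    · exact ⟨c, hv⟩
    · exact ⟨d, hu⟩
  · intro i
    fin_cases i
    · rfl
    · exact e1

theorem equi_two {X : Set (ℂ × Bool)} {z v u w : ℂ} {c d e : Bool} (hv : (v, c) ∈ X)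
    (hu : (u, d) ∈ X) (hw : (w, e) ∈ X) (h1 : v ≠ u) (h2 : v ≠ w) (h3 : u ≠ w)
    (e1 : dist z u = dist z v) (e2 : dist z w = dist z v) : Equi X 2 z := by
  refine ⟨![v, u, w], ?_, ?_, ?_⟩
  · intro i j hij
    fin_cases i <;> fin_cases j <;> simp_all
  · intro i
    fin_cases i
    · exact ⟨c, hv⟩
    · exact ⟨d, hu⟩
    · exact ⟨e, hw⟩
  · intro i
    fin_cases i
    · rfl
    · exact e1
    · exact e2

theorem equi_three {X : Set (ℂ × Bool)} {z v u w x : ℂ} {c d e f : Bool} (hv : (v, c) ∈ X)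
    (hu : (u, d) ∈ X) (hw : (w, e) ∈ X) (hx : (x, f) ∈ X) (h1 : v ≠ u) (h2 : v ≠ w) (h3 : u ≠ w)
    (h4 : v ≠ x) (h5 : u ≠ x) (h6 : w ≠ x)
    (e1 : dist z u = dist z v) (e2 : dist z w = dist z v) (e3 : dist z x = dist z v) :
    Equi X 3 z := by
  refine ⟨![v, u, w, x], ?_, ?_, ?_⟩
  · intro i j hij
    fin_cases i <;> fin_cases j <;> simp_all
  · intro i
    fin_cases i
    · exact ⟨c, hv⟩
    · exact ⟨d, hu⟩
    · exact ⟨e, hw⟩
    · exact ⟨f, hx⟩
  · intro i
    fin_cases i
    · rfl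
    · exact e1
    · exact e2
    · exact e3

/-- two neighbouring cells of the same colour -/
theorem step_inner {X : Set (ℂ × Bool)} (h : Good X) {z₀ : ℂ} {r : ℝ} {M : Set ℂ}
    (hg : Gen X (sphere z₀ r) M) {c : Bool} {v w : ℂ} (hv : (v, c) ∈ X) (hw : (w, c) ∈ X)
    (hvw : v ≠ w) {z : ℂ} (hz : z ∈ closedBall z₀ r) (hzv : z ∈ cell X v) (hzw : z ∈ cell X w) :
    ∃ z', z' ∈ scell X c (closedBall z₀ r) v ∧ z' ∈ scell X c (closedBall z₀ r) w := by
  have e : dist z v = dist z w := le_antisymm (hzv (w, c) hw) (hzw (v, c) hv)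
  by_cases hu : ∃ u, (u, !c) ∈ X ∧ dist z u ≤ dist z v
  · obtain ⟨u, hu, hud⟩ := hu
    have e2 : dist z u = dist z v := le_antisymm hud (hzv (u, !c) hu)
    have huv : v ≠ u := hg.ne hv hu
    have huw : w ≠ u := hg.ne hw hu
    have hzb : z ∈ ball z₀ r := by
      rcases (mem_closedBall.1 hz).eq_or_lt with h1 | h1
      · exact absurd (equi_two hv hw hu hvw huv huw e.symm e2) (hg.three z h1)
      · exact h1
    obtain ⟨δ, hδ, hgap⟩ := h.gap z (F := {v, w, u}) (ρ := dist z v) (by
      rintro ⟨x, f⟩ hx hxF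
      simp only [mem_insert_iff, mem_singleton_iff, not_or] at hxF
      refine lt_of_le_of_ne (hzv _ hx) fun h2 => ?_
      exact hg.four z (equi_three hv hw hu hx hvw huv huw (Ne.symm hxF.1) (Ne.symm hxF.2.1)
        (Ne.symm hxF.2.2) e.symm e2 h2.symm))
    obtain ⟨η, hη⟩ := exists_dir hvw huv huw e e2.symm
    obtain ⟨t, ht0, ht1, ht2⟩ : ∃ t : ℝ, 0 < t ∧ t * ‖η‖ < δ / 2 ∧ t * ‖η‖ < r - dist z z₀ := by
      have hm : 0 < min (δ / 2) (r - dist z z₀) := lt_min (by positivity) (by
        have := mem_ball.1 hzb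
        linarith)
      refine ⟨min (δ / 2) (r - dist z z₀) / (‖η‖ + 1), by positivity, ?_, ?_⟩
      · rw [div_mul_eq_mul_div, div_lt_iff₀ (by positivity)]
        have := min_le_left (δ / 2) (r - dist z z₀)
        nlinarith [norm_nonneg η]
      · rw [div_mul_eq_mul_div, div_lt_iff₀ (by positivity)]
        have := min_le_right (δ / 2) (r - dist z z₀)
        nlinarith [norm_nonneg η]
    obtain ⟨k1, k2⟩ := hη t ht0
    have hd : dist (z + t * η) z = t * ‖η‖ := by
      rw [dist_eq_norm, add_sub_cancel_left, norm_mul, Complex.norm_real, Real.norm_eq_abs,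
        abs_of_pos ht0]
    have hfar : ∀ p ∈ X, p.1 ∉ ({v, w, u} : Set ℂ) →
        dist (z + t * η) v < dist (z + t * η) p.1 := by
      intro p hp hpF
      have h3 := hgap p hp hpF
      have h4 := dist_triangle (z + t * η) z v
      have h5 := dist_triangle z (z + t * η) p.1
      rw [dist_comm z (z + t * η)] at h5
      linarith
    have hb : z + t * η ∈ closedBall z₀ r := by
      rw [mem_closedBall]
      have := dist_triangle (z + t * η) z z₀
      linarith
    have hcell : z + t * η ∈ cell X v := by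
      intro p hp
      by_cases hpF : p.1 ∈ ({v, w, u} : Set ℂ)
      · rcases hpF with h6 | h6 | h6
        · rw [h6]
        · rw [h6]; exact k1.le
        · rw [h6]; exact k2.le
      · exact (hfar p hp hpF).le
    have hcol : ∀ q, (q, !c) ∈ X → dist (z + t * η) v < dist (z + t * η) q := by
      intro q hq
      by_cases hqF : q ∈ ({v, w, u} : Set ℂ)
      · rcases hqF with h6 | h6 | h6
        · exact absurd h6.symm (hg.ne hv hq)
        · exact absurd h6.symm (hg.ne hw hq)
        · have h7 : q = u := h6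
          rw [h7]; exact k2
      · exact hfar _ hq hqF
    refine ⟨z + t * η, ⟨hb, hcell, hcol⟩, hb, ?_, ?_⟩
    · intro p hp
      rw [← k1]
      exact hcell p hp
    · intro q hq
      rw [← k1]
      exact hcol q hq
  · push Not at hu
    refine ⟨z, ⟨hz, hzv, fun u hu' => hu u hu'⟩, hz, hzw, fun u hu' => ?_⟩
    rw [← e]
    exact hu u hu'

/-- the end of a crossing -/
theorem step_end {X : Set (ℂ × Bool)} (h : Good X) {z₀ : ℂ} {r : ℝ} (hr : 0 < r) {M : Set ℂ}
    (hg : Gen X (sphere z₀ r) M) {c : Bool} {v : ℂ} (hv : (v, c) ∈ X) {a b : ℝ}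
    (haM : z₀ + r * cis a ∈ M) (hbM : z₀ + r * cis b ∈ M) {t : ℝ} (ht : t ∈ Icc a b)
    (hzv : z₀ + r * cis t ∈ cell X v) {z2 : ℂ} (hz2 : z2 ∈ closedBall z₀ r)
    (hz2v : z2 ∈ cell X v) (hne : z2 ≠ z₀ + r * cis t) :
    ∃ s ∈ Icc a b, z₀ + r * cis s ∈ scell X c (closedBall z₀ r) v := by
  have hsph : ∀ s, z₀ + r * cis s ∈ sphere z₀ r := by
    intro s
    rw [mem_sphere, dist_eq_norm, add_sub_cancel_left, norm_mul, norm_cis, mul_one,
      Complex.norm_real, Real.norm_eq_abs, abs_of_pos hr]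
  by_cases hu : ∃ u, (u, !c) ∈ X ∧ dist (z₀ + r * cis t) u ≤ dist (z₀ + r * cis t) v
  · obtain ⟨u, hu, hud⟩ := hu
    have e2 : dist (z₀ + r * cis t) u = dist (z₀ + r * cis t) v :=
      le_antisymm hud (hzv (u, !c) hu)
    have huv : v ≠ u := hg.ne hv hu
    have hta : t ≠ a := by
      rintro rfl
      exact hg.two _ haM (equi_one hv hu huv e2)
    have htb : t ≠ b := by
      rintro rfl
      exact hg.two _ hbM (equi_one hv hu huv e2)
    obtain ⟨δ, hδ, hgap⟩ := h.gap (z₀ + r * cis t) (F := {v, u})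
      (ρ := dist (z₀ + r * cis t) v) (by
      rintro ⟨x, f⟩ hx hxF
      simp only [mem_insert_iff, mem_singleton_iff, not_or] at hxF
      refine lt_of_le_of_ne (hzv _ hx) fun h2 => ?_
      exact hg.three _ (hsph t) (equi_two hv hu hx huv (Ne.symm hxF.1) (Ne.symm hxF.2)
        e2 h2.symm))
    have hfr := freq_circle hr huv e2.symm hz2 hne (hz2v (u, !c) hu)
    have hcont : Continuous fun s : ℝ => z₀ + r * cis (t + s) := by
      have := continuous_cis
      fun_prop
    have h1 : ∀ᶠ s in 𝓝 (0 : ℝ), dist (z₀ + r * cis (t + s)) (z₀ + r * cis t) < δ / 2 := by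
      have h2 : Tendsto (fun s : ℝ => z₀ + r * cis (t + s)) (𝓝 0) (𝓝 (z₀ + r * cis t)) := by
        have := hcont.tendsto 0
        simpa using this
      exact h2 (ball_mem_nhds _ (by positivity))
    have h2 : ∀ᶠ s in 𝓝 (0 : ℝ), t + s ∈ Ioo a b := by
      have h3 : Tendsto (fun s : ℝ => t + s) (𝓝 0) (𝓝 t) := by
        have : Continuous fun s : ℝ => t + s := by fun_prop
        simpa using this.tendsto 0
      exact h3 (Ioo_mem_nhds (lt_of_le_of_ne ht.1 hta.symm) (lt_of_le_of_ne ht.2 htb))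
    obtain ⟨s, s1, s2, s3⟩ := (hfr.and_eventually (h1.and h2)).exists
    have hfar : ∀ p ∈ X, p.1 ∉ ({v, u} : Set ℂ) →
        dist (z₀ + r * cis (t + s)) v < dist (z₀ + r * cis (t + s)) p.1 := by
      intro p hp hpF
      have h3 := hgap p hp hpF
      have h4 := dist_triangle (z₀ + r * cis (t + s)) (z₀ + r * cis t) v
      have h5 := dist_triangle (z₀ + r * cis t) (z₀ + r * cis (t + s)) p.1
      rw [dist_comm (z₀ + r * cis t) (z₀ + r * cis (t + s))] at h5
      linarith
    refine ⟨t + s, Ioo_subset_Icc_self s3, sphere_subset_closedBall (hsph _), ?_, ?_⟩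
    · intro p hp
      by_cases hpF : p.1 ∈ ({v, u} : Set ℂ)
      · rcases hpF with h6 | h6
        · rw [h6]
        · rw [h6]; exact s1.le
      · exact (hfar p hp hpF).le
    · intro q hq
      by_cases hqF : q ∈ ({v, u} : Set ℂ)
      · rcases hqF with h6 | h6
        · exact absurd h6.symm (hg.ne hv hq)
        · have h7 : q = u := h6
          rw [h7]; exact s1
      · exact hfar _ hq hqF
  · push Not at hu
    exact ⟨t, ht, sphere_subset_closedBall (hsph t), hzv, fun u hu' => hu u hu'⟩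

end P148.H70
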