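import Vale.Agent.P148.H70.Strict2

/-!
# P148: a closed crossing of a disc gives a strict crossing, in general position
-/

open Set MeasureTheory ProbabilityTheory Filter Topology Metric
open scoped ENNReal

namespace P148.H70

theorem Good.finite_cells {X : Set (ℂ × Bool)} (h : Good X) (c : Bool) {D : Set ℂ}
    (hD : Bornology.IsBounded D) : {v | (v, c) ∈ X ∧ (cell X v ∩ D).Nonempty}.Finite := by
  obtain ⟨v₀, hv₀⟩ := h.ne c
  obtain ⟨R, hR⟩ := hD.subset_closedBall 0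
  obtain ⟨N, hN⟩ := exists_nat_gt (R + (R + ‖v₀‖))
  refine (h.fin N c).subset ?_
  rintro v ⟨hv, z, hz, hzD⟩
  refine ⟨hv, ?_⟩
  rw [mem_closedBall_zero_iff]
  have h1 : ‖z‖ ≤ R := by simpa using hR hzD
  have h2 : dist z v ≤ dist z v₀ := hz (v₀, c) hv₀
  have h3 : dist z v₀ ≤ ‖z‖ + ‖v₀‖ := by rw [dist_eq_norm]; exact norm_sub_le _ _
  have h4 : ‖v‖ ≤ ‖z‖ + dist z v := by
    rw [dist_eq_norm]
    calc ‖v‖ = ‖z - (z - v)‖ := by congr 1; ring
      _ ≤ _ := norm_sub_le _ _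
  linarith

/-- a connected set in the region of colour `c` follows a chain of neighbouring cells -/
theorem chain_cells {X : Set (ℂ × Bool)} (h : Good X) (c : Bool) {D : Set ℂ} (hD : IsCompact D)
    {C : Set ℂ} (hC : IsPreconnected C) (hCD : C ⊆ region X c ∩ D) {a b : ℂ} (ha : a ∈ C)
    (hb : b ∈ C) : ∃ v w, (v, c) ∈ X ∧ a ∈ cell X v ∧ (w, c) ∈ X ∧ b ∈ cell X w ∧
      Relation.ReflTransGen (fun x y => (x, c) ∈ X ∧ (y, c) ∈ X ∧
        (cell X x ∩ cell X y ∩ D).Nonempty) v w := by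
  set r : ℂ → ℂ → Prop := fun x y => (x, c) ∈ X ∧ (y, c) ∈ X ∧
        (cell X x ∩ cell X y ∩ D).Nonempty with hr
  obtain ⟨⟨v, hv, hva⟩, haD⟩ := hCD ha
  set V : Set ℂ := {v | (v, c) ∈ X ∧ (cell X v ∩ D).Nonempty} with hV
  have hVf : V.Finite := h.finite_cells c hD.isBounded
  set S₁ : Set ℂ := ⋃ w ∈ V ∩ {w | Relation.ReflTransGen r v w}, cell X w ∩ D with hS₁
  set S₂ : Set ℂ := ⋃ w ∈ V ∩ {w | ¬ Relation.ReflTransGen r v w}, cell X w ∩ D with hS₂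
  have c1 : IsClosed S₁ := (hVf.inter_of_left _).isClosed_biUnion fun w _ =>
    (isClosed_cell X w).inter hD.isClosed
  have c2 : IsClosed S₂ := (hVf.inter_of_left _).isClosed_biUnion fun w _ =>
    (isClosed_cell X w).inter hD.isClosed
  have hcov : C ⊆ S₁ ∪ S₂ := by
    intro z hz
    obtain ⟨⟨w, hw, hwz⟩, hzD⟩ := hCD hz
    by_cases h1 : Relation.ReflTransGen r v w
    · exact Or.inl (mem_biUnion ⟨⟨hw, z, hwz, hzD⟩, h1⟩ ⟨hwz, hzD⟩)
    · exact Or.inr (mem_biUnion ⟨⟨hw, z, hwz, hzD⟩, h1⟩ ⟨hwz, hzD⟩)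
  have hdis : S₁ ∩ S₂ = ∅ := by
    rw [Set.eq_empty_iff_forall_notMem]
    rintro z ⟨h1, h2⟩
    obtain ⟨w, hw, hwz⟩ := mem_iUnion₂.1 h1
    obtain ⟨w', hw', hwz'⟩ := mem_iUnion₂.1 h2
    exact hw'.2 (Relation.ReflTransGen.tail hw.2 ⟨hw.1.1, hw'.1.1, z, ⟨hwz.1, hwz'.1⟩, hwz.2⟩)
  have ha1 : a ∈ S₁ := mem_biUnion ⟨⟨hv, a, hva, haD⟩, Relation.ReflTransGen.refl⟩ ⟨hva, haD⟩
  have hsub : C ⊆ S₁ := by
    rcases isPreconnected_iff_subset_of_disjoint_closed.1 hC S₁ S₂ c1 c2 hcov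
      (by rw [hdis, inter_empty]) with h3 | h3
    · exact h3
    · exfalso
      have : a ∈ S₁ ∩ S₂ := ⟨ha1, h3 ha⟩
      rw [hdis] at this
      exact this
  obtain ⟨w, hw, hwb⟩ := mem_iUnion₂.1 (hsub hb)
  exact ⟨v, w, hv, hva, hw.1.1, hwb.1, hw.2⟩

theorem joined_scell {X : Set (ℂ × Bool)} {c : Bool} {D : Set ℂ} (hD : Convex ℝ D) {v : ℂ}
    (hv : (v, c) ∈ X) {x y : ℂ} (hx : x ∈ scell X c D v) (hy : y ∈ scell X c D v) :
    JoinedIn ((region X (!c))ᶜ ∩ D) x y :=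
  JoinedIn.of_segment_subset
    (((convex_scell X c hD v).segment_subset hx hy).trans (scell_subset D hv))

/-- **A closed crossing gives a strict crossing.** -/
theorem strict_of_closed {X : Set (ℂ × Bool)} (h : Good X) {z₀ : ℂ} {r : ℝ} (hr : 0 < r)
    {M : Set ℂ} (hg : Gen X (sphere z₀ r) M) {c : Bool} {a b a' b' : ℝ}
    (haM : z₀ + r * cis a ∈ M) (hbM : z₀ + r * cis b ∈ M) (haM' : z₀ + r * cis a' ∈ M)
    (hbM' : z₀ + r * cis b' ∈ M)
    (hdis : ∀ s ∈ Icc a b, ∀ t ∈ Icc a' b', z₀ + r * cis s ≠ z₀ + r * cis t)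
    {C : Set ℂ} (hC : IsPreconnected C) (hCD : C ⊆ region X c ∩ closedBall z₀ r)
    {s t : ℝ} (hs : s ∈ Icc a b) (ht : t ∈ Icc a' b') (hsC : z₀ + r * cis s ∈ C)
    (htC : z₀ + r * cis t ∈ C) :
    ∃ s' ∈ Icc a b, ∃ t' ∈ Icc a' b',
      JoinedIn ((region X (!c))ᶜ ∩ closedBall z₀ r) (z₀ + r * cis s') (z₀ + r * cis t') := by
  obtain ⟨v, w, hv, hvs, hw, hwt, hvw⟩ :=
    chain_cells h c (isCompact_closedBall z₀ r) hC hCD hsC htC
  have hconv := convex_closedBall z₀ r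
  have hsD := (hCD hsC).2
  have htD := (hCD htC).2
  -- the statement along the chain
  have key : ∀ w, Relation.ReflTransGen (fun x y => (x, c) ∈ X ∧ (y, c) ∈ X ∧
        (cell X x ∩ cell X y ∩ closedBall z₀ r).Nonempty) v w →
      w = v ∨ ∃ s' ∈ Icc a b, ∃ y ∈ scell X c (closedBall z₀ r) w,
        JoinedIn ((region X (!c))ᶜ ∩ closedBall z₀ r) (z₀ + r * cis s') y := by
    intro w hvw
    induction hvw with
    | refl => exact Or.inl rfl
    | @tail x y hvx hxy ih =>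
      obtain ⟨hx, hy, z, ⟨hzx, hzy⟩, hzD⟩ := hxy
      by_cases hxy' : x = y
      · rw [← hxy']; exact ih
      right
      obtain ⟨z', hz1, hz2⟩ := step_inner h hg hx hy hxy' hzD hzx hzy
      rcases ih with ih | ⟨s', hs', y', hy', hj⟩
      · subst ih
        by_cases hne : z' = z₀ + r * cis s
        · refine ⟨s, hs, z', hz2, ?_⟩
          rw [hne]
          exact JoinedIn.refl (scell_subset _ hx (hne ▸ hz1))
        · obtain ⟨s', hs', hs1⟩ := step_end h hr hg hx haM hbM hs hvs hz1.1 hz1.2.1 hne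
          exact ⟨s', hs', z', hz2, joined_scell hconv hx hs1 hz1⟩
      · exact ⟨s', hs', z', hz2, hj.trans (joined_scell hconv hx hy' hz1)⟩
  rcases key w hvw with h1 | ⟨s', hs', y, hy, hj⟩
  · subst h1
    obtain ⟨s', hs', hs1⟩ := step_end h hr hg hw haM hbM hs hvs htD hwt
      (hdis s hs t ht).symm
    obtain ⟨t', ht', ht1⟩ := step_end h hr hg hw haM' hbM' ht hwt hsD hvs (hdis s hs t ht)
    exact ⟨s', hs', t', ht', joined_scell hconv hw hs1 ht1⟩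
  · by_cases hne : y = z₀ + r * cis t
    · exact ⟨s', hs', t, ht, hne ▸ hj⟩
    · obtain ⟨t', ht', ht1⟩ := step_end h hr hg hw haM' hbM' ht hwt hy.1 hy.2.1 hne
      exact ⟨s', hs', t', ht', hj.trans (joined_scell hconv hw hy ht1)⟩

theorem aff_image_closedBall (z₀ : ℂ) {r : ℝ} (hr : 0 < r) :
    aff z₀ r hr.ne' '' closedBall 0 1 = closedBall z₀ r := by
  have hr0 : (r : ℂ) ≠ 0 := by exact_mod_cast hr.ne'
  ext z
  constructor
  · rintro ⟨w, hw, rfl⟩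
    rw [mem_closedBall_zero_iff] at hw
    rw [aff_apply, mem_closedBall, dist_eq_norm, add_sub_cancel_left, norm_mul, Complex.norm_real,
      Real.norm_eq_abs, abs_of_pos hr]
    nlinarith
  · intro hz
    refine ⟨(z - z₀) / r, ?_, ?_⟩
    · rw [mem_closedBall_zero_iff, norm_div, Complex.norm_real, Real.norm_eq_abs, abs_of_pos hr,
        div_le_one hr, ← dist_eq_norm]
      exact hz
    · rw [aff_apply]
      field_simp
      ring

/-- the endpoints of the four arcs -/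
noncomputable def marks4 (z₀ : ℂ) (r a b c d : ℝ) : Set ℂ :=
  {z₀ + r * cis a, z₀ + r * cis b, z₀ + r * cis c, z₀ + r * cis d}

/-- **Exclusion**: in general position there are no crossings of both colours. -/
theorem not_both {X : Set (ℂ × Bool)} (h : Good X) {z₀ : ℂ} {r : ℝ} (hr : 0 < r) {a b c d : ℝ}
    (h2 : b < c) (h4 : d < a + 2 * Real.pi)
    (hg : Gen X (sphere z₀ r) (marks4 z₀ r a b c d))
    (hc1 : Crosses true X (aff z₀ r hr.ne' '' closedBall 0 1)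
      (aff z₀ r hr.ne' '' (cis '' Icc a b)) (aff z₀ r hr.ne' '' (cis '' Icc c d)))
    (hc2 : Crosses false X (aff z₀ r hr.ne' '' closedBall 0 1)
      (aff z₀ r hr.ne' '' (cis '' Icc b c)) (aff z₀ r hr.ne' '' (cis '' Icc d (a + 2 * Real.pi)))) :
    False := by
  set Φ := aff z₀ r hr.ne' with hΦ
  have hD : Φ '' closedBall 0 1 = closedBall z₀ r := aff_image_closedBall z₀ hr
  have hDc : IsCompact (Φ '' closedBall (0 : ℂ) 1) := by rw [hD]; exact isCompact_closedBall _ _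
  have hdis := (qd_arc Φ (a := a) (b := b) (c := c) (d := d) h2 h4).hAB
  obtain ⟨C, hC1, hC2, ⟨_, hsC, ⟨_, ⟨s, hs, rfl⟩, rfl⟩⟩, ⟨_, htC, ⟨_, ⟨t, ht, rfl⟩, rfl⟩⟩⟩ := hc1
  rw [hD] at hC1
  obtain ⟨s', hs', t', ht', hj⟩ := strict_of_closed h hr hg (c := true) (a := a) (b := b)
    (a' := c) (b' := d) (by simp [marks4]) (by simp [marks4]) (by simp [marks4])
    (by simp [marks4]) (by
      intro s hs t ht he
      exact Set.disjoint_left.1 hdis ⟨_, ⟨s, hs, rfl⟩, rfl⟩ ⟨_, ⟨t, ht, rfl⟩, he.symm⟩)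
    hC2.isPreconnected hC1 hs ht hsC htC
  -- the black path
  have hblack : Conn (Φ ⁻¹' (region X false)ᶜ ∩ closedBall 0 1) (cis '' Icc a b)
      (cis '' Icc c d) := by
    rw [conn_transport Φ, hD]
    refine ⟨range hj.somePath, ?_, isCompact_range hj.somePath.continuous,
      isPreconnected_range hj.somePath.continuous, ?_, ?_⟩
    · rintro _ ⟨x, rfl⟩
      exact hj.somePath_mem x
    · exact ⟨_, ⟨0, hj.somePath.source⟩, ⟨_, ⟨s', hs', rfl⟩, rfl⟩⟩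
    · exact ⟨_, ⟨1, hj.somePath.target⟩, ⟨_, ⟨t', ht', rfl⟩, rfl⟩⟩
  rw [crosses_iff_conn h false hDc, ← conn_transport Φ] at hc2
  obtain ⟨A, A1, A2, A3, ⟨_, A4, ⟨x, hx, rfl⟩⟩, ⟨_, A5, ⟨y, hy, rfl⟩⟩⟩ := hblack
  obtain ⟨B, B1, B2, B3, ⟨_, B4, ⟨u, hu, rfl⟩⟩, ⟨_, B5, ⟨v, hv, rfl⟩⟩⟩ := hc2
  have hne : (A ∩ B).Nonempty := by
    rcases le_total v (x + 2 * Real.pi) with h5 | h5
    · exact weak_cross A2 A3 (A1.trans inter_subset_right) B2 B3 (B1.trans inter_subset_right)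
        (hx.2.trans hu.1) (hu.2.trans hy.1) (hy.2.trans hv.1) h5 A4 A5 B4 B5
    · have h6 : v = x + 2 * Real.pi := le_antisymm (by linarith [hv.2, hx.1]) h5
      exact ⟨cis x, A4, by rw [← cis_add_two_pi, ← h6]; exact B5⟩
  obtain ⟨p, hp1, hp2⟩ := hne
  exact (A1 hp1).1 (B1 hp2).1

end P148.H70
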